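import Vale.Agent.P255.Defs

/-!
Geodesic completeness, Riemannian measures and smooth domains.
-/

namespace Vale.Agent.P219

open scoped ContDiff Manifold ENNReal
open Vale.Agent.P255 MeasureTheory Set

/-- Euclidean `k`-space. -/
abbrev Euc (k : ℕ) : Type := EuclideanSpace ℝ (Fin k)

variable {n : ℕ} {M : Type*} [TopologicalSpace M] [ChartedSpace (Euc n) M]

/-- Geodesic completeness: every tangent vector is the initial velocity of a geodesic defined for
all times. -/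
def Complete (g : Metric (Euc n) M) : Prop :=
  ∀ (x : M) (v : Euc n),
    ∃ γ, g.IsGeodesic γ univ ∧ γ 0 = x ∧ deriv (chartAt (Euc n) x ∘ γ) 0 = v

/-- The pull-back of the metric under `φ` at `z`: `g(dφ u, dφ v)`. -/
noncomputable def pull (g : Metric (Euc n) M) {k : ℕ} (φ : Euc k → M) (z u v : Euc k) : ℝ :=
  g.g (chartAt (Euc n) (φ z)) (chartAt (Euc n) (φ z) (φ z))
    (fderiv ℝ (chartAt (Euc n) (φ z) ∘ φ) z u) (fderiv ℝ (chartAt (Euc n) (φ z) ∘ φ) z v)

/-- The `k`-dimensional volume element `√det g(∂ᵢφ, ∂ⱼφ)` of a parametrisation. -/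
noncomputable def dens (g : Metric (Euc n) M) {k : ℕ} (φ : Euc k → M) (z : Euc k) : ℝ :=
  √(Matrix.of fun i j : Fin k =>
    pull g φ z (EuclideanSpace.single i 1) (EuclideanSpace.single j 1)).det

/-- The `k`-dimensional Riemannian measure of `Z`: the supremum of the total volume of finitely
many disjoint pieces of `Z` parametrised injectively by `C¹` maps on Borel sets of `ℝᵏ`. -/
noncomputable def rmeas (g : Metric (Euc n) M) (k : ℕ) (Z : Set M) : ℝ≥0∞ :=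
  ⨆ (N : ℕ) (φ : Fin N → Euc k → M) (S : Fin N → Set (Euc k))
    (_ : ∀ i, MeasurableSet (S i) ∧ (∀ z ∈ S i, ContMDiffAt 𝓘(ℝ, Euc k) 𝓘(ℝ, Euc n) 1 (φ i) z) ∧
      InjOn (φ i) (S i) ∧ MapsTo (φ i) (S i) Z)
    (_ : ∀ i j, i ≠ j → Disjoint (φ i '' S i) (φ j '' S j)),
    ∑ i, ∫⁻ z in S i, ENNReal.ofReal (dens g (φ i) z)

/-- A domain: an open set with compact closure and smooth boundary. -/
structure IsDomain (n : ℕ) {M : Type*} [TopologicalSpace M] [ChartedSpace (Euc n) M]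
    (Ω : Set M) : Prop where
  isOpen : IsOpen Ω
  compact : IsCompact (closure Ω)
  bdry : ∀ p ∈ frontier Ω, ∃ (U : Set M) (f : M → ℝ), IsOpen U ∧ p ∈ U ∧
    ContMDiffOn 𝓘(ℝ, Euc n) 𝓘(ℝ, ℝ) ∞ f U ∧ mfderiv 𝓘(ℝ, Euc n) 𝓘(ℝ, ℝ) f p ≠ 0 ∧
      Ω ∩ U = {x ∈ U | f x < 0}

end Vale.Agent.P219
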