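import Vale.Agent.P255.Loc
import Vale.Agent.P219.Defs

/-!
# Working definitions (see `notes/P219.md` for the proof)

Everything happens in one global chart `E` with metric coefficients `G` and logarithm map `L`
(`L y x` is the inverse exponential map at `y` applied to `x`).
-/

namespace Vale.Agent.P219

open scoped ContDiff Topology RealInnerProductSpace
open MeasureTheory Set Vale.Agent.P255

/-- Continuous bilinear forms. -/
abbrev Bil (E : Type*) [NormedAddCommGroup E] [NormedSpace ℝ E] : Type _ := E →L[ℝ] E →L[ℝ] ℝ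

variable {E : Type*} [NormedAddCommGroup E] [InnerProductSpace ℝ E] [FiniteDimensional ℝ E]

/-- Symmetric positive definite. -/
def PosB (B : Bil E) : Prop := (∀ u v, B u v = B v u) ∧ ∀ u, u ≠ 0 → 0 < B u u

/-- The Riesz map. -/
noncomputable def riesz (E : Type*) [NormedAddCommGroup E] [InnerProductSpace ℝ E]
    [FiniteDimensional ℝ E] : (E →L[ℝ] ℝ) →L[ℝ] E :=
  LinearMap.toContinuousLinearMap
    { toFun := fun N => (InnerProductSpace.toDual ℝ E).symm N
      map_add' := fun a b => map_add _ a b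
      map_smul' := fun c a => by simp }

theorem inner_riesz (N : E →L[ℝ] ℝ) (v : E) : ⟪riesz E N, v⟫ = N v :=
  InnerProductSpace.toDual_symm_apply

/-- The operator of a bilinear form: `⟪hat B u, v⟫ = B u v`. -/
noncomputable def hat (B : Bil E) : E →L[ℝ] E := (riesz E).comp B

theorem inner_hat (B : Bil E) (u v : E) : ⟪hat B u, v⟫ = B u v := inner_riesz (B u) v

/-- The volume density `√det B`. -/
noncomputable def wt (B : Bil E) : ℝ := √(hat B).det

/-- The dual norm of a covector. -/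
noncomputable def dn (B : Bil E) (N : E →L[ℝ] ℝ) : ℝ := √(N (B.inverse N))

/-- The unit normal vector of a covector. -/
noncomputable def nu (B : Bil E) (N : E →L[ℝ] ℝ) : E := (dn B N)⁻¹ • B.inverse N

/-- The area density. -/
noncomputable def ad (B : Bil E) (N : E →L[ℝ] ℝ) : ℝ := dn B N * wt B

/-- Transformation of the vector area element under a linear map. -/
noncomputable def cof (A : E →L[ℝ] E) (N : E →L[ℝ] ℝ) : E →L[ℝ] ℝ := |A.det| • N.comp A.inverse

/-- Euclidean divergence. -/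
noncomputable def dvg (Z : E → E) (y : E) : ℝ :=
  LinearMap.trace ℝ E (fderiv ℝ Z y : E →ₗ[ℝ] E)

/-- Squared distance. -/
noncomputable def qq (G : E → Bil E) (L : E → E → E) (y x : E) : ℝ := G y (L y x) (L y x)

/-- Distance. -/
noncomputable def rr (G : E → Bil E) (L : E → E → E) (y x : E) : ℝ := √(qq G L y x)

/-- What is used of a Cartan-Hadamard manifold. -/
structure Pack (G : E → Bil E) (L : E → E → E) : Prop where
  loc : LocMetric G univ
  smooth : ContDiff ℝ ∞ fun z : E × E => L z.1 z.2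
  self : ∀ y, L y y = 0
  inj : ∀ y, Function.Injective (L y)
  det_ne : ∀ y x, (fderiv ℝ (L y) x).det ≠ 0
  contr : ∀ y x k, G y (fderiv ℝ (L y) x k) (fderiv ℝ (L y) x k) ≤ G x k k
  radial : ∀ y x, fderiv ℝ (L y) x (L x y) = -L y x
  sym : ∀ y x, qq G L y x = qq G L x y
  grad : ∀ y x h, fderiv ℝ (fun z => qq G L z x) y h = -2 * G y (L y x) h
  cos : ∀ y o x, G y (L y o - L y x) (L y o - L y x) ≤ qq G L o x
  hess : ∀ y x h,
    2 * G y h h ≤ -fderiv ℝ G y (L y x) h h - 2 * G y (fderiv ℝ (fun z => L z x) y h) h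
  proper : ∀ c, IsCompact {y | qq G L y 0 ≤ c}

theorem posB_of_loc {G : E → Bil E} (h : LocMetric G univ) (y : E) : PosB (G y) :=
  ⟨h.symm y (mem_univ y), h.pos y (mem_univ y)⟩

/-- An injective `C²` immersion of `E` into itself. -/
structure Diffeo (Φ : E → E) : Prop where
  smooth : ContDiff ℝ 2 Φ
  inj : Function.Injective Φ
  det_ne : ∀ y, (fderiv ℝ Φ y).det ≠ 0

/-- The coefficient of the vector field. -/
noncomputable def chi (r : ℝ) : ℝ := 2 / 3 * (r ^ 3 + 4 * r ^ 2 + 6 * r + 6) / (r ^ 3 * (r + 2) ^ 2)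

/-- The derivative of `chi`. -/
noncomputable def chi1 (r : ℝ) : ℝ :=
  -(4 / 3 * r ^ 4 + 8 * r ^ 3 + 64 / 3 * r ^ 2 + 36 * r + 24) / (r ^ 4 * (r + 2) ^ 3)

/-- The certificate with the coefficient evaluated at `ρ`. -/
noncomputable def Bg (ρ r s : ℝ) : ℝ :=
  1 + 4 * chi ρ + chi1 ρ / ρ * (r ^ 2 - s ^ 2) - 4 * chi ρ * s

/-- The certificate. -/
noncomputable def Bf (r s : ℝ) : ℝ := Bg r r s

/-- The model profile in dimension five. -/
noncomputable def prof (o V : ℝ) : ℝ := 5 * o ^ (1 / 5 : ℝ) * V ^ (4 / 5 : ℝ)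

variable [MeasurableSpace E] [BorelSpace E]

/-- The volume of the Euclidean unit ball. -/
noncomputable def om (E : Type*) [NormedAddCommGroup E] [InnerProductSpace ℝ E]
    [FiniteDimensional ℝ E] [MeasurableSpace E] [BorelSpace E] : ℝ :=
  (volume (Metric.ball (0 : E) 1)).toReal

/-- Riemannian volume. -/
noncomputable def vol (G : E → Bil E) (S : Set E) : ℝ := ∫ y in S, wt (G y)

/-- A bounded open set with a vector area measure on its boundary for which the divergence
theorem holds. -/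
structure Dom (E : Type*) [NormedAddCommGroup E] [InnerProductSpace ℝ E] [FiniteDimensional ℝ E]
    [MeasurableSpace E] [BorelSpace E] {X : Type*} [MeasurableSpace X] (μ : Measure X) where
  Ω : Set E
  p : X → E
  N : X → E →L[ℝ] ℝ
  isOpen : IsOpen Ω
  bdd : Bornology.IsBounded Ω
  p_meas : Measurable p
  p_mem : ∀ ξ, p ξ ∈ frontier Ω
  N_int : Integrable N μ
  div : ∀ Z : E → E, ContDiff ℝ 1 Z → ∫ y in Ω, dvg Z y = ∫ ξ, N ξ (Z (p ξ)) ∂μ

/-- Riemannian boundary area. -/
noncomputable def Dom.area {X : Type*} [MeasurableSpace X] {μ : Measure X} (D : Dom E μ)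
    (G : E → Bil E) : ℝ :=
  ∫ ξ, ad (G (D.p ξ)) (D.N ξ) ∂μ

/-- The solid angle term. -/
noncomputable def Fl (G : E → Bil E) (L : E → E → E) (S : Set E) (y : E) (N : E →L[ℝ] ℝ) : ℝ :=
  ∫ x in S, wt (G y) ^ 2 * |(fderiv ℝ (L y) x).det| * N (-L y x) / rr G L y x ^ 5

/-- The integrated certificate. -/
noncomputable def Qc (G : E → Bil E) (L : E → E → E) (S : Set E) (y : E) (N : E →L[ℝ] ℝ) : ℝ :=
  ∫ x in S, ad (G y) N * Bf (rr G L y x) (-G y (nu (G y) N) (L y x)) * wt (G x)

end Vale.Agent.P219
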