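import Vale.Agent.P219.Basic

/-!
# The certificate: elementary inequalities  (TASK)

With `t = r + 2`, `s = r b`, `|b| ≤ 1`:
`r ^ 4 t ^ 3 Bf = c0 + c1 b + c2 b ^ 2`, `c0 = 8r + 12r² + 16r³ + 16r⁴ + 40/3 r⁵ + 6r⁶ + r⁷`,
`c1 = -(32r² + 48r³ + 112/3 r⁴ + 16r⁵ + 8/3 r⁶)`, `c2 = 24r + 36r² + 64/3 r³ + 8r⁴ + 4/3 r⁵`, and
`r ^ 4 t ^ 3 Bf - 2 b t ^ 3 = (r / 2 - b) (p - c2 b)`, `p = 16 + 24r + 32r² + 32r³ + 80/3 r⁴ + 12r⁵ + 2r⁶`,
`p - c2 = 16 - 4r² + 32/3 r³ + 56/3 r⁴ + 32/3 r⁵ + 2r⁶ > 0`, so `p - c2 b > 0` for `b ≤ 1` (`Bf_lt`, `lt_Bf`).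
`Bf_pos` (numerically `Bf ≥ 0.09`, minimum near `r = 1.69`, `b = 1`): clear for `b ≤ 0`; for `0 < b < r / 2` from `lt_Bf`
(also `b = r / 2` by the factorisation); for `r / 2 ≤ b ≤ 1` (so `r ≤ 2`): for `r ≤ 3/2` the discriminant is negative, `4 c0 c2 > c1²`; for `3/2 ≤ r ≤ 2` one has
`c1 + 2 c2 ≤ 0` and `c0 + c1 + c2 > 0`, and the quadratic is at least its value at `b = 1`; split `r` into
intervals and use `nlinarith` / positivity after substituting `r = a + u`.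
`Bg_ge`: `chi` and `-chi1 r / r` are antitone on `(0, ∞)` (sums of terms `r ^ k / (r ^ 5 (r + 2) ^ 3)`, `k ≤ 5`).
-/

namespace Vale.Agent.P219

open scoped ContDiff Topology RealInnerProductSpace
open MeasureTheory Set Vale.Agent.P255

theorem chi_pos {r : ℝ} (hr : 0 < r) : 0 < chi r := by
  unfold chi
  positivity

theorem chi1_neg {r : ℝ} (hr : 0 < r) : chi1 r < 0 := by
  unfold chi1
  rw [neg_div]
  exact neg_neg_of_pos (by positivity)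

theorem hasDerivAt_chi {r : ℝ} (hr : 0 < r) : HasDerivAt chi (chi1 r) r := by
  have hx := hasDerivAt_id' r
  have h1 : HasDerivAt (fun r : ℝ => 2 / 3 * (r ^ 3 + 4 * r ^ 2 + 6 * r + 6))
      (2 / 3 * (3 * r ^ 2 + 8 * r + 6)) r := by
    refine (((((hx.pow 3).add ((hx.pow 2).const_mul 4)).add (hx.const_mul 6)).add_const 6).const_mul
      (2 / 3)).congr_deriv ?_
    simp only [Nat.cast_ofNat, Nat.add_one_sub_one, pow_one, mul_one]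
    ring
  have h2 : HasDerivAt (fun r : ℝ => r ^ 3 * (r + 2) ^ 2)
      (3 * r ^ 2 * (r + 2) ^ 2 + r ^ 3 * (2 * (r + 2))) r := by
    refine ((hx.pow 3).mul ((hx.add_const 2).pow 2)).congr_deriv ?_
    simp only [Nat.cast_ofNat, Nat.add_one_sub_one, pow_one, mul_one, Pi.pow_apply]
  refine (h1.div h2 (by positivity)).congr_deriv ?_
  unfold chi1
  field_simp
  ring

theorem contDiffAt_chi {r : ℝ} (hr : 0 < r) : ContDiffAt ℝ ∞ chi r := by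
  unfold chi
  exact ContDiffAt.div (by fun_prop) (by fun_prop) (by positivity)

theorem measurable_chi : Measurable chi := by
  unfold chi
  fun_prop

theorem measurable_Bf : Measurable fun z : ℝ × ℝ => Bf z.1 z.2 := by
  unfold Bf Bg chi chi1
  fun_prop

theorem certalg_chi {r : ℝ} (hr : 0 < r) :
    chi r = 2 / 3 * (1 + 4 / r + 6 / r ^ 2 + 6 / r ^ 3) / (r + 2) ^ 2 := by
  unfold chi
  field_simp

theorem certalg_chi1 {r : ℝ} (hr : 0 < r) : chi1 r / r =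
    -((4 / 3 / r + 8 / r ^ 2 + 64 / 3 / r ^ 3 + 36 / r ^ 4 + 24 / r ^ 5) / (r + 2) ^ 3) := by
  unfold chi1
  field_simp

theorem certalg_fac {r : ℝ} (hr : 0 < r) (s : ℝ) : Bf r s - 2 * s / r ^ 5 =
    (r ^ 2 / 2 - s) * (16 + 24 * r + 32 * r ^ 2 + 32 * r ^ 3 + 80 / 3 * r ^ 4 + 12 * r ^ 5 + 2 * r ^ 6 -
      (24 + 36 * r + 64 / 3 * r ^ 2 + 8 * r ^ 3 + 4 / 3 * r ^ 4) * s) / (r ^ 5 * (r + 2) ^ 3) := by
  unfold Bf Bg chi chi1
  field_simp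
  ring

theorem certalg_quad {r : ℝ} (hr : 0 < r) {s : ℝ} : Bf r s =
    (r ^ 2 * (8 + 12 * r + 16 * r ^ 2 + 16 * r ^ 3 + 40 / 3 * r ^ 4 + 6 * r ^ 5 + r ^ 6) -
      r ^ 2 * (32 + 48 * r + 112 / 3 * r ^ 2 + 16 * r ^ 3 + 8 / 3 * r ^ 4) * s +
      (24 + 36 * r + 64 / 3 * r ^ 2 + 8 * r ^ 3 + 4 / 3 * r ^ 4) * s ^ 2) / (r ^ 5 * (r + 2) ^ 3) := by
  unfold Bf Bg chi chi1
  field_simp
  ring

theorem certalg_p {r s : ℝ} (hr : 0 < r) (hs : |s| ≤ r) :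
    0 < 16 + 24 * r + 32 * r ^ 2 + 32 * r ^ 3 + 80 / 3 * r ^ 4 + 12 * r ^ 5 + 2 * r ^ 6 -
      (24 + 36 * r + 64 / 3 * r ^ 2 + 8 * r ^ 3 + 4 / 3 * r ^ 4) * s := by
  have h1 := mul_le_mul_of_nonneg_left (abs_le.1 hs).2
    (by positivity : 0 ≤ 24 + 36 * r + 64 / 3 * r ^ 2 + 8 * r ^ 3 + 4 / 3 * r ^ 4)
  have h2 : 0 < 14 + 32 / 3 * r ^ 3 + 50 / 3 * r ^ 4 + 32 / 3 * r ^ 5 + 2 * r ^ 6 +
      2 * (r ^ 2 - 1) ^ 2 := by positivity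
  nlinarith

theorem chi_anti {r ρ : ℝ} (hr : 0 < r) (h : r ≤ ρ) : chi ρ ≤ chi r := by
  rw [certalg_chi hr, certalg_chi (hr.trans_le h)]
  gcongr

theorem chi_le {r : ℝ} (hr : 0 < r) : chi r ≤ 3 * ((r ^ 3)⁻¹ + 1) := by
  unfold chi
  rw [div_le_iff₀ (by positivity)]
  have : 3 * ((r ^ 3)⁻¹ + 1) * (r ^ 3 * (r + 2) ^ 2) = 3 * (1 + r ^ 3) * (r + 2) ^ 2 := by
    field_simp
  rw [this, ← sub_nonneg]
  ring_nf
  positivity

theorem lt_Bf {r s : ℝ} (hr : 0 < r) (hs : |s| ≤ r) (h : 2 * s < r ^ 2) :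
    2 * s / r ^ 5 < Bf r s := by
  have h1 := certalg_p hr hs
  rw [← sub_pos, certalg_fac hr]
  have h2 : 0 < r ^ 2 / 2 - s := by linarith
  positivity

theorem Bf_lt {r s : ℝ} (hr : 0 < r) (hs : |s| ≤ r) (h : r ^ 2 < 2 * s) :
    Bf r s < 2 * s / r ^ 5 := by
  have h1 := certalg_p hr hs
  rw [← sub_neg, certalg_fac hr]
  have h2 : r ^ 2 / 2 - s < 0 := by linarith
  exact div_neg_of_neg_of_pos (mul_neg_of_neg_of_pos h2 h1) (by positivity)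

theorem Bf_eq {r s : ℝ} (hr : 0 < r) (h : r ^ 2 = 2 * s) : Bf r s = 2 * s / r ^ 5 := by
  rw [← sub_eq_zero, certalg_fac hr, h]
  simp

theorem Bf_pos {r s : ℝ} (hr : 0 < r) (hs : |s| ≤ r) : 0 < Bf r s := by
  rw [certalg_quad hr]
  refine div_pos ?_ (by positivity)
  have hs' := abs_le.1 hs
  set a := 8 + 12 * r + 16 * r ^ 2 + 16 * r ^ 3 + 40 / 3 * r ^ 4 + 6 * r ^ 5 + r ^ 6 with ha
  set b := 32 + 48 * r + 112 / 3 * r ^ 2 + 16 * r ^ 3 + 8 / 3 * r ^ 4 with hb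
  set c := 24 + 36 * r + 64 / 3 * r ^ 2 + 8 * r ^ 3 + 4 / 3 * r ^ 4 with hc
  have hc0 : 0 < c := by positivity
  rcases le_total r (3 / 2) with h | h
  · obtain ⟨v, hv, hv0⟩ : ∃ v, v = 3 / 2 - r ∧ 0 ≤ v := ⟨_, rfl, by linarith⟩
    have hD : 4 * a * c - r ^ 2 * b ^ 2 = (262144 * v ^ 10 + 3801088 * r * v ^ 9 +
        24657920 * r ^ 2 * v ^ 8 + 94240768 * r ^ 3 * v ^ 7 + 234684416 * r ^ 4 * v ^ 6 +
        396574720 * r ^ 5 * v ^ 5 + 457290752 * r ^ 6 * v ^ 4 + 350038144 * r ^ 7 * v ^ 3 +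
        164594816 * r ^ 8 * v ^ 2 + 39180800 * r ^ 9 * v + 2310480 * r ^ 10) / 19683 := by
      rw [ha, hb, hc, hv]; ring
    have hD0 : 0 < 4 * a * c - r ^ 2 * b ^ 2 := by rw [hD]; positivity
    have e : 4 * c * (r ^ 2 * a - r ^ 2 * b * s + c * s ^ 2) =
        (2 * c * s - r ^ 2 * b) ^ 2 + r ^ 2 * (4 * a * c - r ^ 2 * b ^ 2) := by ring
    have : 0 < 4 * c * (r ^ 2 * a - r ^ 2 * b * s + c * s ^ 2) := by rw [e]; positivity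
    exact (mul_pos_iff_of_pos_left (by positivity)).1 this
  · obtain ⟨v, hv, hv0⟩ : ∃ v, r = 3 / 2 + v ∧ 0 ≤ v := ⟨r - 3 / 2, by ring, by linarith⟩
    obtain ⟨u, hu, hu0⟩ : ∃ u, s = r - u ∧ 0 ≤ u := ⟨r - s, by ring, by linarith⟩
    have h1 : 0 ≤ r * b - 2 * c := by
      rw [hb, hc, hv]; ring_nf; positivity
    have h2 : 0 < a - r * b + c := by
      rw [ha, hb, hc, hv]; ring_nf; positivity
    have e : r ^ 2 * a - r ^ 2 * b * s + c * s ^ 2 =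
        r ^ 2 * (a - r * b + c) + r * (r * b - 2 * c) * u + c * u ^ 2 := by rw [hu]; ring
    rw [e]
    positivity

theorem exists_Bf_le : ∃ C : ℝ, 0 < C ∧ ∀ r s : ℝ, 0 < r → |s| ≤ r →
    |Bf r s| ≤ C * ((r ^ 3)⁻¹ + 1) := by
  refine ⟨30, by norm_num, fun r s hr hs => ?_⟩
  rw [abs_of_pos (Bf_pos hr hs)]
  have hs' := abs_le.1 hs
  have h1 : chi1 r / r * (r ^ 2 - s ^ 2) ≤ 0 :=
    mul_nonpos_of_nonpos_of_nonneg (div_neg_of_neg_of_pos (chi1_neg hr) hr).le (by nlinarith)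
  have h2 : -(4 * chi r * s) ≤ 4 * chi r * r := by
    have := chi_pos hr
    nlinarith
  have h3 : 4 * chi r * (1 + r) ≤ 29 * ((r ^ 3)⁻¹ + 1) := by
    unfold chi
    rw [← mul_div_assoc, div_mul_eq_mul_div, div_le_iff₀ (by positivity)]
    have : 29 * ((r ^ 3)⁻¹ + 1) * (r ^ 3 * (r + 2) ^ 2) = 29 * (1 + r ^ 3) * (r + 2) ^ 2 := by
      field_simp
    rw [this, ← sub_nonneg]
    ring_nf
    positivity
  have h4 : 0 < (r ^ 3)⁻¹ := by positivity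
  unfold Bf Bg
  linarith

theorem Bg_ge {r ρ s : ℝ} (hr : 0 < r) (h : r ≤ ρ) (hs : |s| ≤ r) :
    Bf r s - 4 * (1 + r) * (chi r - chi ρ) ≤ Bg ρ r s := by
  have hs' := abs_le.1 hs
  have h1 := chi_anti hr h
  have h2 : chi1 r / r ≤ chi1 ρ / ρ := by
    rw [certalg_chi1 hr, certalg_chi1 (hr.trans_le h), neg_le_neg_iff]
    gcongr
  have h3 : 0 ≤ (chi1 ρ / ρ - chi1 r / r) * (r ^ 2 - s ^ 2) :=
    mul_nonneg (by linarith) (by nlinarith)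
  have h4 : 0 ≤ (chi r - chi ρ) * (r + s) := mul_nonneg (by linarith) (by linarith)
  unfold Bf Bg
  nlinarith

end Vale.Agent.P219
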