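import Vale.Agent.P219.Basic

/-!
# Integrals of functions of `‖v‖` and `⟪e, v⟫` in dimension five  (TASK)

Orthonormal basis `b : OrthonormalBasis (Fin 5) ℝ E` with `b 0 = e`; `E ≃ EuclideanSpace ℝ (Fin 5) ≃ (Fin 5 → ℝ) ≃ ℝ × (Fin 4 → ℝ)
≃ ℝ × Euc 4` preserve volume (`OrthonormalBasis.measurePreserving_repr`, `PiLp.volume_preserving_ofLp`,
`volume_preserving_piFinSuccAbove` / `MeasurableEquiv.piFinSuccAbove`); there `‖v‖ = √(t² + ‖z‖²)`, `⟪e, v⟫ = t`.
Radial integration in `Euc 4` (`Measure.measurePreserving_homeomorphUnitSphereProd`, `volumeIoiPow`, as in the proof of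
`integral_fun_norm_addHaar`) gives `c ∫ t ∫ (σ > 0) σ³ f √(t² + σ²) t`.  Finally change variables
`(r, b) ↦ (t, σ) = (r b, r √(1 - b²))` from `Ioi 0 ×ˢ Ioo (-1) 1` onto `univ ×ˢ Ioi 0`, Jacobian `r / √(1 - b²)`
(`lintegral_image_eq_lintegral_abs_det_fderiv_mul` on `ℝ × ℝ`, compare `Mathlib/Analysis/SpecialFunctions/PolarCoord.lean`).
-/

namespace Vale.Agent.P219

open scoped ContDiff Topology RealInnerProductSpace
open MeasureTheory Set Vale.Agent.P255

theorem cyl_rad {F : Type*} [NormedAddCommGroup F] [NormedSpace ℝ F] [FiniteDimensional ℝ F]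
    [MeasurableSpace F] [BorelSpace F] [Nontrivial F] (μ : Measure F) [μ.IsAddHaarMeasure]
    {g : ℝ → ENNReal} (hg : Measurable g) :
    ∫⁻ z, g ‖z‖ ∂μ = μ.toSphere univ *
      ∫⁻ s in Ioi (0 : ℝ), ENNReal.ofReal (s ^ (Module.finrank ℝ F - 1)) * g s := by
  have h1 : ∫⁻ z, g ‖z‖ ∂μ = ∫⁻ x : ({(0)}ᶜ : Set F), g ‖x.1‖ ∂(μ.comap (↑)) := by
    rw [lintegral_subtype_comap (measurableSet_singleton _).compl fun x => g ‖x‖,
      restrict_compl_singleton]
  have h2 := μ.measurePreserving_homeomorphUnitSphereProd.lintegral_comp_emb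
    (Homeomorph.measurableEmbedding _) (fun x => g x.2.1)
  simp only [homeomorphUnitSphereProd_apply_snd_coe] at h2
  have hg' : Measurable fun r : Ioi (0 : ℝ) => g r.1 := hg.comp measurable_subtype_coe
  rw [h1, h2, lintegral_prod (fun x : Metric.sphere (0 : F) 1 × Ioi (0 : ℝ) => g x.2.1)
    (hg'.comp measurable_snd).aemeasurable]
  simp only [lintegral_const]
  rw [mul_comm, Measure.volumeIoiPow, lintegral_withDensity_eq_lintegral_mul _ (by fun_prop) hg',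
    ← lintegral_subtype_comap measurableSet_Ioi]
  rfl

theorem cyl_cos : Real.cos '' Ioo 0 Real.pi = Ioo (-1) 1 := by
  ext b
  constructor
  · rintro ⟨x, hx, rfl⟩
    have := Real.sin_pos_of_pos_of_lt_pi hx.1 hx.2
    have := Real.sin_sq_add_cos_sq x
    constructor <;> nlinarith
  · intro hb
    exact ⟨Real.arccos b, ⟨Real.arccos_pos.2 hb.2, Real.arccos_lt_pi.2 hb.1⟩,
      Real.cos_arccos hb.1.le hb.2.le⟩

theorem cyl_ang (g : ℝ → ENNReal) :
    ∫⁻ x in Ioo (-Real.pi) Real.pi, ENNReal.ofReal (Real.sin x ^ 3) * g (Real.cos x) =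
      ∫⁻ b in Ioo (-1 : ℝ) 1, ENNReal.ofReal (1 - b ^ 2) * g b := by
  rw [← cyl_cos, lintegral_image_eq_lintegral_abs_deriv_mul measurableSet_Ioo
    (fun x _ => (Real.hasDerivAt_cos x).hasDerivWithinAt)
    (Real.injOn_cos.mono Ioo_subset_Icc_self),
    ← lintegral_indicator measurableSet_Ioo, ← lintegral_indicator measurableSet_Ioo]
  refine lintegral_congr fun x => ?_
  have hp := Real.pi_pos
  by_cases h : x ∈ Ioo 0 Real.pi
  · have hs := Real.sin_pos_of_pos_of_lt_pi h.1 h.2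
    rw [indicator_of_mem h, indicator_of_mem (show x ∈ Ioo (-Real.pi) Real.pi from
      ⟨by linarith [h.1], h.2⟩), ← mul_assoc, ← ENNReal.ofReal_mul (abs_nonneg _), abs_neg,
      abs_of_pos hs, ← Real.sin_sq]
    congr 2
    ring
  · rw [indicator_of_notMem h]
    refine indicator_apply_eq_zero.2 fun hx => ?_
    have hx0 : x ≤ 0 := not_lt.1 fun h0 => h ⟨h0, hx.2⟩
    have hs := Real.sin_nonpos_of_nonpos_of_neg_pi_le hx0 hx.1.le
    rw [ENNReal.ofReal_of_nonpos (Odd.pow_nonpos (by decide) hs), zero_mul]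

theorem cyl_plane {f : ℝ × ℝ → ENNReal} (hf : Measurable f) :
    ∫⁻ t : ℝ, ∫⁻ s in Ioi (0 : ℝ), ENNReal.ofReal (s ^ 3) * f (√(t ^ 2 + s ^ 2), t) =
      ∫⁻ r in Ioi (0 : ℝ), ∫⁻ b in Ioo (-1 : ℝ) 1,
        ENNReal.ofReal (r ^ 4 * (1 - b ^ 2)) * f (r, r * b) := by
  have hG : Measurable fun p : ℝ × ℝ =>
      ENNReal.ofReal (p.2 ^ 3) * f (√(p.1 ^ 2 + p.2 ^ 2), p.1) := by fun_prop
  have h1 : ∀ t : ℝ, ∫⁻ s in Ioi (0 : ℝ), ENNReal.ofReal (s ^ 3) * f (√(t ^ 2 + s ^ 2), t) =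
      ∫⁻ s : ℝ, ENNReal.ofReal (s ^ 3) * f (√(t ^ 2 + s ^ 2), t) := fun t => by
    refine setLIntegral_eq_of_support_subset fun s hs => ?_
    by_contra h
    exact hs (by
      beta_reduce
      rw [ENNReal.ofReal_of_nonpos (Odd.pow_nonpos (by decide) (not_lt.1 h)), zero_mul])
  simp only [h1]
  rw [← lintegral_prod _ hG.aemeasurable, ← Measure.volume_eq_prod,
    ← lintegral_comp_polarCoord_symm, polarCoord_target, Measure.volume_eq_prod,
    setLIntegral_prod _ (Measurable.aemeasurable (by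
      simp only [polarCoord_symm_apply, smul_eq_mul]
      fun_prop))]
  refine setLIntegral_congr_fun measurableSet_Ioi fun r hr => ?_
  have hr0 : (0 : ℝ) ≤ r := le_of_lt hr
  have h2 := cyl_ang fun b => ENNReal.ofReal (r ^ 4) * f (r, r * b)
  simp only [← mul_assoc, ← ENNReal.ofReal_mul' (pow_nonneg hr0 4)] at h2
  simp only [polarCoord_symm_apply, smul_eq_mul, mul_comm (r ^ 4), ← h2]
  refine lintegral_congr fun x => ?_
  have h3 : (r * Real.cos x) ^ 2 + (r * Real.sin x) ^ 2 = r ^ 2 := by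
    rw [mul_pow, mul_pow, ← mul_add, Real.cos_sq_add_sin_sq, mul_one]
  rw [h3, Real.sqrt_sq hr0, ← mul_assoc, ← ENNReal.ofReal_mul hr0]
  congr 2
  ring

theorem cyl_euc {f : ℝ × ℝ → ENNReal} (hf : Measurable f) :
    ∫⁻ v : Euc 5, f (‖v‖, v 0) = ∫⁻ t : ℝ, ∫⁻ z : Euc 4, f (√(t ^ 2 + ‖z‖ ^ 2), t) := by
  have hG : Measurable fun p : ℝ × Euc 4 => f (√(p.1 ^ 2 + ‖p.2‖ ^ 2), p.1) := by fun_prop
  have m1 := PiLp.volume_preserving_ofLp (Fin 5)
  have m2 := volume_preserving_piFinSuccAbove (fun _ : Fin 5 => ℝ) 0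
  have m3 := (MeasurePreserving.id (volume : Measure ℝ)).prod (PiLp.volume_preserving_toLp (Fin 4))
  rw [← Measure.volume_eq_prod] at m3
  rw [← lintegral_prod _ hG.aemeasurable, ← ((m3.comp m2).comp m1).lintegral_comp hG]
  refine lintegral_congr fun v => ?_
  congr 2
  rw [EuclideanSpace.real_norm_sq_eq, EuclideanSpace.norm_eq]
  simp [Fin.sum_univ_succ, MeasurableEquiv.piFinSuccAbove, Fin.tail]

variable {E : Type*} [NormedAddCommGroup E] [InnerProductSpace ℝ E] [FiniteDimensional ℝ E]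
  [MeasurableSpace E] [BorelSpace E]

theorem exists_cyl (hE : Module.finrank ℝ E = 5) {e : E} (he : ‖e‖ = 1) :
    ∃ c : ENNReal, c ≠ ⊤ ∧ ∀ f : ℝ × ℝ → ENNReal, Measurable f →
      ∫⁻ v : E, f (‖v‖, ⟪e, v⟫) =
        c * ∫⁻ r in Ioi (0 : ℝ), ∫⁻ b in Ioo (-1 : ℝ) 1,
          ENNReal.ofReal (r ^ 4 * (1 - b ^ 2)) * f (r, r * b) := by
  obtain ⟨b, hb⟩ := Orthonormal.exists_orthonormalBasis_extension_of_card_eq (𝕜 := ℝ)
    (ι := Fin 5) (by simpa using hE) (v := fun _ => e) (s := {0})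
    ⟨fun _ => he, fun i j hij => absurd (Subtype.ext (i.2.trans j.2.symm)) hij⟩
  have hb0 : b 0 = e := hb 0 rfl
  refine ⟨(volume : Measure (Euc 4)).toSphere univ, measure_ne_top _ _, fun f hf => ?_⟩
  have hG : Measurable fun v : Euc 5 => f (‖v‖, v 0) := by fun_prop
  have h1 := b.measurePreserving_repr.lintegral_comp hG
  simp only [LinearIsometryEquiv.norm_map, b.repr_apply_apply, hb0] at h1
  rw [h1, cyl_euc hf, ← cyl_plane hf, ← lintegral_const_mul' _ _ (measure_ne_top _ _)]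
  refine lintegral_congr fun t => ?_
  rw [cyl_rad volume (g := fun s => f (√(t ^ 2 + s ^ 2), t)) (by fun_prop)]
  simp

end Vale.Agent.P219
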