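import Vale.Agent.P219.Det

/-!
# The solid angle of a closed surface in Euclidean space  (TASK)

`flux`: choose `ε` with `ball 0 (2 ε) ⊆ Ω`, so `2 ε ≤ ‖p ξ‖` (`p ξ ∉ Ω`).  Let `θ : ℝ → ℝ` be `C¹` with `θ q = q ^ (-5/2)` for
`q ≥ ε²` (for instance `θ q = Real.smoothTransition (2 q / ε² - 1) / √q ^ 5`, zero for `q ≤ ε²/2`) and `Z v = θ (‖v‖²) • v`.
Then `dvg Z v = 5 θ + 2 ‖v‖² θ'` (`dvg_smul`) vanishes for `‖v‖ > ε`, so its integral over `Ω` is its integral over `E`,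
which by `integral_fun_norm_addHaar` is `5 * om E * ∫ r in Ioi 0, (r ^ 5 θ (r²))' = 5 * om E`.
`integrableOn_inv_pow`: `integrableOn_ball_of_norm_le_rpow` or `integrableOn_fun_norm_addHaar`.
-/

namespace Vale.Agent.P219

open scoped ContDiff Topology RealInnerProductSpace
open MeasureTheory Set Vale.Agent.P255

variable {E : Type*} [NormedAddCommGroup E] [InnerProductSpace ℝ E] [FiniteDimensional ℝ E]
  [MeasurableSpace E] [BorelSpace E]
  {X : Type*} [MeasurableSpace X] {μ : Measure X}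

theorem fluxe_cut {c : ℝ} (hc : 0 < c) : ∃ ψ : ℝ → ℝ, ContDiff ℝ 1 ψ ∧ Monotone ψ ∧
    (∀ q, q ≤ c → ψ q = 0) ∧ ∀ q, 2 * c ≤ q → ψ q = 1 := by
  refine ⟨fun q => Real.smoothTransition (q / c - 1), ?_, ?_, fun q hq => ?_, fun q hq => ?_⟩
  · exact Real.smoothTransition.contDiff.comp ((contDiff_id.div_const c).sub contDiff_const)
  · refine Real.smoothTransition.monotone.comp fun a b h => ?_
    gcongr
  · exact Real.smoothTransition.zero_of_nonpos (by rw [sub_nonpos, div_le_one hc]; exact hq)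
  · exact Real.smoothTransition.one_of_one_le
      (by rw [le_sub_iff_add_le, le_div_iff₀ hc]; linarith)

theorem fluxe_rpow {r : ℝ} (hr : 0 < r) : (r ^ 2) ^ (-5 / 2 : ℝ) = (r ^ 5)⁻¹ := by
  rw [← Real.rpow_natCast r 2, ← Real.rpow_mul hr.le, ← Real.rpow_natCast r 5,
    ← Real.rpow_neg hr.le]
  norm_num

theorem fluxe_smooth {c : ℝ} (hc : 0 < c) {ψ : ℝ → ℝ} (h : ContDiff ℝ 1 ψ)
    (h0 : ∀ q, q ≤ c → ψ q = 0) : ContDiff ℝ 1 fun q : ℝ => ψ q * q ^ (-5 / 2 : ℝ) := by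
  refine contDiff_iff_contDiffAt.2 fun q => ?_
  by_cases hq : q = 0
  · refine (contDiffAt_const (c := (0 : ℝ))).congr_of_eventuallyEq ?_
    filter_upwards [Iio_mem_nhds (hq ▸ hc : q < c)] with y hy
    rw [h0 y (le_of_lt hy), zero_mul]
  · exact h.contDiffAt.mul (Real.contDiffAt_rpow_const_of_ne hq)

theorem fluxe_rad {ψ : ℝ → ℝ} (h : ContDiff ℝ 1 ψ) {r : ℝ} (hr : 0 < r) :
    r ^ 4 * (deriv (fun q : ℝ => ψ q * q ^ (-5 / 2 : ℝ)) (r ^ 2) * (2 * r ^ 2) +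
      ψ (r ^ 2) * (r ^ 2) ^ (-5 / 2 : ℝ) * 5) = deriv ψ (r ^ 2) * (2 * r) := by
  have hq : r ^ 2 ≠ 0 := by positivity
  have h1 := ((h.differentiable one_ne_zero (r ^ 2)).hasDerivAt.mul
    (Real.hasDerivAt_rpow_const (p := -5 / 2) (Or.inl hq))).deriv
  have h2 : (r ^ 2) ^ (-5 / 2 - 1 : ℝ) = (r ^ 5)⁻¹ / r ^ 2 := by
    rw [Real.rpow_sub_one hq, fluxe_rpow hr]
  have h3 : deriv (fun q : ℝ => ψ q * q ^ (-5 / 2 : ℝ)) (r ^ 2) = _ := h1
  rw [h3, h2, fluxe_rpow hr]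
  field_simp
  ring

omit [MeasurableSpace E] [BorelSpace E] in
theorem fluxe_dvg (hE : Module.finrank ℝ E = 5) {θ : ℝ → ℝ} (h : ContDiff ℝ 1 θ) (v : E) :
    dvg (fun x : E => θ (‖x‖ ^ 2) • x) v =
      deriv θ (‖v‖ ^ 2) * (2 * ‖v‖ ^ 2) + θ (‖v‖ ^ 2) * 5 := by
  have h1 := (h.differentiable one_ne_zero (‖v‖ ^ 2)).hasDerivAt.comp_hasFDerivAt v
    (hasStrictFDerivAt_norm_sq v).hasFDerivAt
  have h2 : fderiv ℝ (fun x : E => θ (‖x‖ ^ 2)) v = _ := h1.fderiv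
  have h3 : dvg (fun x : E => x) v = 5 := by
    rw [dvg, fderiv_fun_id, ContinuousLinearMap.coe_id, LinearMap.trace_id, hE]
    norm_num
  rw [dvg_smul (f := fun x : E => θ (‖x‖ ^ 2)) (Z := fun x => x) h1.differentiableAt
    differentiableAt_id, h2, h3]
  simp

theorem Dom.flux (hE : Module.finrank ℝ E = 5) (D : Dom E μ) (h0 : (0 : E) ∈ D.Ω) :
    ∫ ξ, D.N ξ (D.p ξ) / ‖D.p ξ‖ ^ 5 ∂μ = 5 * om E := by
  have : Nontrivial E := Module.nontrivial_of_finrank_pos (R := ℝ) (by omega)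
  obtain ⟨δ, hδ, hb⟩ := Metric.isOpen_iff.1 D.isOpen 0 h0
  have hc : 0 < δ ^ 2 / 4 := by positivity
  obtain ⟨ψ, hψ, hm, hz, ho⟩ := fluxe_cut hc
  have hθ := fluxe_smooth hc hψ hz
  have out : ∀ y, y ∉ D.Ω → δ ≤ ‖y‖ := fun y hy =>
    not_lt.1 fun h => hy (hb (mem_ball_zero_iff.2 h))
  have key := D.div (fun x : E => (ψ (‖x‖ ^ 2) * (‖x‖ ^ 2) ^ (-5 / 2 : ℝ)) • x)
    ((hθ.comp (contDiff_norm_sq ℝ)).smul contDiff_id)
  simp only [fluxe_dvg hE hθ] at key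
  have e1 : ∀ ξ, D.N ξ (D.p ξ) / ‖D.p ξ‖ ^ 5 =
      D.N ξ ((ψ (‖D.p ξ‖ ^ 2) * (‖D.p ξ‖ ^ 2) ^ (-5 / 2 : ℝ)) • D.p ξ) := by
    intro ξ
    have h1 := out _ fun h => (D.p_mem ξ).2 (by rwa [D.isOpen.interior_eq])
    rw [ho _ (by nlinarith), fluxe_rpow (hδ.trans_le h1), map_smul, smul_eq_mul]
    ring
  have hd : ∀ r : ℝ, HasDerivAt (fun r : ℝ => ψ (r ^ 2)) (deriv ψ (r ^ 2) * (2 * r)) r := by
    intro r
    have h1 : HasDerivAt (fun r : ℝ => r ^ 2) (2 * r) r := by simpa using hasDerivAt_pow 2 r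
    exact (hψ.differentiable one_ne_zero (r ^ 2)).hasDerivAt.comp r h1
  have hl : Filter.Tendsto (fun r : ℝ => ψ (r ^ 2)) Filter.atTop (𝓝 1) := by
    refine tendsto_const_nhds.congr' ?_
    filter_upwards [Filter.eventually_ge_atTop δ] with r hr
    rw [ho _ (by nlinarith)]
  have e2 := integral_Ioi_of_hasDerivAt_of_nonneg' (a := 0) (fun r _ => hd r)
    (fun r hr => mul_nonneg hm.deriv_nonneg (by linarith [mem_Ioi.1 hr])) hl
  rw [hz _ (by simpa using hc.le), sub_zero] at e2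
  simp only [e1]
  rw [← key, setIntegral_eq_integral_of_forall_compl_eq_zero, integral_fun_norm_addHaar volume
    fun r : ℝ => deriv (fun q : ℝ => ψ q * q ^ (-5 / 2 : ℝ)) (r ^ 2) * (2 * r ^ 2) +
      ψ (r ^ 2) * (r ^ 2) ^ (-5 / 2 : ℝ) * 5, hE]
  · simp only [smul_eq_mul, Nat.reduceSub]
    rw [setIntegral_congr_fun measurableSet_Ioi fun r hr => fluxe_rad hψ (mem_Ioi.1 hr), e2]
    simp [om, Measure.real]
  · intro y hy
    have h1 := out y hy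
    have h2 : 0 < ‖y‖ := hδ.trans_le h1
    have h3 : deriv ψ (‖y‖ ^ 2) = 0 := by
      have : ψ =ᶠ[𝓝 (‖y‖ ^ 2)] fun _ => 1 := by
        filter_upwards [Ioi_mem_nhds (by nlinarith : 2 * (δ ^ 2 / 4) < ‖y‖ ^ 2)] with q hq
        exact ho q (le_of_lt hq)
      rw [this.deriv_eq, deriv_const]
    have h4 := fluxe_rad hψ h2
    rw [h3, zero_mul] at h4
    exact (mul_eq_zero.1 h4).resolve_left (by positivity)

theorem integrableOn_inv_pow (hE : Module.finrank ℝ E = 5) {k : ℕ} (hk : k < 5) {S : Set E}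
    (hS : Bornology.IsBounded S) : IntegrableOn (fun v : E => (‖v‖ ^ k)⁻¹) S := by
  obtain ⟨R, hR⟩ := hS.subset_ball 0
  refine IntegrableOn.mono_set ?_ hR
  refine integrableOn_ball_of_norm_le_rpow (C := 1) (α := k) (by omega)
    (by rw [hE]; exact_mod_cast hk) (Filter.Eventually.of_forall fun v => ?_)
    ((measurable_norm.pow_const k).inv.aestronglyMeasurable)
  rw [Real.rpow_neg (norm_nonneg v), Real.rpow_natCast, one_mul, Real.norm_of_nonneg (by positivity)]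

end Vale.Agent.P219
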