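import Vale.Agent.P219.CertAlg
import Vale.Agent.P219.Cyl
import Vale.Agent.P219.FluxE

/-!
# The certificate on the tangent ball  (TASK)

`v ∈ ball e 1 ↔ ‖v‖² < 2 ⟪e, v⟫`.  Apply `exists_cyl` to the indicator of `{r² < 2 s}` times `ofReal (Bf r s + 1)` and times
`ofReal (2 s / r ^ 5)` (both functions are nonnegative there, `Bf_pos`).  The region is `0 < r < 2`, `r / 2 < b < 1`.
`∫ b in r/2..1, (1 - b²) 2 b = 1/2 - r²/4 + r⁴/32`, integral `8/15` over `(0, 2)`;
`∫ b in r/2..1, (1 - b²) r⁴ (Bf r (r b) + 1) = 64/45 - 16/15 r + 19/30 r² - 8/9 r³ + 11/8 r⁴ - 43/60 r⁵ + r⁷/20 - 512 / (45 (r + 2)³)`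
(the integrand is a polynomial in `b`, see the header of `CertAlg`), integral `8/15` over `(0, 2)` as well.  So the two
integrals over the ball agree, and `volume (ball e 1) = volume (ball 0 1)`.
Integrability: `exists_Bf_le`, `integrableOn_inv_pow`, `abs_real_inner_le_norm`; the origin is a null set.
-/

namespace Vale.Agent.P219

open scoped ContDiff Topology RealInnerProductSpace
open MeasureTheory Set Vale.Agent.P255

variable {E : Type*} [NormedAddCommGroup E] [InnerProductSpace ℝ E] [FiniteDimensional ℝ E]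
  [MeasurableSpace E] [BorelSpace E]

omit [FiniteDimensional ℝ E] [MeasurableSpace E] [BorelSpace E] in
theorem certball_abs {e : E} (he : ‖e‖ = 1) (v : E) : |⟪e, v⟫| ≤ ‖v‖ := by
  simpa only [he, one_mul] using abs_real_inner_le_norm e v

theorem certball_cont : ContinuousOn (fun r : ℝ => 64 / 45 - 16 / 15 * r + 19 / 30 * r ^ 2 -
    8 / 9 * r ^ 3 + 11 / 8 * r ^ 4 - 43 / 60 * r ^ 5 + 1 / 20 * r ^ 7 - 512 / 45 / (r + 2) ^ 3)
    (Icc 0 2) :=
  ContinuousOn.sub (by fun_prop) (ContinuousOn.div (by fun_prop) (by fun_prop) fun x hx => by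
    have := hx.1
    positivity)

theorem integrableOn_Bf (hE : Module.finrank ℝ E = 5) {e : E} (he : ‖e‖ = 1) {S : Set E}
    (hS : Bornology.IsBounded S) : IntegrableOn (fun v : E => Bf ‖v‖ ⟪e, v⟫) S := by
  obtain ⟨C, -, hC⟩ := exists_Bf_le
  have : Nontrivial E := Module.nontrivial_of_finrank_pos (R := ℝ) (by omega)
  refine Integrable.mono' (((integrableOn_inv_pow hE (k := 3) (by norm_num) hS).add
    (integrableOn_inv_pow hE (k := 0) (by norm_num) hS)).const_mul C)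
    (measurable_Bf.comp (f := fun v : E => (‖v‖, ⟪e, v⟫)) (by fun_prop)).aestronglyMeasurable
    (ae_restrict_of_ae ?_)
  filter_upwards [Measure.ae_ne volume (0 : E)] with v hv
  simpa using hC _ _ (norm_pos_iff.2 hv) (certball_abs he v)


theorem integrableOn_ang (hE : Module.finrank ℝ E = 5) {e : E} (he : ‖e‖ = 1) {S : Set E}
    (hS : Bornology.IsBounded S) : IntegrableOn (fun v : E => 2 * ⟪e, v⟫ / ‖v‖ ^ 5) S := by
  refine Integrable.mono' ((integrableOn_inv_pow hE (k := 4) (by norm_num) hS).const_mul 2)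
    (Measurable.aestronglyMeasurable (by fun_prop)) (ae_of_all _ fun v => ?_)
  rcases eq_or_ne v 0 with rfl | hv
  · simp
  · have h := norm_pos_iff.2 hv
    rw [Real.norm_eq_abs, abs_div, abs_mul, abs_two, abs_of_pos (pow_pos h 5),
      div_le_iff₀ (pow_pos h 5)]
    have h1 : 2 * (‖v‖ ^ 4)⁻¹ * ‖v‖ ^ 5 = 2 * ‖v‖ := by field_simp
    linarith [certball_abs he v]


theorem certball_of {f : ℝ → ℝ} {a b : ℝ} (hab : a ≤ b) (hf : ContinuousOn f (Icc a b))
    (h0 : ∀ x ∈ Ioo a b, 0 ≤ f x) :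
    ∫⁻ x in Ioo a b, ENNReal.ofReal (f x) = ENNReal.ofReal (∫ x in a..b, f x) := by
  rw [intervalIntegral.integral_of_le hab, integral_Ioc_eq_integral_Ioo,
    ofReal_integral_eq_lintegral_ofReal (hf.integrableOn_Icc.mono_set Ioo_subset_Icc_self)
      (ae_restrict_of_forall_mem measurableSet_Ioo h0)]

theorem certball_poly (A B C a : ℝ) : ∫ b in a..1, (1 - b ^ 2) * (A + B * b + C * b ^ 2) =
    A * (1 - a) + B / 2 * (1 - a ^ 2) + (C - A) / 3 * (1 - a ^ 3) - B / 4 * (1 - a ^ 4) -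
      C / 5 * (1 - a ^ 5) := by
  rw [intervalIntegral.integral_eq_sub_of_hasDerivAt
    (f := fun b => A * b + B / 2 * b ^ 2 + (C - A) / 3 * b ^ 3 - B / 4 * b ^ 4 - C / 5 * b ^ 5)
    (fun x _ => ?_) (Continuous.intervalIntegrable (by fun_prop) _ _)]
  · ring
  · have hx := hasDerivAt_id' x
    refine (((((hx.const_mul A).add ((hx.pow 2).const_mul _)).add ((hx.pow 3).const_mul _)).sub
      ((hx.pow 4).const_mul _)).sub ((hx.pow 5).const_mul _)).congr_deriv ?_
    simp only [Nat.cast_ofNat, Nat.add_one_sub_one]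
    ring

theorem certball_lint (g : ℝ × ℝ → ℝ) (A B C h : ℝ → ℝ) (hh : ContinuousOn h (Icc 0 2))
    (hpos : ∀ r s, 0 < r → |s| ≤ r → r ^ 2 < 2 * s → 0 ≤ g (r, s))
    (h1 : ∀ r, 0 < r → ∀ b, r ^ 4 * g (r, r * b) = A r + B r * b + C r * b ^ 2)
    (h2 : ∀ r, 0 < r → A r * (1 - r / 2) + B r / 2 * (1 - (r / 2) ^ 2) +
      (C r - A r) / 3 * (1 - (r / 2) ^ 3) - B r / 4 * (1 - (r / 2) ^ 4) -
      C r / 5 * (1 - (r / 2) ^ 5) = h r) :
    ∫⁻ r in Ioi (0 : ℝ), ∫⁻ b in Ioo (-1 : ℝ) 1, ENNReal.ofReal (r ^ 4 * (1 - b ^ 2)) *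
      indicator {z : ℝ × ℝ | z.1 ^ 2 < 2 * z.2} (fun z => ENNReal.ofReal (g z)) (r, r * b) =
      ENNReal.ofReal (∫ r in (0 : ℝ)..2, h r) := by
  have hp : ∀ r, 0 < r → ∀ b ∈ Ioo (r / 2) 1, 0 ≤ (1 - b ^ 2) * (A r + B r * b + C r * b ^ 2) := by
    intro r hr b hb
    have hb0 : 0 < b := (half_pos hr).trans hb.1
    rw [← h1 r hr]
    refine mul_nonneg (by nlinarith [hb.2]) (mul_nonneg (by positivity) (hpos _ _ hr ?_ ?_))
    · rw [abs_of_pos (by positivity)]
      nlinarith [hb.2]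
    · nlinarith [hb.1]
  have hin : ∀ r ∈ Ioi (0 : ℝ), ∫⁻ b in Ioo (-1 : ℝ) 1, ENNReal.ofReal (r ^ 4 * (1 - b ^ 2)) *
      indicator {z : ℝ × ℝ | z.1 ^ 2 < 2 * z.2} (fun z => ENNReal.ofReal (g z)) (r, r * b) =
      indicator (Iio 2) (fun r => ENNReal.ofReal (h r)) r := by
    intro r (hr : 0 < r)
    have e1 : ∀ b ∈ Ioo (-1 : ℝ) 1, ENNReal.ofReal (r ^ 4 * (1 - b ^ 2)) *
        indicator {z : ℝ × ℝ | z.1 ^ 2 < 2 * z.2} (fun z => ENNReal.ofReal (g z)) (r, r * b) =
        indicator (Ioi (r / 2))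
          (fun b => ENNReal.ofReal ((1 - b ^ 2) * (A r + B r * b + C r * b ^ 2))) b := by
      intro b hb
      by_cases hrb : r / 2 < b
      · rw [indicator_of_mem (show (r, r * b) ∈ {z : ℝ × ℝ | z.1 ^ 2 < 2 * z.2} by
          show r ^ 2 < 2 * (r * b); nlinarith), indicator_of_mem (mem_Ioi.2 hrb), ← h1 r hr,
          ← ENNReal.ofReal_mul (mul_nonneg (by positivity) (by nlinarith [hb.1, hb.2]))]
        congr 1
        ring
      · rw [indicator_of_notMem (show (r, r * b) ∉ {z : ℝ × ℝ | z.1 ^ 2 < 2 * z.2} by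
          show ¬ r ^ 2 < 2 * (r * b); nlinarith), indicator_of_notMem (s := Ioi (r / 2)) hrb,
          mul_zero]
    rw [setLIntegral_congr_fun measurableSet_Ioo e1, lintegral_indicator measurableSet_Ioi,
      Measure.restrict_restrict measurableSet_Ioi, inter_comm, Ioo_inter_Ioi,
      max_eq_right (by linarith)]
    rcases lt_or_ge r 2 with h3 | h3
    · rw [indicator_of_mem (mem_Iio.2 h3), certball_of (by linarith) (by fun_prop) (hp r hr),
        certball_poly, h2 r hr]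
    · rw [indicator_of_notMem (s := Iio 2) (not_lt.2 h3), Ioo_eq_empty (by linarith),
        Measure.restrict_empty, lintegral_zero_measure]
  rw [setLIntegral_congr_fun measurableSet_Ioi hin, lintegral_indicator measurableSet_Iio,
    Measure.restrict_restrict measurableSet_Iio, Iio_inter_Ioi]
  refine certball_of (by norm_num) hh fun r hr => ?_
  rw [← h2 r hr.1, ← certball_poly, intervalIntegral.integral_of_le (by linarith [hr.2]),
    integral_Ioc_eq_integral_Ioo]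
  exact setIntegral_nonneg measurableSet_Ioo (hp r hr.1)

omit [FiniteDimensional ℝ E] [MeasurableSpace E] [BorelSpace E] in
theorem certball_mem {e : E} (he : ‖e‖ = 1) (v : E) :
    v ∈ Metric.ball e 1 ↔ ‖v‖ ^ 2 < 2 * ⟪e, v⟫ := by
  rw [mem_ball_iff_norm, ← sq_lt_one_iff₀ (norm_nonneg _), norm_sub_sq_real, he, real_inner_comm]
  constructor <;> intro h <;> linarith

theorem certball_int {e : E} (he : ‖e‖ = 1) (g : ℝ × ℝ → ℝ) (hg : Measurable g)
    (hpos : ∀ r s, 0 < r → |s| ≤ r → r ^ 2 < 2 * s → 0 ≤ g (r, s)) :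
    ∫ v in Metric.ball e 1, g (‖v‖, ⟪e, v⟫) = (∫⁻ v : E, indicator {z : ℝ × ℝ | z.1 ^ 2 < 2 * z.2}
      (fun z => ENNReal.ofReal (g z)) (‖v‖, ⟪e, v⟫)).toReal := by
  have hm : Measurable fun v : E => g (‖v‖, ⟪e, v⟫) := hg.comp (by fun_prop)
  rw [integral_eq_lintegral_of_nonneg_ae (ae_restrict_of_forall_mem measurableSet_ball ?_)
    hm.aestronglyMeasurable, ← lintegral_indicator measurableSet_ball]
  · congr 1
    refine lintegral_congr fun v => ?_
    by_cases hv : v ∈ Metric.ball e 1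
    · rw [indicator_of_mem hv, indicator_of_mem (by exact (certball_mem he v).1 hv)]
    · rw [indicator_of_notMem hv, indicator_of_notMem (by exact mt (certball_mem he v).2 hv)]
  · intro v hv
    rw [certball_mem he] at hv
    refine hpos _ _ (norm_pos_iff.2 ?_) (certball_abs he v) hv
    rintro rfl
    simp at hv

theorem certball_i1 : ∫ r in (0 : ℝ)..2, (64 / 45 - 16 / 15 * r + 19 / 30 * r ^ 2 - 8 / 9 * r ^ 3 +
    11 / 8 * r ^ 4 - 43 / 60 * r ^ 5 + 1 / 20 * r ^ 7 - 512 / 45 / (r + 2) ^ 3) = 8 / 15 := by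
  rw [intervalIntegral.integral_eq_sub_of_hasDerivAt
    (f := fun r => 64 / 45 * r - 8 / 15 * r ^ 2 + 19 / 90 * r ^ 3 - 2 / 9 * r ^ 4 + 11 / 40 * r ^ 5 -
      43 / 360 * r ^ 6 + 1 / 160 * r ^ 8 + 256 / 45 * ((r + 2) ^ 2)⁻¹) (fun x hx => ?_)
    (ContinuousOn.intervalIntegrable_of_Icc (by norm_num) certball_cont)]
  · norm_num
  · have hx := (uIcc_of_le (by norm_num : (0 : ℝ) ≤ 2) ▸ hx).1
    have h := hasDerivAt_id' x
    refine ((((((((h.const_mul _).sub ((h.pow 2).const_mul _)).add ((h.pow 3).const_mul _)).sub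
      ((h.pow 4).const_mul _)).add ((h.pow 5).const_mul _)).sub ((h.pow 6).const_mul _)).add
      ((h.pow 8).const_mul _)).add
      ((((h.add_const 2).pow 2).inv (by show (x + 2) ^ 2 ≠ 0; positivity)).const_mul _)).congr_deriv ?_
    simp only [Nat.cast_ofNat, Nat.add_one_sub_one, Pi.pow_apply]
    field_simp
    ring

theorem certball_i2 : ∫ r in (0 : ℝ)..2, (1 / 2 - 1 / 4 * r ^ 2 + 1 / 32 * r ^ 4) = 8 / 15 := by
  rw [intervalIntegral.integral_eq_sub_of_hasDerivAt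
    (f := fun r => 1 / 2 * r - 1 / 12 * r ^ 3 + 1 / 160 * r ^ 5) (fun x _ => ?_)
    (Continuous.intervalIntegrable (by fun_prop) _ _)]
  · norm_num
  · have h := hasDerivAt_id' x
    refine (((h.const_mul _).sub ((h.pow 3).const_mul _)).add
      ((h.pow 5).const_mul _)).congr_deriv ?_
    simp only [Nat.cast_ofNat, Nat.add_one_sub_one]
    ring

theorem ball_integral (hE : Module.finrank ℝ E = 5) {e : E} (he : ‖e‖ = 1) :
    ∫ v in Metric.ball e 1, (Bf ‖v‖ ⟪e, v⟫ - 2 * ⟪e, v⟫ / ‖v‖ ^ 5) = -om E := by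
  obtain ⟨c, -, hc⟩ := exists_cyl hE he
  have hS : MeasurableSet {z : ℝ × ℝ | z.1 ^ 2 < 2 * z.2} :=
    measurableSet_lt (by fun_prop) (by fun_prop)
  have m1 : Measurable fun z : ℝ × ℝ => Bf z.1 z.2 + 1 := measurable_Bf.add_const 1
  have m2 : Measurable fun z : ℝ × ℝ => 2 * z.2 / z.1 ^ 5 := by fun_prop
  have p1 : ∀ r s : ℝ, 0 < r → |s| ≤ r → r ^ 2 < 2 * s → 0 ≤ Bf r s + 1 := fun r s hr hs _ =>
    (add_pos (Bf_pos hr hs) one_pos).le
  have p2 : ∀ r s : ℝ, 0 < r → |s| ≤ r → r ^ 2 < 2 * s → 0 ≤ 2 * s / r ^ 5 := fun r s hr _ h =>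
    div_nonneg ((sq_nonneg r).trans h.le) (by positivity)
  have i1 := certball_int he _ m1 p1
  have i2 := certball_int he _ m2 p2
  rw [hc _ (m1.ennreal_ofReal.indicator hS), certball_lint _
    (fun r => r * (8 + 12 * r + 16 * r ^ 2 + 16 * r ^ 3 + 40 / 3 * r ^ 4 + 6 * r ^ 5 + r ^ 6) /
      (r + 2) ^ 3 + r ^ 4)
    (fun r => -(r ^ 2 * (32 + 48 * r + 112 / 3 * r ^ 2 + 16 * r ^ 3 + 8 / 3 * r ^ 4)) / (r + 2) ^ 3)
    (fun r => r * (24 + 36 * r + 64 / 3 * r ^ 2 + 8 * r ^ 3 + 4 / 3 * r ^ 4) / (r + 2) ^ 3) _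
    certball_cont p1 (fun r hr b => by
      rw [certalg_quad hr]
      field_simp
      ring) (fun r hr => by
      field_simp
      ring), certball_i1] at i1
  rw [hc _ (m2.ennreal_ofReal.indicator hS), certball_lint _ (fun _ => 0) (fun _ => 2) (fun _ => 0)
    (fun r => 1 / 2 - 1 / 4 * r ^ 2 + 1 / 32 * r ^ 4) (by fun_prop) p2 (fun r hr b => by
      field_simp
      ring) (fun r hr => by ring), certball_i2] at i2
  have hb := Metric.isBounded_ball (x := e) (r := 1)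
  rw [integral_add (integrableOn_Bf hE he hb) (integrableOn_const measure_ball_lt_top.ne),
    setIntegral_const, ← i2, measureReal_def, Measure.addHaar_ball_center] at i1
  rw [integral_sub (integrableOn_Bf hE he hb) (integrableOn_ang hE he hb), om]
  simp only [smul_eq_mul, mul_one] at i1
  linarith


end Vale.Agent.P219
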