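import Vale.Agent.P219.CertAlg
import Vale.Agent.P219.FluxE

/-!
# The truncation error  (TASK)

`e r = 4 (1 + |r|) |chi r - chi √(r² + ε²)|` with `Bg_ge`, `chi_anti`.  Along `ε = 1 / (k + 1)` it tends to `0` for every
`r > 0` and is dominated on `closedBall 0 R` by `12 (1 + |R|) ((r ^ 3)⁻¹ + 1)` (`chi_le`, `chi_pos`, `integrableOn_inv_pow`):
dominated convergence (`tendsto_integral_of_dominated_convergence`; the origin is a null set).
-/

namespace Vale.Agent.P219

open scoped ContDiff Topology RealInnerProductSpace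
open MeasureTheory Set Vale.Agent.P255

variable {E : Type*} [NormedAddCommGroup E] [InnerProductSpace ℝ E] [FiniteDimensional ℝ E]
  [MeasurableSpace E] [BorelSpace E]

theorem certerr_le (r ε : ℝ) : r ≤ √(r ^ 2 + ε ^ 2) :=
  Real.le_sqrt_of_sq_le (le_add_of_nonneg_right (sq_nonneg ε))

theorem exists_err (hE : Module.finrank ℝ E = 5) (R : ℝ) {η : ℝ} (hη : 0 < η) :
    ∃ ε : ℝ, 0 < ε ∧ ∃ e : ℝ → ℝ, Measurable e ∧ (∀ r, 0 ≤ e r) ∧
      IntegrableOn (fun v : E => e ‖v‖) (Metric.closedBall 0 R) ∧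
      ∫ v in Metric.closedBall (0 : E) R, e ‖v‖ ≤ η ∧
      ∀ r s : ℝ, 0 < r → |s| ≤ r → Bf r s - e r ≤ Bg (√(r ^ 2 + ε ^ 2)) r s := by
  let e : ℕ → ℝ → ℝ := fun k r =>
    4 * (1 + |r|) * |chi r - chi (√(r ^ 2 + (1 / ((k : ℝ) + 1)) ^ 2))|
  have hm : ∀ k, Measurable (e k) := fun k => by
    have := measurable_chi
    fun_prop
  have h0 : ∀ k r, 0 ≤ e k r := fun k r => by positivity
  have : Nontrivial E := Module.nontrivial_of_finrank_pos (R := ℝ) (by omega)
  have hae : ∀ᵐ v ∂(volume.restrict (Metric.closedBall (0 : E) R)), 0 < ‖v‖ ∧ ‖v‖ ≤ R := by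
    filter_upwards [ae_restrict_of_ae (Measure.ae_ne volume (0 : E)),
      ae_restrict_mem measurableSet_closedBall] with v h1 h2
    exact ⟨norm_pos_iff.2 h1, by simpa using h2⟩
  have hb : IntegrableOn (fun v : E => 12 * (1 + |R|) * ((‖v‖ ^ 3)⁻¹ + 1))
      (Metric.closedBall 0 R) :=
    ((integrableOn_inv_pow hE (by norm_num) Metric.isBounded_closedBall).add
      (integrableOn_const measure_closedBall_lt_top.ne)).const_mul _
  have hm' : ∀ k, AEStronglyMeasurable (fun v : E => e k ‖v‖)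
      (volume.restrict (Metric.closedBall (0 : E) R)) := fun k =>
    ((hm k).comp measurable_norm).aestronglyMeasurable
  have hle : ∀ k, ∀ᵐ v ∂(volume.restrict (Metric.closedBall (0 : E) R)),
      ‖e k ‖v‖‖ ≤ 12 * (1 + |R|) * ((‖v‖ ^ 3)⁻¹ + 1) := fun k => by
    filter_upwards [hae] with v hv
    have h1 := certerr_le ‖v‖ (1 / ((k : ℝ) + 1))
    have h2 := chi_anti hv.1 h1
    have h3 := chi_pos (hv.1.trans_le h1)
    have h4 := chi_le hv.1
    rw [Real.norm_of_nonneg (h0 _ _)]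
    calc e k ‖v‖ ≤ 4 * (1 + |R|) * (3 * ((‖v‖ ^ 3)⁻¹ + 1)) := by
          refine mul_le_mul ?_ ?_ (abs_nonneg _) (by positivity)
          · rw [abs_norm]
            linarith [le_abs_self R, hv.2]
          · rw [abs_of_nonneg (sub_nonneg.2 h2)]
            linarith
      _ = _ := by ring
  have hlim := tendsto_integral_of_dominated_convergence (f := fun _ : E => (0 : ℝ)) _ hm' hb hle (by
    filter_upwards [hae] with v hv
    have h1 : ContinuousAt (fun t : ℝ => 4 * (1 + |‖v‖|) * |chi ‖v‖ - chi (√(‖v‖ ^ 2 + t ^ 2))|) 0 := by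
      have h2 : ContinuousAt chi (√(‖v‖ ^ 2 + (0 : ℝ) ^ 2)) :=
        (hasDerivAt_chi (hv.1.trans_le (certerr_le ‖v‖ 0))).continuousAt
      have h3 : ContinuousAt (fun t : ℝ => chi (√(‖v‖ ^ 2 + t ^ 2))) 0 :=
        ContinuousAt.comp (f := fun t : ℝ => √(‖v‖ ^ 2 + t ^ 2)) h2 (by fun_prop)
      exact continuousAt_const.mul (continuousAt_const.sub h3).abs
    simpa [e, Function.comp_def] using h1.tendsto.comp tendsto_one_div_add_atTop_nhds_zero_nat)
  rw [integral_zero] at hlim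
  obtain ⟨k, hk⟩ := (hlim.eventually (eventually_le_nhds hη)).exists
  refine ⟨1 / ((k : ℝ) + 1), Nat.one_div_pos_of_nat, e k, hm k, h0 k, hb.mono' (hm' k) (hle k), hk,
    fun r s hr hs => ?_⟩
  have h1 := certerr_le r (1 / ((k : ℝ) + 1))
  have h2 := Bg_ge hr h1 hs
  simp only [e]
  rwa [abs_of_pos hr, abs_of_nonneg (sub_nonneg.2 (chi_anti hr h1))]

end Vale.Agent.P219
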