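import Vale.Agent.P219.LinAlg

/-!
# Determinant inequalities and Gram determinants  (TASK)

`wt_le_of_le`, `eq_of_wt_eq`: with `P₁, P₂` from `exists_sqrt` the map `T = P₁ A P₂⁻¹` is a contraction; the symmetric
operator `T† T` has eigenvalues in `[0, 1]` and determinant `(wt B₁ |det A| / wt B₂) ^ 2`; if their product is `1`
all are `1`, so `T† T = 1`.
`wt_basis`: the matrix of `hat B` in `b` is (the transpose of) `B (b i) (b j)` (`LinearMap.det_toMatrix`).
`ad_basis`: `dn ^ 2` is the `(0, 0)` entry of the inverse matrix, i.e. `adjugate 0 0 / det`, and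
`Matrix.adjugate_fin_succ_eq_det_submatrix`.
`exists_frame`: `P` from `exists_sqrt`; extend the unit vector `P ν` to an orthonormal basis `b` with `b 0 = P ν`
(`Orthonormal.exists_orthonormalBasis_extension_of_card_eq`), `e i = P⁻¹ (b i.succ)`; Parseval gives the second
clause.  `N = dn • ⟪b 0, P ·⟫`, so `cof P⁻¹ (dn • innerSL (b 0)) = |det P|⁻¹ • N` and by `ad_cof`, `ad_smul`, `ad_basis`
`ad B' N = ad B N * √det (B' (e i) (e j))`; finally `det ≤ (trace / 4) ^ 4` for a positive semidefinite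
matrix (eigenvalues, `Real.inner_le_nnorm_mul_nnorm` is not needed: AM-GM `Real.geom_mean_le_arith_mean_weighted`
or two applications of `4 a b ≤ (a + b) ^ 2`).
-/

namespace Vale.Agent.P219

open scoped ContDiff Topology RealInnerProductSpace
open MeasureTheory Set Vale.Agent.P255

variable {E : Type*} [NormedAddCommGroup E] [InnerProductSpace ℝ E] [FiniteDimensional ℝ E]
  {B : Bil E}

theorem linalg2_core {C : Bil E} (hs : ∀ u v, C u v = C v u) (h0 : ∀ u, 0 ≤ C u u)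
    (h1 : ∀ u, C u u ≤ ⟪u, u⟫) :
    (hat C).det ≤ 1 ∧ ((hat C).det = 1 → ∀ u v, C u v = ⟪u, v⟫) := by
  have hT : (hat C : E →ₗ[ℝ] E).IsSymmetric := fun u v => by
    rw [ContinuousLinearMap.coe_coe, inner_hat, real_inner_comm, inner_hat, hs]
  let b := hT.eigenvectorBasis rfl
  let l := hT.eigenvalues rfl
  have hb : ∀ i, hat C (b i) = l i • b i := fun i => hT.apply_eigenvectorBasis rfl i
  have hl : ∀ i, C (b i) (b i) = l i := fun i => by
    rw [← inner_hat, hb, real_inner_smul_left, b.inner_eq_one, mul_one]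
  have hl0 : ∀ i, 0 ≤ l i := fun i => hl i ▸ h0 _
  have hl1 : ∀ i, l i ≤ 1 := fun i => by
    have := h1 (b i)
    rwa [hl, b.inner_eq_one] at this
  have hd : (hat C).det = ∏ i, l i := hT.det_eq_prod_eigenvalues rfl
  refine ⟨hd ▸ Finset.prod_le_one (fun i _ => hl0 i) fun i _ => hl1 i, fun he u v => ?_⟩
  have h2 : ∀ i, l i = 1 := fun i => by
    refine le_antisymm (hl1 i) ?_
    rw [hd, ← Finset.mul_prod_erase _ _ (Finset.mem_univ i)] at he
    have := mul_le_mul_of_nonneg_left (Finset.prod_le_one (s := Finset.univ.erase i)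
      (fun j _ => hl0 j) fun j _ => hl1 j) (hl0 i)
    linarith
  have h3 : (hat C : E →ₗ[ℝ] E) = LinearMap.id := b.toBasis.ext fun i => by
    simp only [OrthonormalBasis.coe_toBasis, ContinuousLinearMap.coe_coe, hb, h2, one_smul,
      LinearMap.id_apply]
  rw [← inner_hat, show hat C u = u from LinearMap.congr_fun h3 u]

theorem linalg2_red {B₁ B₂ : Bil E} (h₁ : PosB B₁) (h₂ : PosB B₂) {A : E →L[ℝ] E}
    (h : ∀ k, B₁ (A k) (A k) ≤ B₂ k k) : ∃ P : E ≃L[ℝ] E, (∀ u v, B₂ u v = ⟪P u, P v⟫) ∧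
      wt ((B₁.bilinearComp A A).bilinearComp (P.symm : E →L[ℝ] E) (P.symm : E →L[ℝ] E)) =
        wt B₁ * |A.det| / wt B₂ ∧
      (hat ((B₁.bilinearComp A A).bilinearComp (P.symm : E →L[ℝ] E) (P.symm : E →L[ℝ] E))).det ≤ 1 ∧
      ((hat ((B₁.bilinearComp A A).bilinearComp (P.symm : E →L[ℝ] E)
        (P.symm : E →L[ℝ] E))).det = 1 → ∀ u v, ((B₁.bilinearComp A A).bilinearComp
          (P.symm : E →L[ℝ] E) (P.symm : E →L[ℝ] E)) u v = ⟪u, v⟫) := by
  obtain ⟨P, hP, hw⟩ := exists_sqrt h₂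
  refine ⟨P, hP, ?_, linalg2_core (fun u v => h₁.1 _ _) (fun u => h₁.nonneg _) fun u => ?_⟩
  · rw [wt_comp, wt_comp, P.det_coe_symm, abs_inv, ← hw]
    ring
  · have := h (P.symm u)
    rwa [hP, P.apply_symm_apply] at this

theorem linalg2_amgm {M : Matrix (Fin 4) (Fin 4) ℝ} (hM : M.PosSemidef) :
    √M.det ≤ ((∑ i, M i i) / 4) ^ 2 := by
  have h1 : M.det = ∏ i, hM.1.eigenvalues i := hM.1.det_eq_prod_eigenvalues
  have h2 : ∑ i, M i i = ∑ i, hM.1.eigenvalues i := hM.1.trace_eq_sum_eigenvalues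
  have h3 := hM.eigenvalues_nonneg
  rw [h1, h2, Fin.prod_univ_four, Fin.sum_univ_four]
  have ha := h3 0
  have hb := h3 1
  have hc := h3 2
  have hd := h3 3
  generalize hM.1.eigenvalues 0 = a at *
  generalize hM.1.eigenvalues 1 = b at *
  generalize hM.1.eigenvalues 2 = c at *
  generalize hM.1.eigenvalues 3 = d at *
  refine Real.sqrt_le_iff.2 ⟨by positivity, ?_⟩
  have e1 : a * b ≤ ((a + b) / 2) ^ 2 := by nlinarith [sq_nonneg (a - b)]
  have e2 : c * d ≤ ((c + d) / 2) ^ 2 := by nlinarith [sq_nonneg (c - d)]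
  have e3 : (a + b) / 2 * ((c + d) / 2) ≤ ((a + b + c + d) / 4) ^ 2 := by
    nlinarith [sq_nonneg (a + b - c - d)]
  calc a * b * c * d = (a * b) * (c * d) := by ring
    _ ≤ ((a + b) / 2) ^ 2 * ((c + d) / 2) ^ 2 := by gcongr
    _ = ((a + b) / 2 * ((c + d) / 2)) ^ 2 := by ring
    _ ≤ _ := by gcongr

theorem wt_le_of_le {B₁ B₂ : Bil E} (h₁ : PosB B₁) (h₂ : PosB B₂) {A : E →L[ℝ] E}
    (h : ∀ k, B₁ (A k) (A k) ≤ B₂ k k) : wt B₁ * |A.det| ≤ wt B₂ := by
  obtain ⟨P, hP, h3, h4, -⟩ := linalg2_red h₁ h₂ h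
  have h5 := wt_pos h₂
  have : wt B₁ * |A.det| / wt B₂ ≤ 1 := by
    rw [← h3]
    exact Real.sqrt_le_one.2 h4
  rwa [div_le_one h5] at this

theorem eq_of_wt_eq {B₁ B₂ : Bil E} (h₁ : PosB B₁) (h₂ : PosB B₂) {A : E →L[ℝ] E}
    (h : ∀ k, B₁ (A k) (A k) ≤ B₂ k k) (he : wt B₁ * |A.det| = wt B₂) (u v : E) :
    B₁ (A u) (A v) = B₂ u v := by
  obtain ⟨P, hP, h3, -, h4⟩ := linalg2_red h₁ h₂ h
  rw [he, div_self (wt_pos h₂).ne'] at h3
  have := h4 (Real.sqrt_eq_one.1 h3) (P u) (P v)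
  rw [hP, ← this]
  simp [ContinuousLinearMap.bilinearComp_apply]

theorem wt_basis {k : ℕ} (b : OrthonormalBasis (Fin k) ℝ E) (B : Bil E) :
    wt B = √(Matrix.of fun i j : Fin k => B (b i) (b j)).det := by
  rw [wt, ContinuousLinearMap.det, ← LinearMap.det_toMatrix b.toBasis, ← Matrix.det_transpose]
  congr 2
  ext i j
  simp only [Matrix.transpose_apply, LinearMap.toMatrix_apply, OrthonormalBasis.coe_toBasis,
    OrthonormalBasis.coe_toBasis_repr_apply, OrthonormalBasis.repr_apply_apply, Matrix.of_apply,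
    ContinuousLinearMap.coe_coe]
  rw [real_inner_comm, inner_hat]

theorem ad_basis {k : ℕ} (b : OrthonormalBasis (Fin (k + 1)) ℝ E) (hB : PosB B) {N : E →L[ℝ] ℝ}
    (hN : ∀ v, N v = ⟪b 0, v⟫) :
    ad B N = √(Matrix.of fun i j : Fin k => B (b i.succ) (b j.succ)).det := by
  have h1 := hB.inv.self_apply_inverse N
  have h3 := hB.nonneg (B.inverse N)
  rw [h1] at h3
  set M : Matrix (Fin (k + 1)) (Fin (k + 1)) ℝ := Matrix.of fun i j => B (b i) (b j) with hM
  let x : Fin (k + 1) → ℝ := fun i => ⟪b i, B.inverse N⟫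
  have h4 : Matrix.vecMul x M = Pi.single 0 1 := by
    funext j
    have h5 : B (B.inverse N) (b j) = ∑ i, x i * B (b i) (b j) := by
      conv_lhs => rw [← b.sum_repr' (B.inverse N)]
      simp only [map_sum, map_smul, sum_apply, smul_apply, smul_eq_mul, x]
    rw [h1, hN, b.inner_eq_ite] at h5
    simp only [Matrix.vecMul, dotProduct, hM, Matrix.of_apply, ← h5, Pi.single_apply, eq_comm]
  have h6 : M.adjugate 0 0 = x 0 * M.det := by
    have := congrFun (congrArg (fun y => Matrix.vecMul y M.adjugate) h4) 0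
    simp only [Matrix.vecMul_vecMul, Matrix.mul_adjugate, Matrix.vecMul_smul, Matrix.vecMul_one,
      Pi.smul_apply, smul_eq_mul, Matrix.single_one_vecMul, Matrix.row_apply] at this
    rw [← this, mul_comm]
  rw [ad, dn, wt_basis b, ← Real.sqrt_mul h3, hN, ← hM, ← h6,
    Matrix.adjugate_fin_succ_eq_det_submatrix]
  simp only [Fin.val_zero, add_zero, pow_zero, one_mul, Fin.succAbove_zero]
  rfl

theorem exists_frame (hE : Module.finrank ℝ E = 5) (hB : PosB B) {N : E →L[ℝ] ℝ} (hN : N ≠ 0) :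
    ∃ e : Fin 4 → E, (∀ i, B (e i) (e i) = 1) ∧
      (∀ v, ∑ i, B v (e i) ^ 2 = B v v - B (nu B N) v ^ 2) ∧
      ∀ B' : Bil E, PosB B' → ad B' N ≤ ad B N * ((∑ i, B' (e i) (e i)) / 4) ^ 2 := by
  obtain ⟨P, hP, hw⟩ := exists_sqrt hB
  obtain ⟨hd, h1, h2⟩ := nu_spec hB hN
  have ho : Orthonormal ℝ (({0} : Set (Fin 5)).domRestrict fun _ => P (nu B N)) := by
    refine ⟨fun _ => ?_, fun i j hij => absurd (Subsingleton.elim i j) hij⟩
    rw [hP, real_inner_self_eq_norm_sq] at h1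
    exact (pow_eq_one_iff_of_nonneg (norm_nonneg _) two_ne_zero).1 h1
  obtain ⟨b, hb⟩ := ho.exists_orthonormalBasis_extension_of_card_eq (by simpa using hE)
  have hb0 : b 0 = P (nu B N) := hb 0 rfl
  refine ⟨fun i => P.symm (b i.succ), fun i => ?_, fun v => ?_, fun B' hB' => ?_⟩
  · rw [hP, P.apply_symm_apply, b.inner_eq_one]
  · have := b.sum_sq_inner_right (P v)
    rw [Fin.sum_univ_succ, hb0] at this
    simp only [hP, P.apply_symm_apply, real_inner_self_eq_norm_sq, ← this,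
      real_inner_comm (P v)]
    ring
  · have hQ : (P.symm : E →L[ℝ] E).det ≠ 0 := det_ne_of_injective P.symm.injective
    have h3 := ad_cof hB' hQ (innerSL ℝ (b 0))
    rw [ad_basis b (hB'.comp hQ) (fun v => rfl)] at h3
    have h4 : N = ad B N • cof (P.symm : E →L[ℝ] E) (innerSL ℝ (b 0)) := by
      ext v
      have h5 := cof_apply hQ (innerSL ℝ (b 0)) (P v)
      rw [ContinuousLinearEquiv.coe_coe, P.symm_apply_apply, P.det_coe_symm, abs_inv, ← hw,
        innerSL_apply_apply, hb0, ← hP] at h5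
      have h6 := (wt_pos hB).ne'
      rw [smul_apply, hb0, h5, h2 v, ad, smul_eq_mul]
      field_simp
    have h7 : ad B' N = ad B N * ad B' (cof (P.symm : E →L[ℝ] E) (innerSL ℝ (b 0))) := by
      conv_lhs => rw [h4]
      rw [ad_smul hB', abs_of_nonneg (ad_nonneg B N)]
    rw [h7, h3]
    refine mul_le_mul_of_nonneg_left ?_ (ad_nonneg B N)
    obtain ⟨P', hP', -⟩ := exists_sqrt hB'
    have h8 := linalg2_amgm
      (Matrix.posSemidef_gram ℝ fun i : Fin 4 => P' (P.symm (b i.succ)))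
    simp only [ContinuousLinearMap.bilinearComp_apply, ContinuousLinearEquiv.coe_coe, hP']
    exact h8

end Vale.Agent.P219
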