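import Vale.Agent.P219.Push
import Vale.Agent.P219.LinAlg2

/-!
# Normal coordinates  (TASK)

`chg`: `P` from `exists_sqrt`, `Diffeo.integral_image` for `x ↦ P (L y x)`, `det (P ∘ A) = det P * det A`.
`jac_le`: `wt_le_of_le` with `contr`.  `jac_symm`: `q (y, x) = qq G L y x` is smooth and symmetric; differentiate `grad`
in the other variable: the mixed second derivative of `q` at `(y, x)` on `(h, 0), (0, k)` equals both
`-2 G y (fderiv (L y) x k) h` and `-2 G x (fderiv (L x) y h) k` (`ContDiffAt.isSymmSndFDerivAt`); then `det_adj`.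
`radial_bound`: `wt (G x) / (wt (G y) |det|)` and `rr` are continuous on the compact `K ×ˢ K`;
`rr G L y x = ‖P (L y x)‖`; `chg` with `f v = e ‖v‖`, image inside `closedBall 0 R`.
-/

namespace Vale.Agent.P219

open scoped ContDiff Topology RealInnerProductSpace
open MeasureTheory Set Vale.Agent.P255

variable {E : Type*} [NormedAddCommGroup E] [InnerProductSpace ℝ E] [FiniteDimensional ℝ E]
  [MeasurableSpace E] [BorelSpace E]
  {G : E → Bil E} {L : E → E → E}

omit [MeasurableSpace E] [BorelSpace E] in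
theorem Pack.contDiff_qq (hP : Pack G L) : ContDiff ℝ ∞ fun z : E × E => qq G L z.1 z.2 := by
  exact (((contDiffOn_univ.1 hP.loc.smooth).comp contDiff_fst).clm_apply hP.smooth).clm_apply
    hP.smooth

theorem chg_two : (2 : WithTop ℕ∞) ≤ ∞ := WithTop.coe_le_coe.2 le_top

omit [MeasurableSpace E] [BorelSpace E] in
theorem chg_smooth (hP : Pack G L) (y : E) : ContDiff ℝ ∞ (L y) :=
  hP.smooth.comp (contDiff_const.prodMk contDiff_id)

omit [MeasurableSpace E] [BorelSpace E] in
theorem chg_det (P : E ≃L[ℝ] E) (f : E → E) (x : E) :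
    (fderiv ℝ (fun x => P (f x)) x).det = (P : E →L[ℝ] E).det * (fderiv ℝ f x).det := by
  have h : fderiv ℝ (fun x => P (f x)) x = (P : E →L[ℝ] E).comp (fderiv ℝ f x) := P.comp_fderiv
  rw [h]
  exact LinearMap.det_comp _ _

omit [FiniteDimensional ℝ E] [MeasurableSpace E] [BorelSpace E] in
theorem chg_part {X : Type*} [NormedAddCommGroup X] [NormedSpace ℝ X] {F : E × E → X} {y x : E}
    (hF : DifferentiableAt ℝ F (y, x)) (h : E) :
    fderiv ℝ (fun z => F (z, x)) y h = fderiv ℝ F (y, x) (h, 0) ∧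
      fderiv ℝ (fun w => F (y, w)) x h = fderiv ℝ F (y, x) (0, h) := by
  have h1 : HasFDerivAt (fun z => F (z, x)) _ y :=
    hF.hasFDerivAt.comp y (hasFDerivAt_prodMk_left y x)
  have h2 : HasFDerivAt (fun w => F (y, w)) _ x :=
    hF.hasFDerivAt.comp x (hasFDerivAt_prodMk_right y x)
  rw [h1.fderiv, h2.fderiv]
  exact ⟨rfl, rfl⟩

omit [MeasurableSpace E] [BorelSpace E] in
theorem chg_lin (hP : Pack G L) (y x h k : E) :
    fderiv ℝ (fun w => -2 * G y (L y w) h) x k = -2 * G y (fderiv ℝ (L y) x k) h := by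
  have h1 : HasFDerivAt (fun w => -2 * G y (L y w) h) _ x :=
    (((G y).flip h).hasFDerivAt.comp x
      ((chg_smooth hP y).differentiable (by simp) x).hasFDerivAt).const_mul (-2)
  rw [h1.fderiv]
  rfl

omit [MeasurableSpace E] [BorelSpace E] in
theorem Pack.continuous_jac (hP : Pack G L) :
    Continuous fun z : E × E => (fderiv ℝ (L z.1) z.2).det := by
  have h : ContDiff ℝ 0 fun z : E × E => fderiv ℝ (L z.1) z.2 :=
    ContDiff.fderiv (f := fun z : E × E => L z.1) (m := ∞)
      (hP.smooth.comp (contDiff_fst.fst.prodMk contDiff_snd)) contDiff_snd (by simp)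
  exact ContinuousLinearMap.continuous_det.comp h.continuous

omit [MeasurableSpace E] [BorelSpace E] in
theorem Pack.rr_pos (hP : Pack G L) {y x : E} (h : x ≠ y) : 0 < rr G L y x := by
  refine Real.sqrt_pos.2 ((posB_of_loc hP.loc y).2 _ fun h0 => h (hP.inj y ?_))
  rw [h0, hP.self]

omit [MeasurableSpace E] [BorelSpace E] in
theorem Pack.rr_sq (hP : Pack G L) (y x : E) : rr G L y x ^ 2 = qq G L y x := by
  exact Real.sq_sqrt ((posB_of_loc hP.loc y).nonneg _)

omit [MeasurableSpace E] [BorelSpace E] in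
theorem Pack.diffeo (hP : Pack G L) (y : E) (P : E ≃L[ℝ] E) : Diffeo fun x => P (L y x) := by
  refine ⟨P.contDiff.comp ((chg_smooth hP y).of_le chg_two), P.injective.comp (hP.inj y),
    fun x => ?_⟩
  rw [chg_det]
  exact mul_ne_zero (det_ne_of_injective P.injective) (hP.det_ne y x)

omit [MeasurableSpace E] [BorelSpace E] in
theorem Pack.jac_le (hP : Pack G L) (y x : E) :
    wt (G y) * |(fderiv ℝ (L y) x).det| ≤ wt (G x) := by
  exact wt_le_of_le (posB_of_loc hP.loc y) (posB_of_loc hP.loc x) (hP.contr y x)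

omit [MeasurableSpace E] [BorelSpace E] in
theorem Pack.jac_symm (hP : Pack G L) (y x : E) :
    wt (G x) ^ 2 * (fderiv ℝ (L x) y).det = wt (G y) ^ 2 * (fderiv ℝ (L y) x).det := by
  refine det_adj (posB_of_loc hP.loc x) (posB_of_loc hP.loc y) fun h k => ?_
  set q : E × E → ℝ := fun z => qq G L z.1 z.2 with hq
  have hs : ContDiff ℝ ∞ q := hP.contDiff_qq
  have hd : ∀ z, DifferentiableAt ℝ q z := hs.differentiable (by simp)
  have hD : DifferentiableAt ℝ (fderiv ℝ q) (y, x) :=
    (hs.fderiv_right (m := 1) chg_two).differentiable one_ne_zero _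
  have a1 : (fun w => fderiv ℝ q (y, w) (h, 0)) = fun w => -2 * G y (L y w) h := funext fun w =>
    ((chg_part (hd (y, w)) h).1.symm.trans (hP.grad y w h))
  have a2 : (fun z => fderiv ℝ q (z, x) (0, k)) = fun z => -2 * G x (L x z) k := funext fun z => by
    rw [← (chg_part (hd (z, x)) k).2, ← hP.grad x z k]
    simp only [hq, hP.sym z]
  have b1 := (chg_part (F := fun p => fderiv ℝ q p (h, 0))
    (hD.clm_apply (differentiableAt_const _)) k).2
  have b2 := (chg_part (F := fun p => fderiv ℝ q p (0, k))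
    (hD.clm_apply (differentiableAt_const _)) h).1
  rw [a1, chg_lin hP, loc_fderiv_app1c hD] at b1
  rw [a2, chg_lin hP, loc_fderiv_app1c hD] at b2
  have b3 := (hs.contDiffAt (x := (y, x))).isSymmSndFDerivAt (by simpa using chg_two) (h, 0) (0, k)
  linarith

theorem Pack.chg (hP : Pack G L) (y : E) : ∃ P : E ≃L[ℝ] E, (∀ u v, G y u v = ⟪P u, P v⟫) ∧
    wt (G y) = |(P : E →L[ℝ] E).det| ∧ ∀ S : Set E, MeasurableSet S → ∀ f : E → ℝ,
      (∫ v in (fun x => P (L y x)) '' S, f v =
        ∫ x in S, wt (G y) * |(fderiv ℝ (L y) x).det| * f (P (L y x))) ∧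
      (IntegrableOn f ((fun x => P (L y x)) '' S) ↔
        IntegrableOn (fun x => wt (G y) * |(fderiv ℝ (L y) x).det| * f (P (L y x))) S) := by
  obtain ⟨P, h1, h2⟩ := exists_sqrt (posB_of_loc hP.loc y)
  refine ⟨P, h1, h2, fun S hS f => ?_⟩
  have h3 := (hP.diffeo y P).integral_image hS f
  have h4 := (hP.diffeo y P).integrableOn_image hS f
  simp only [chg_det, abs_mul, ← h2] at h3 h4
  exact ⟨h3, h4⟩

theorem Pack.radial_bound (hP : Pack G L) {K : Set E} (hK : IsCompact K) :
    ∃ J R : ℝ, 0 < J ∧ 0 < R ∧ (∀ y ∈ K, ∀ x ∈ K, rr G L y x ≤ R) ∧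
      ∀ y ∈ K, ∀ S : Set E, MeasurableSet S → S ⊆ K → ∀ e : ℝ → ℝ, Measurable e → (∀ r, 0 ≤ e r) →
        IntegrableOn (fun v : E => e ‖v‖) (Metric.closedBall 0 R) →
          IntegrableOn (fun x => e (rr G L y x) * wt (G x)) S ∧
            ∫ x in S, e (rr G L y x) * wt (G x) ≤
              J * ∫ v in Metric.closedBall (0 : E) R, e ‖v‖ := by
  have hw : Continuous fun y => wt (G y) := (contDiff_wt hP.loc).continuous
  have hw0 : ∀ y, 0 < wt (G y) := fun y => wt_pos (posB_of_loc hP.loc y)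
  have hj0 : ∀ y x, 0 < wt (G y) * |(fderiv ℝ (L y) x).det| := fun y x =>
    mul_pos (hw0 y) (abs_pos.2 (hP.det_ne y x))
  have hr : Continuous fun z : E × E => rr G L z.1 z.2 := hP.contDiff_qq.continuous.sqrt
  have hφ : Continuous fun z : E × E => wt (G z.2) / (wt (G z.1) * |(fderiv ℝ (L z.1) z.2).det|) :=
    (hw.comp continuous_snd).div ((hw.comp continuous_fst).mul hP.continuous_jac.abs)
      fun z => (hj0 _ _).ne'
  obtain ⟨J, hJ⟩ := (hK.prod hK).bddAbove_image hφ.continuousOn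
  obtain ⟨R, hR⟩ := (hK.prod hK).bddAbove_image hr.continuousOn
  have hR' : ∀ y ∈ K, ∀ x ∈ K, rr G L y x ≤ max R 1 := fun y hy x hx =>
    (hR ⟨(y, x), ⟨hy, hx⟩, rfl⟩).trans (le_max_left _ _)
  refine ⟨max J 1, max R 1, lt_max_of_lt_right one_pos, lt_max_of_lt_right one_pos, hR',
    fun y hy S hS hSK e he he0 hi => ?_⟩
  obtain ⟨P, h1, -, h3⟩ := hP.chg y
  obtain ⟨h4, h5⟩ := h3 S hS fun v => e ‖v‖
  have hn : ∀ x, ‖P (L y x)‖ = rr G L y x := fun x => by
    rw [rr, qq, h1, real_inner_self_eq_norm_sq, Real.sqrt_sq (norm_nonneg _)]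
  have hsub : (fun x => P (L y x)) '' S ⊆ Metric.closedBall 0 (max R 1) := by
    rintro _ ⟨x, hx, rfl⟩
    rw [mem_closedBall_zero_iff, hn]
    exact hR' y hy x (hSK hx)
  simp only [hn] at h4 h5
  have h6 := (h5.1 (hi.mono_set hsub)).const_mul (max J 1)
  have hle : ∀ x ∈ S, e (rr G L y x) * wt (G x) ≤
      max J 1 * (wt (G y) * |(fderiv ℝ (L y) x).det| * e (rr G L y x)) := fun x hx => by
    have h7 := (div_le_iff₀ (hj0 y x)).1
      ((hJ ⟨(y, x), ⟨hy, hSK hx⟩, rfl⟩).trans (le_max_left J 1))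
    rw [← mul_assoc, mul_comm (e _)]
    exact mul_le_mul_of_nonneg_right h7 (he0 _)
  have h8 : IntegrableOn (fun x => e (rr G L y x) * wt (G x)) S := by
    refine Integrable.mono' h6 ((he.comp (hr.comp (continuous_const.prodMk
      continuous_id)).measurable).mul hw.measurable).aestronglyMeasurable
      ((ae_restrict_iff' hS).2 (ae_of_all _ fun x hx => ?_))
    rw [Real.norm_of_nonneg (mul_nonneg (he0 _) (hw0 x).le)]
    exact hle x hx
  refine ⟨h8, (setIntegral_mono_on h8 h6 hS hle).trans ?_⟩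
  rw [integral_const_mul, ← h4]
  exact mul_le_mul_of_nonneg_left (setIntegral_mono_set hi (ae_of_all _ fun v => he0 _)
    hsub.eventuallyLE) (le_max_of_le_right zero_le_one)

end Vale.Agent.P219
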