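import Vale.Agent.P219.Taylor
import Vale.Agent.P219.CertAlg
import Vale.Agent.P219.Chg

/-!
# The deformation preserves a large ball  (TASK)

`confine`: `taylor_unif` for `f ((y, ξ), τ) = qq G L (y - τ • ξ) 0` on `K ×ˢ closedBall 0 C`, derivative `2 G y (L y 0) ξ` at `τ = 0`
(`grad`).  With `d = c - qq y 0 ≥ 0`: `qq (y - τ ξ) 0 ≤ qq y 0 + τ C₁ d - 2 κ τ qq y 0 + C' τ²`, which is `≤ c` for small `τ` (cases
`d ≥ c / 2` and `qq y 0 ≥ c / 2`).
`inward`: by `cos` and `sym`, `2 G y (L y 0) (L y x) ≥ qq y 0 + qq y x - qq 0 x ≥ qq y 0 - c` for `x ∈ S`; the weight is at most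
`chi ε * wt (G x)` (`chi_anti`, `chi_pos`) and `vol S ≤ vol K` (`vol_mono`).  All integrands are continuous in `x`.
-/

namespace Vale.Agent.P219

open scoped ContDiff Topology RealInnerProductSpace
open MeasureTheory Set Vale.Agent.P255

variable {E : Type*} [NormedAddCommGroup E] [InnerProductSpace ℝ E] [FiniteDimensional ℝ E]
  [MeasurableSpace E] [BorelSpace E]
  {G : E → Bil E} {L : E → E → E}

omit [MeasurableSpace E] [BorelSpace E] in
theorem Pack.confine (hP : Pack G L) {c κ : ℝ} (hc : 0 < c) (hκ : 0 < κ) (C C₁ : ℝ) :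
    ∃ τ₀ : ℝ, 0 < τ₀ ∧ ∀ τ : ℝ, 0 < τ → τ ≤ τ₀ → ∀ y ξ : E, qq G L y 0 ≤ c → ‖ξ‖ ≤ C →
      2 * G y (L y 0) ξ ≤ C₁ * (c - qq G L y 0) - 2 * κ * qq G L y 0 →
        qq G L (y - τ • ξ) 0 ≤ c := by
  have hq : ContDiff ℝ ∞ fun z : E => qq G L z 0 :=
    hP.contDiff_qq.comp (contDiff_id.prodMk contDiff_const)
  have hf : ContDiff ℝ 2 fun p : (E × E) × ℝ => qq G L (p.1.1 - p.2 • p.1.2) 0 :=
    (hq.of_le (WithTop.coe_le_coe.2 le_top)).comp
      (contDiff_fst.fst.sub (contDiff_snd.smul contDiff_fst.snd))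
  obtain ⟨C', hC', H⟩ := taylor_unif hf ((hP.proper c).prod (isCompact_closedBall (0 : E) C))
  refine ⟨min 1 (min (1 / (2 * (|C₁| + 1))) (min (c / (4 * C')) (κ * c / C'))), by positivity,
    fun τ h0 h1 y ξ hy hξ h => ?_⟩
  simp only [le_min_iff] at h1
  obtain ⟨t1, t2, t3, t4⟩ := h1
  rw [le_div_iff₀ (by positivity)] at t2 t3 t4
  have hd : HasDerivAt (fun t : ℝ => qq G L (y - t • ξ) 0) (2 * G y (L y 0) ξ) 0 := by
    have a1 : HasDerivAt (fun t : ℝ => y - t • ξ) (-ξ) 0 := by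
      simpa using ((hasDerivAt_id (0 : ℝ)).smul_const ξ).const_sub y
    have a2 : HasFDerivAt (fun z : E => qq G L z 0) (fderiv ℝ (fun z : E => qq G L z 0) y)
        (y - (0 : ℝ) • ξ) := by
      rw [zero_smul, sub_zero]
      exact (hq.differentiable (by simp) y).hasFDerivAt
    refine (a2.comp_hasDerivAt 0 a1).congr_deriv ?_
    rw [hP.grad, map_neg]
    ring
  have h2 := H (y, ξ) ⟨hy, mem_closedBall_zero_iff.2 hξ⟩ τ ⟨h0.le, t1⟩
  simp only [hd.deriv, zero_smul, sub_zero, smul_eq_mul, Real.norm_eq_abs] at h2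
  have h3 := (abs_le.1 h2).2
  have q0 : 0 ≤ qq G L y 0 := hP.loc.nonneg (mem_univ y) _
  generalize qq G L y 0 = q at *
  have h4 := mul_le_mul_of_nonneg_left h h0.le
  have h5 : τ * C₁ ≤ 1 / 2 := by nlinarith [le_abs_self C₁]
  have h6 : τ * C₁ * (c - q) ≤ 1 / 2 * (c - q) := mul_le_mul_of_nonneg_right h5 (by linarith)
  have h7 : 0 ≤ τ * κ * q := by positivity
  rcases le_total q (c / 2) with h8 | h8
  · have h9 : τ * (τ * C') ≤ 1 * (τ * C') := mul_le_mul_of_nonneg_right t1 (by positivity)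
    nlinarith
  · have h9 : τ * (τ * C') ≤ τ * (κ * c) := mul_le_mul_of_nonneg_left t4 h0.le
    have h10 : τ * κ * (c / 2) ≤ τ * κ * q := mul_le_mul_of_nonneg_left h8 (by positivity)
    nlinarith

theorem Pack.inward (hP : Pack G L) (c : ℝ) {ε : ℝ} (hε : 0 < ε) :
    ∃ C₁ : ℝ, ∀ S : Set E, MeasurableSet S → S ⊆ {y | qq G L y 0 ≤ c} → ∀ y, qq G L y 0 ≤ c →
      2 * ∫ x in S, chi (√(qq G L y x + ε ^ 2)) * G y (L y 0) (-L y x) * wt (G x) ≤
        C₁ * (c - qq G L y 0) := by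
  have hK := (hP.proper c).isBounded
  refine ⟨chi ε * vol G {y | qq G L y 0 ≤ c}, fun S hS hSK y hy => ?_⟩
  have hd : 0 ≤ c - qq G L y 0 := sub_nonneg.2 hy
  have he := (chi_pos hε).le
  by_cases hi : IntegrableOn (fun x => chi (√(qq G L y x + ε ^ 2)) * G y (L y 0) (-L y x) *
    wt (G x)) S
  swap
  · rw [integral_undef hi, mul_zero]
    exact mul_nonneg (mul_nonneg he (vol_nonneg _ _)) hd
  have hw := integrableOn_wt hP.loc (hK.subset hSK)
  have h1 : ∫ x in S, 2 * (chi (√(qq G L y x + ε ^ 2)) * G y (L y 0) (-L y x) * wt (G x)) ≤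
      ∫ x in S, chi ε * (c - qq G L y 0) * wt (G x) := by
    refine setIntegral_mono_on (hi.const_mul 2) (hw.const_mul _) hS fun x hx => ?_
    have q0 : 0 ≤ qq G L y x := hP.loc.nonneg (mem_univ y) _
    have a1 : ε ≤ √(qq G L y x + ε ^ 2) := Real.le_sqrt_of_sq_le (by linarith)
    have a2 := chi_anti hε a1
    have a3 := (chi_pos (hε.trans_le a1)).le
    have a4 := hP.cos y 0 x
    have a5 : qq G L x 0 ≤ c := hSK hx
    rw [hP.sym 0 x] at a4
    simp only [map_sub, sub_apply,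
      hP.loc.symm y (mem_univ y) (L y x) (L y 0)] at a4
    have a6 : 2 * G y (L y 0) (-L y x) ≤ c - qq G L y 0 := by
      rw [map_neg]
      unfold qq at q0 ⊢
      linarith
    have a7 : 0 ≤ wt (G x) := Real.sqrt_nonneg _
    calc _ = chi (√(qq G L y x + ε ^ 2)) * (2 * G y (L y 0) (-L y x)) * wt (G x) := by ring
      _ ≤ chi (√(qq G L y x + ε ^ 2)) * (c - qq G L y 0) * wt (G x) := by gcongr
      _ ≤ _ := by gcongr
  rw [integral_const_mul, integral_const_mul] at h1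
  refine h1.trans ?_
  rw [mul_right_comm]
  exact mul_le_mul_of_nonneg_right (mul_le_mul_of_nonneg_left (vol_mono hP.loc hK hSK) he) hd

end Vale.Agent.P219
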