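import Vale.Agent.P219.Chg
import Vale.Agent.P219.FluxE

/-!
# The solid angle formula  (TASK)

`flux_pt`: push `D` by `Ψ y = P (L x y)` (`P` from `exists_sqrt` at `x`, `Pack.diffeo`, `Dom.exists_push`); `0 = Ψ x` lies in
the new domain; apply `Dom.flux`.  With `y = p ξ`: `Ψ y = fderiv Ψ y (-L y x)` by `radial` (with the roles of `x, y`
exchanged), so `cof_apply` gives `wt (G x) |det (fderiv (L x) y)| N (-L y x)`; `‖Ψ y‖ = rr G L y x` by `sym`; `jac_symm`.
`flux`: Fubini (`integral_integral_swap`, `Integrable.integral_prod_left`).  The kernel is a.e. strongly measurable on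
`μ.prod (volume.restrict Ω)` (a measurable function of `(p ξ, N ξ, x)`), and by `abs_le_dn`, `jac_le` it is bounded by
`ad (G y) N * ((rr ^ 4)⁻¹ * wt (G x))`, whose `x`-integral is at most `C * ad` (`radial_bound` on `closure Ω` with
`e r = (r ^ 4)⁻¹`, `integrableOn_inv_pow`); use `integrable_prod_iff`, `Dom.integrable_ad`.
-/

namespace Vale.Agent.P219

open scoped ContDiff Topology RealInnerProductSpace
open MeasureTheory Set Vale.Agent.P255

variable {E : Type*} [NormedAddCommGroup E] [InnerProductSpace ℝ E] [FiniteDimensional ℝ E]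
  [MeasurableSpace E] [BorelSpace E]
  {X : Type*} [MeasurableSpace X] {μ : Measure X}
  {G : E → Bil E} {L : E → E → E}

omit [MeasurableSpace E] [BorelSpace E] in
theorem flux_bound (hP : Pack G L) (y x : E) (N : E →L[ℝ] ℝ) :
    ‖wt (G y) ^ 2 * |(fderiv ℝ (L y) x).det| * N (-L y x) / rr G L y x ^ 5‖ ≤
      ad (G y) N * ((rr G L y x ^ 4)⁻¹ * wt (G x)) := by
  have hB := posB_of_loc hP.loc y
  have h0 : 0 ≤ rr G L y x := Real.sqrt_nonneg _
  rcases h0.eq_or_lt with h | h
  · rw [← h]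
    simp
  have h1 : |N (-L y x)| ≤ dn (G y) N * rr G L y x := by
    have := abs_le_dn hB N (-L y x)
    simpa [rr, qq] using this
  have h2 := hP.jac_le y x
  have h3 := (wt_pos hB).le
  have h4 : 0 ≤ dn (G y) N := Real.sqrt_nonneg _
  rw [Real.norm_eq_abs, abs_div, abs_mul, abs_of_nonneg (a := wt (G y) ^ 2 * _) (by positivity),
    abs_of_nonneg (a := rr G L y x ^ 5) (by positivity), div_le_iff₀ (by positivity)]
  have e : ad (G y) N * ((rr G L y x ^ 4)⁻¹ * wt (G x)) * rr G L y x ^ 5 =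
      wt (G y) * wt (G x) * (dn (G y) N * rr G L y x) := by
    unfold ad
    field_simp
  rw [e]
  refine mul_le_mul ?_ h1 (abs_nonneg _) (mul_nonneg h3 (Real.sqrt_nonneg _))
  rw [pow_two, mul_assoc]
  exact mul_le_mul_of_nonneg_left h2 h3

theorem flux_meas (hP : Pack G L) (D : Dom E μ) (ν : Measure E) [SFinite ν] :
    AEStronglyMeasurable (fun z : X × E => wt (G (D.p z.1)) ^ 2 *
      |(fderiv ℝ (L (D.p z.1)) z.2).det| * D.N z.1 (-L (D.p z.1) z.2) /
        rr G L (D.p z.1) z.2 ^ 5) (μ.prod ν) := by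
  have hq : Measurable fun z : X × E => (D.p z.1, z.2) :=
    (D.p_meas.comp measurable_fst).prodMk measurable_snd
  have c1 : Continuous fun z : E × E => wt (G z.1) ^ 2 * |(fderiv ℝ (L z.1) z.2).det| :=
    (((contDiff_wt hP.loc).continuous.comp continuous_fst).pow 2).mul hP.continuous_jac.abs
  have c2 : Continuous fun z : E × E => -L z.1 z.2 := hP.smooth.continuous.neg
  have c3 : Continuous fun z : E × E => rr G L z.1 z.2 ^ 5 :=
    hP.contDiff_qq.continuous.sqrt.pow 5
  have m1 : AEStronglyMeasurable (fun z : X × E => D.N z.1) (μ.prod ν) := D.N_int.1.comp_fst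
  have m2 : AEStronglyMeasurable (fun z : X × E => -L (D.p z.1) z.2) (μ.prod ν) :=
    (c2.measurable.comp hq).aestronglyMeasurable
  have m3 : AEStronglyMeasurable (fun z : X × E => D.N z.1 (-L (D.p z.1) z.2)) (μ.prod ν) :=
    (isBoundedBilinearMap_apply (𝕜 := ℝ) (E := E) (F := ℝ)).continuous.comp_aestronglyMeasurable
      (m1.prodMk m2)
  exact (((c1.measurable.comp hq).aemeasurable.mul m3.aemeasurable).div
    (c3.measurable.comp hq).aemeasurable).aestronglyMeasurable

theorem Pack.flux_pt (hE : Module.finrank ℝ E = 5) (hP : Pack G L) (D : Dom E μ) {x : E}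
    (hx : x ∈ D.Ω) :
    ∫ ξ, wt (G (D.p ξ)) ^ 2 * |(fderiv ℝ (L (D.p ξ)) x).det| * D.N ξ (-L (D.p ξ) x) /
      rr G L (D.p ξ) x ^ 5 ∂μ = 5 * om E * wt (G x) := by
  obtain ⟨P, hP1, hP2⟩ := exists_sqrt (posB_of_loc hP.loc x)
  have hΨ := hP.diffeo x P
  obtain ⟨D', e1, e2, e3⟩ := D.exists_push hΨ
  have h0 : (0 : E) ∈ D'.Ω := by
    rw [e1]
    exact ⟨x, hx, by simp [hP.self]⟩
  rw [← D'.flux hE h0, ← integral_mul_const]
  refine integral_congr_ae (Filter.Eventually.of_forall fun ξ => ?_)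
  simp only [e2, e3]
  generalize D.p ξ = y
  have hd : DifferentiableAt ℝ (L x) y :=
    ((hP.smooth.comp (contDiff_const.prodMk contDiff_id)).differentiable (by simp)) y
  have f1 : fderiv ℝ (fun z => P (L x z)) y = (P : E →L[ℝ] E).comp (fderiv ℝ (L x) y) :=
    ((P : E →L[ℝ] E).hasFDerivAt.comp y hd.hasFDerivAt).fderiv
  have f2 : P (L x y) = fderiv ℝ (fun z => P (L x z)) y (-L y x) := by
    rw [f1, ContinuousLinearMap.comp_apply, map_neg, hP.radial, neg_neg]
    rfl
  have f3 : ‖P (L x y)‖ = rr G L y x := by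
    rw [rr, hP.sym, qq, hP1, real_inner_self_eq_norm_sq, Real.sqrt_sq (norm_nonneg _)]
  have f4 : |(fderiv ℝ (fun z => P (L x z)) y).det| = wt (G x) * |(fderiv ℝ (L x) y).det| := by
    rw [f1, hP2, ← abs_mul]
    congr 1
    exact LinearMap.det_comp _ _
  have f5 : wt (G x) ^ 2 * |(fderiv ℝ (L x) y).det| =
      wt (G y) ^ 2 * |(fderiv ℝ (L y) x).det| := by
    have := congrArg abs (hP.jac_symm y x)
    rwa [abs_mul, abs_mul, abs_sq, abs_sq] at this
  rw [f3]
  conv_rhs => rw [f2, cof_apply (hΨ.det_ne y), f4]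
  rw [← f5]
  ring

theorem Pack.flux [SFinite μ] (hE : Module.finrank ℝ E = 5) (hP : Pack G L) (D : Dom E μ) :
    Integrable (fun ξ => Fl G L D.Ω (D.p ξ) (D.N ξ)) μ ∧
      ∫ ξ, Fl G L D.Ω (D.p ξ) (D.N ξ) ∂μ = 5 * om E * vol G D.Ω := by
  obtain ⟨J, R, hJ, hR, -, hb⟩ := hP.radial_bound D.isCompact_closure
  have hm := flux_meas hP D (volume.restrict D.Ω)
  have hr : ∀ ξ, IntegrableOn (fun x => (rr G L (D.p ξ) x ^ 4)⁻¹ * wt (G x)) D.Ω ∧
      ∫ x in D.Ω, (rr G L (D.p ξ) x ^ 4)⁻¹ * wt (G x) ≤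
        J * ∫ v in Metric.closedBall (0 : E) R, (‖v‖ ^ 4)⁻¹ := fun ξ =>
    hb (D.p ξ) (frontier_subset_closure (D.p_mem ξ)) D.Ω D.isOpen.measurableSet subset_closure
      (fun r => (r ^ 4)⁻¹) (by fun_prop) (fun r => by positivity)
      (integrableOn_inv_pow hE (by norm_num) Metric.isBounded_closedBall)
  have hi : Integrable (fun z : X × E => wt (G (D.p z.1)) ^ 2 *
      |(fderiv ℝ (L (D.p z.1)) z.2).det| * D.N z.1 (-L (D.p z.1) z.2) /
        rr G L (D.p z.1) z.2 ^ 5) (μ.prod (volume.restrict D.Ω)) := by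
    rw [integrable_prod_iff hm]
    constructor
    · filter_upwards [hm.prodMk_left] with ξ hξ
      exact Integrable.mono' ((hr ξ).1.const_mul (ad (G (D.p ξ)) (D.N ξ))) hξ
        (Filter.Eventually.of_forall fun x => flux_bound hP _ _ _)
    · refine Integrable.mono' ((D.integrable_ad hP.loc).mul_const
        (J * ∫ v in Metric.closedBall (0 : E) R, (‖v‖ ^ 4)⁻¹)) hm.norm.integral_prod_right'
        (Filter.Eventually.of_forall fun ξ => ?_)
      rw [Real.norm_of_nonneg (integral_nonneg fun x => norm_nonneg _)]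
      refine le_trans ?_ (mul_le_mul_of_nonneg_left (hr ξ).2 (ad_nonneg _ _))
      rw [← integral_const_mul]
      exact integral_mono_of_nonneg (Filter.Eventually.of_forall fun x => norm_nonneg _)
        ((hr ξ).1.const_mul _) (Filter.Eventually.of_forall fun x => flux_bound hP _ _ _)
  refine ⟨hi.integral_prod_left, ?_⟩
  unfold Fl vol
  rw [integral_integral_swap (f := fun ξ x => wt (G (D.p ξ)) ^ 2 *
    |(fderiv ℝ (L (D.p ξ)) x).det| * D.N ξ (-L (D.p ξ) x) / rr G L (D.p ξ) x ^ 5) hi,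
    ← integral_const_mul]
  exact setIntegral_congr_fun D.isOpen.measurableSet fun x hx => hP.flux_pt hE D hx

end Vale.Agent.P219
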