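import Vale.Agent.P219.Step
import Vale.Agent.P219.Flux

/-!
# A domain of volume close to `om` with too small area is not almost minimising  (TASK)

`prof_taylor`: `prof o` has strict derivative `4` at `o` (`HasStrictDerivAt.isLittleO`, `Real.hasStrictDerivAt_rpow_const`).
`core`: write `o = om E`, `A, V` for area and volume, `T = ∫ t`, `|T| ≤ C A`.  Insert `Qc_ge` in the last clause of `step` and
integrate (`Dom.integrable_ad`, `Pack.flux`): `A' ≤ A - τ (4 T - A V - o A + 10 o V - η A) + C τ² A`.  For `|V - o| ≤ θ` small and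
`A ≤ prof o V - δ` one has `A ≤ 5 o + 1`, `10 o V - (V + o) A ≥ o δ`; `prof o V' ≥ prof o (V - s) ≥ prof o V - 4 s - θ' |s|` with
`s = τ T + C τ²` (`prof_mono`).  Choose `η`, then `C, τ₀`, then `θ'`, then `τ` and `θ`, and `γ = τ o δ / 4`.
-/

namespace Vale.Agent.P219

open scoped ContDiff Topology RealInnerProductSpace
open MeasureTheory Set Vale.Agent.P255

variable {E : Type*} [NormedAddCommGroup E] [InnerProductSpace ℝ E] [FiniteDimensional ℝ E]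
  [MeasurableSpace E] [BorelSpace E]
  {X : Type*} [MeasurableSpace X] {μ : Measure X}
  {G : E → Bil E} {L : E → E → E}

theorem prof_self {o : ℝ} (ho : 0 < o) : prof o o = 5 * o := by
  rw [prof, mul_assoc, ← Real.rpow_add ho]
  norm_num

theorem prof_mono {o V W : ℝ} (ho : 0 < o) (hV : 0 ≤ V) (h : V ≤ W) : prof o V ≤ prof o W := by
  unfold prof
  exact mul_le_mul_of_nonneg_left (Real.rpow_le_rpow hV h (by norm_num)) (by positivity)

theorem continuous_prof (o : ℝ) : Continuous (prof o) :=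
  continuous_const.mul (Real.continuous_rpow_const (by norm_num))

theorem prof_scale {o V c : ℝ} (hV : 0 ≤ V) (hc : 0 < c) : prof o (c ^ 5 * V) = c ^ 4 * prof o V := by
  have h : (c ^ 5) ^ (4 / 5 : ℝ) = c ^ 4 := by
    rw [← Real.rpow_natCast c 5, ← Real.rpow_mul hc.le, ← Real.rpow_natCast c 4]
    norm_num
  rw [prof, prof, Real.mul_rpow (by positivity) hV, h]
  ring

theorem prof_taylor {o θ : ℝ} (ho : 0 < o) (hθ : 0 < θ) : ∃ δ : ℝ, 0 < δ ∧ δ ≤ o / 4 ∧ ∀ V s : ℝ,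
    |V - o| ≤ δ → |s| ≤ δ → prof o V - 4 * s - θ * |s| ≤ prof o (V - s) := by
  have h1 : HasStrictDerivAt (prof o) 4 o := by
    have h := (Real.hasStrictDerivAt_rpow_const (x := o) (p := 4 / 5) (Or.inl ho.ne')).const_mul
      (5 * o ^ (1 / 5 : ℝ))
    have h2 : 5 * o ^ (1 / 5 : ℝ) * (4 / 5 * o ^ (4 / 5 - 1 : ℝ)) = 4 := by
      have h3 : o ^ (1 / 5 : ℝ) * o ^ (4 / 5 - 1 : ℝ) = 1 := by
        rw [← Real.rpow_add ho]
        norm_num
      linarith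
    rw [h2] at h
    exact h
  obtain ⟨ε, hε, h2⟩ := Metric.eventually_nhds_iff.1
    (h1.hasStrictFDerivAt.isLittleO.def hθ)
  refine ⟨min (ε / 3) (o / 4), lt_min (by positivity) (by positivity), min_le_right _ _,
    fun V s hV hs => ?_⟩
  have hV' := abs_le.1 (hV.trans (min_le_left _ _))
  have hs' := abs_le.1 (hs.trans (min_le_left _ _))
  have h3 := h2 (y := (V, V - s)) (by
    rw [Prod.dist_eq, max_lt_iff, Real.dist_eq, Real.dist_eq, abs_lt, abs_lt]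
    refine ⟨⟨?_, ?_⟩, ?_, ?_⟩ <;> dsimp only <;> linarith [hV'.1, hV'.2, hs'.1, hs'.2])
  simp only [sub_sub_cancel, ContinuousLinearMap.toSpanSingleton_apply, smul_eq_mul,
    Real.norm_eq_abs] at h3
  linarith [(abs_le.1 h3).2]

theorem core_near {o δ : ℝ} (ho : 0 < o) (hδ : 0 < δ) : ∃ θ : ℝ, 0 < θ ∧ ∀ V, |V - o| ≤ θ →
    prof o V ≤ 5 * o + 1 ∧ o * δ ≤ 10 * o * V - (V + o) * (prof o V - δ) := by
  have hc := continuous_prof o
  have h1 : ∀ᶠ V in 𝓝 o, prof o V < 5 * o + 1 :=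
    hc.continuousAt.eventually_lt continuousAt_const (by rw [prof_self ho]; linarith)
  have h2 : ∀ᶠ V in 𝓝 o, o * δ < 10 * o * V - (V + o) * (prof o V - δ) := by
    refine ContinuousAt.eventually_lt continuousAt_const (by fun_prop) ?_
    rw [prof_self ho]
    nlinarith [mul_pos ho hδ]
  obtain ⟨ε, hε, h3⟩ := Metric.eventually_nhds_iff.1 (h1.and h2)
  refine ⟨ε / 2, by positivity, fun V hV => ?_⟩
  have h4 := h3 (y := V) (by rw [Real.dist_eq]; linarith)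
  exact ⟨h4.1.le, h4.2.le⟩

theorem core_real {o δ η C τ θ' A A' V T P P' : ℝ} (ho : 0 < o) (hδ : 0 < δ) (hC : 0 < C)
    (hτ : 0 < τ) (hθ' : 0 ≤ θ') (hη0 : 0 ≤ η) (hA : A ≤ 5 * o + 1) (hη : η * (5 * o + 1) ≤ o * δ / 8)
    (hτ2 : τ * (C * (5 * o + 5)) ≤ o * δ / 8) (hθ : θ' * (C * (5 * o + 2)) ≤ o * δ / 8)
    (hs : |τ * T + C * τ ^ 2| ≤ τ * (C * (5 * o + 2)))
    (h1 : o * δ ≤ 10 * o * V - (V + o) * A)
    (h2 : A' ≤ A - τ * (4 * T - A * V + (-o * A + 2 * (5 * o * V)) - η * A) + C * τ ^ 2 * A)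
    (h3 : P - 4 * (τ * T + C * τ ^ 2) - θ' * |τ * T + C * τ ^ 2| ≤ P') :
    A' - P' ≤ A - P - τ * (o * δ) / 4 := by
  have e1 := mul_le_mul_of_nonneg_left h1 hτ.le
  have e2 := mul_le_mul_of_nonneg_left ((mul_le_mul_of_nonneg_left hA hη0).trans hη) hτ.le
  have e3 := mul_le_mul_of_nonneg_left hτ2 hτ.le
  have e4 := mul_le_mul_of_nonneg_left hθ hτ.le
  have e5 := mul_le_mul_of_nonneg_left hs hθ'
  have e6 := mul_le_mul_of_nonneg_left hA (by positivity : 0 ≤ C * τ ^ 2)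
  have e7 : 0 < τ * (o * δ) := by positivity
  nlinarith

theorem Pack.core [SFinite μ] (hE : Module.finrank ℝ E = 5) (hP : Pack G L) {c δ : ℝ} (hc : 0 < c)
    (hδ : 0 < δ) :
    ∃ θ γ : ℝ, 0 < θ ∧ 0 < γ ∧ ∀ D : Dom E μ, D.Ω ⊆ {y | qq G L y 0 ≤ c} →
      |vol G D.Ω - om E| ≤ θ → D.area G ≤ prof (om E) (vol G D.Ω) - δ →
        ∃ D' : Dom E μ, D'.Ω ⊆ {y | qq G L y 0 ≤ c} ∧
          D'.area G - prof (om E) (vol G D'.Ω) ≤ D.area G - prof (om E) (vol G D.Ω) - γ := by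
  have ho : 0 < om E := om_pos
  set o := om E with hod
  obtain ⟨C, τ₀, hC, hτ₀, hstep⟩ := hP.step (μ := μ) hE hc
    (η := o * δ / 8 / (5 * o + 1)) (by positivity)
  obtain ⟨δ₁, hδ₁, hδ₁o, htay⟩ := prof_taylor ho
    (θ := o * δ / 8 / (C * (5 * o + 2))) (by positivity)
  obtain ⟨θ, hθ, hnear⟩ := core_near ho hδ
  obtain ⟨τ, hτ, hτ1, hτ2, hτ3, hτ4⟩ : ∃ τ : ℝ, 0 < τ ∧ τ ≤ τ₀ ∧ τ ≤ 1 ∧
      τ * (C * (5 * o + 2)) ≤ δ₁ ∧ τ * (C * (5 * o + 5)) ≤ o * δ / 8 := by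
    refine ⟨min (min τ₀ 1) (min (δ₁ / (C * (5 * o + 2))) (o * δ / 8 / (C * (5 * o + 5)))),
      by positivity, (min_le_left _ _).trans (min_le_left _ _),
      (min_le_left _ _).trans (min_le_right _ _), ?_, ?_⟩
    · rw [← le_div_iff₀ (by positivity)]
      exact (min_le_right _ _).trans (min_le_left _ _)
    · rw [← le_div_iff₀ (by positivity)]
      exact (min_le_right _ _).trans (min_le_right _ _)
  refine ⟨min θ δ₁, τ * (o * δ) / 4, lt_min hθ hδ₁, by positivity, fun D hD hV hA => ?_⟩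
  obtain ⟨D', t, hD', ht, htb, hvol, har⟩ := hstep D hD τ hτ hτ1
  refine ⟨D', hD', ?_⟩
  obtain ⟨hn1, hn2⟩ := hnear _ (hV.trans (min_le_left _ _))
  have hV1 := hV.trans (min_le_right _ _)
  have hV0 := vol_nonneg G D.Ω
  have ha := D.integrable_ad hP.loc
  obtain ⟨hF, hF2⟩ := hP.flux hE D
  have hAM : D.area G ≤ 5 * o + 1 := by linarith
  have hT : |∫ ξ, t ξ ∂μ| ≤ C * D.area G := by
    rw [Dom.area, ← integral_const_mul]
    exact abs_integral_le_integral_abs.trans (integral_mono ht.abs (ha.const_mul C) htb)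
  have hs : |τ * ∫ ξ, t ξ ∂μ + C * τ ^ 2| ≤ τ * (C * (5 * o + 2)) := by
    refine (abs_add_le _ _).trans ?_
    rw [abs_mul, abs_of_pos hτ, abs_of_pos (by positivity : 0 < C * τ ^ 2)]
    have e1 := mul_le_mul_of_nonneg_left (hT.trans (mul_le_mul_of_nonneg_left hAM hC.le)) hτ.le
    have e2 := mul_le_mul_of_nonneg_left hτ2 (by positivity : 0 ≤ C * τ)
    nlinarith
  have hi1 : Integrable (fun ξ => 4 * t ξ - ad (G (D.p ξ)) (D.N ξ) * vol G D.Ω) μ :=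
    (ht.const_mul 4).sub (ha.mul_const _)
  have hi2 : Integrable (fun ξ => -o * ad (G (D.p ξ)) (D.N ξ) +
      2 * Fl G L D.Ω (D.p ξ) (D.N ξ)) μ := (ha.const_mul _).add (hF.const_mul 2)
  have hi3 : Integrable (fun ξ => 4 * t ξ - ad (G (D.p ξ)) (D.N ξ) * vol G D.Ω +
      (-o * ad (G (D.p ξ)) (D.N ξ) + 2 * Fl G L D.Ω (D.p ξ) (D.N ξ))) μ := hi1.add hi2
  have hi4 : Integrable (fun ξ => 4 * t ξ - ad (G (D.p ξ)) (D.N ξ) * vol G D.Ω +
      (-o * ad (G (D.p ξ)) (D.N ξ) + 2 * Fl G L D.Ω (D.p ξ) (D.N ξ)) -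
      o * δ / 8 / (5 * o + 1) * ad (G (D.p ξ)) (D.N ξ)) μ := hi3.sub (ha.const_mul _)
  have hi5 : Integrable (fun ξ => ad (G (D.p ξ)) (D.N ξ) -
      τ * (4 * t ξ - ad (G (D.p ξ)) (D.N ξ) * vol G D.Ω +
      (-o * ad (G (D.p ξ)) (D.N ξ) + 2 * Fl G L D.Ω (D.p ξ) (D.N ξ)) -
      o * δ / 8 / (5 * o + 1) * ad (G (D.p ξ)) (D.N ξ))) μ := ha.sub (hi4.const_mul τ)
  have h2 : D'.area G ≤ ∫ ξ, (ad (G (D.p ξ)) (D.N ξ) -
      τ * (4 * t ξ - ad (G (D.p ξ)) (D.N ξ) * vol G D.Ω +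
      (-o * ad (G (D.p ξ)) (D.N ξ) + 2 * Fl G L D.Ω (D.p ξ) (D.N ξ)) -
      o * δ / 8 / (5 * o + 1) * ad (G (D.p ξ)) (D.N ξ)) +
      C * τ ^ 2 * ad (G (D.p ξ)) (D.N ξ)) ∂μ := by
    refine integral_mono (D'.integrable_ad hP.loc) (hi5.add (ha.const_mul _)) fun ξ => ?_
    have e1 := mul_le_mul_of_nonneg_left
      (hP.Qc_ge hE D.isOpen.measurableSet D.bdd (D.p ξ) (D.N ξ)) hτ.le
    have e2 := har ξ
    simp only [← hod] at e1
    show _ ≤ _
    linarith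
  rw [integral_add hi5 (ha.const_mul _), integral_sub ha (hi4.const_mul τ), integral_const_mul,
    integral_sub hi3 (ha.const_mul _), integral_add hi1 hi2,
    integral_sub (ht.const_mul 4) (ha.mul_const _), integral_add (ha.const_mul _) (hF.const_mul 2)]
    at h2
  simp only [integral_const_mul, integral_mul_const, hF2] at h2
  have h3 := htay _ _ hV1 (hs.trans hτ3)
  have h4 : prof o (vol G D.Ω - (τ * ∫ ξ, t ξ ∂μ + C * τ ^ 2)) ≤ prof o (vol G D'.Ω) := by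
    refine prof_mono ho ?_ (by linarith)
    linarith [(abs_le.1 hV1).1, (abs_le.1 (hs.trans hτ3)).2]
  refine core_real ho hδ hC hτ (by positivity) (by positivity) hAM
    (div_mul_cancel₀ _ (by positivity)).le hτ4 (div_mul_cancel₀ _ (by positivity)).le hs ?_ h2
    (h3.trans h4)
  have e3 := mul_le_mul_of_nonneg_left hA (by positivity : 0 ≤ vol G D.Ω + o)
  linarith

end Vale.Agent.P219
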