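import Vale.Agent.P219.LinAlg

/-!
# Calculus of the determinant, the densities and the divergence  (TASK)

`contDiff_det`: matrix in a basis, `Matrix.det_apply'` (compare `P252/Jacobi.lean`).  `fderiv_det`: first at `A = 1`
(`det (1 + t H) = 1 + t tr H + O(t²)`: `Matrix.det_one_add_smul` or `Matrix.derivative_det_one_add_X_smul`, along
the line `t ↦ 1 + t H`), then `det (A + t H) = det A * det (1 + t A⁻¹ H)`.  `contDiff_wt`: `det (hat (G y)) > 0`
(`wt_sq`, `wt_pos`).  `continuous_ad`: `ContinuousLinearMap.IsInvertible.contDiffAt_map_inverse`.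
`exists_ad_le`: `LocMetric.exists_bounds`, `abs_le_dn`, `nu_spec`, bounds for `wt` on `K`.
The `Dom` lemmas: `p ξ` lies in the compact set `closure Ω`; `‖integrand‖ ≤ C ‖N ξ‖`.
-/

namespace Vale.Agent.P219

open scoped ContDiff Topology RealInnerProductSpace
open MeasureTheory Set Vale.Agent.P255

variable {E : Type*} [NormedAddCommGroup E] [InnerProductSpace ℝ E] [FiniteDimensional ℝ E]

theorem contDiff_det : ContDiff ℝ ∞ fun A : E →L[ℝ] E => A.det := by
  classical
  let b := Module.finBasis ℝ E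
  have e : (fun A : E →L[ℝ] E => A.det) = fun A => ∑ σ : Equiv.Perm _,
      ((Equiv.Perm.sign σ : ℤ) : ℝ) * ∏ i, (b.coord (σ i)).toContinuousLinearMap (A (b i)) := by
    funext A
    rw [ContinuousLinearMap.det, ← LinearMap.det_toMatrix b, Matrix.det_apply']
    simp [LinearMap.toMatrix_apply]
  rw [e]
  refine ContDiff.sum fun σ _ => contDiff_const.mul (contDiff_prod fun i _ => ?_)
  exact (ContinuousLinearMap.contDiff _).comp (contDiff_id.clm_apply contDiff_const)

theorem det_line (H : E →L[ℝ] E) : HasDerivAt (fun t : ℝ => (1 + t • H : E →L[ℝ] E).det)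
    (LinearMap.trace ℝ E (H : E →ₗ[ℝ] E)) 0 := by
  classical
  let b := Module.finBasis ℝ E
  obtain ⟨q, hq⟩ : ∃ q : Polynomial ℝ, ∀ t : ℝ, (1 + t • H : E →L[ℝ] E).det =
      1 + LinearMap.trace ℝ E (H : E →ₗ[ℝ] E) * t + q.eval t * t ^ 2 := by
    refine ⟨_, fun t => Eq.trans ?_ ((Matrix.det_one_add_smul t
      (LinearMap.toMatrix b b (H : E →ₗ[ℝ] E))).trans (by rw [LinearMap.trace_eq_matrix_trace ℝ b]))⟩
    rw [ContinuousLinearMap.det, ← LinearMap.det_toMatrix b, ← map_smul,
      ← LinearMap.toMatrix_one b, ← map_add]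
    rfl
  simp only [hq]
  have h := (((hasDerivAt_id' (0 : ℝ)).const_mul
    (LinearMap.trace ℝ E (H : E →ₗ[ℝ] E))).const_add 1).fun_add
    ((q.hasDerivAt 0).fun_mul (hasDerivAt_pow 2 (0 : ℝ)))
  simpa using h

theorem fderiv_det {A : E →L[ℝ] E} (hA : A.det ≠ 0) (H : E →L[ℝ] E) :
    fderiv ℝ (fun A : E →L[ℝ] E => A.det) A H =
      A.det * LinearMap.trace ℝ E (A.inverse.comp H : E →L[ℝ] E) := by
  have hi := isInvertible_of_det hA
  have hd : DifferentiableAt ℝ (fun A : E →L[ℝ] E => A.det) A :=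
    contDiff_det.differentiable (by simp) A
  have h1 := hd.hasFDerivAt.hasLineDerivAt H
  have h2 := (det_line (A.inverse.comp H)).const_mul A.det
  have e : (fun t : ℝ => (A + t • H).det) =
      fun t : ℝ => A.det * (1 + t • A.inverse.comp H : E →L[ℝ] E).det := by
    funext t
    have : A + t • H = A.comp (1 + t • A.inverse.comp H) := by
      ext v
      simp [hi.self_apply_inverse]
    rw [this]
    exact LinearMap.det_comp _ _
  rw [← e] at h2
  exact HasDerivAt.unique h1 h2

/-- the trace as a linear functional on continuous linear maps -/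
noncomputable def detTr (E : Type*) [NormedAddCommGroup E] [InnerProductSpace ℝ E] :
    (E →L[ℝ] E) →ₗ[ℝ] ℝ :=
  (LinearMap.trace ℝ E).comp (ContinuousLinearMap.coeLM ℝ)

theorem continuous_trace :
    Continuous fun A : E →L[ℝ] E => LinearMap.trace ℝ E (A : E →ₗ[ℝ] E) :=
  (detTr E).continuous_of_finiteDimensional

theorem continuous_dvg {Z : E → E} (hZ : ContDiff ℝ 1 Z) : Continuous (dvg Z) :=
  continuous_trace.comp (hZ.continuous_fderiv one_ne_zero)

theorem dvg_smul {f : E → ℝ} {Z : E → E} {y : E} (hf : DifferentiableAt ℝ f y)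
    (hZ : DifferentiableAt ℝ Z y) :
    dvg (fun x => f x • Z x) y = fderiv ℝ f y (Z y) + f y * dvg Z y := by
  rw [dvg, fderiv_fun_smul hf hZ, add_comm]
  refine (map_add (detTr E) _ _).trans ?_
  rw [map_smul]
  congr 1
  exact LinearMap.trace_smulRight (fderiv ℝ f y : E →ₗ[ℝ] ℝ) (Z y)

theorem dvg_sum {ι : Type*} (s : Finset ι) {Z : ι → E → E} {y : E}
    (hZ : ∀ i ∈ s, DifferentiableAt ℝ (Z i) y) :
    dvg (fun x => ∑ i ∈ s, Z i x) y = ∑ i ∈ s, dvg (Z i) y := by
  rw [dvg, fderiv_fun_sum hZ]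
  exact map_sum (detTr E) _ s

variable {G : E → Bil E}

theorem contDiff_wt (h : LocMetric G univ) : ContDiff ℝ ∞ fun y => wt (G y) := by
  have hG : ContDiff ℝ ∞ G := contDiffOn_univ.1 h.smooth
  refine (contDiff_det.comp (f := fun y => hat (G y)) (contDiff_const.clm_comp hG)).sqrt
    fun y => ?_
  have := wt_sq (posB_of_loc h y)
  have h1 := wt_pos (posB_of_loc h y)
  change (hat (G y)).det ≠ 0
  rw [← this]
  positivity

theorem continuous_ad (h : LocMetric G univ) :
    Continuous fun z : E × (E →L[ℝ] ℝ) => ad (G z.1) z.2 := by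
  have hG : Continuous G := (contDiffOn_univ.1 h.smooth).continuous
  have hi : Continuous fun y => (G y).inverse := continuous_iff_continuousAt.2 fun y =>
    ((posB_of_loc h y).inv.contDiffAt_map_inverse (n := 0)).continuousAt.comp hG.continuousAt
  exact (continuous_snd.clm_apply ((hi.comp continuous_fst).clm_apply continuous_snd)).sqrt.mul
    ((contDiff_wt h).continuous.comp continuous_fst)

theorem exists_ad_le (h : LocMetric G univ) {K : Set E} (hK : IsCompact K) :
    ∃ C, 0 < C ∧ ∀ y ∈ K, ∀ N, ad (G y) N ≤ C * ‖N‖ ∧ ‖N‖ ≤ C * ad (G y) N := by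
  obtain ⟨c, C, hc, hC, H⟩ := h.exists_bounds hK (subset_univ K)
  have hw := (contDiff_wt h).continuous
  obtain ⟨M, hM⟩ := hK.exists_bound_of_continuousOn hw.continuousOn
  obtain ⟨m, hm⟩ := hK.exists_bound_of_continuousOn
    (hw.inv₀ fun y => (wt_pos (posB_of_loc h y)).ne').continuousOn
  have hc' := Real.sqrt_pos.2 hc
  refine ⟨|M| / √c + √C * |m| + 1, by positivity, fun y hy N => ?_⟩
  have hB := posB_of_loc h y
  have hw0 := wt_pos hB
  have hd : 0 ≤ dn (G y) N := Real.sqrt_nonneg _
  constructor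
  · have h1 : dn (G y) N ≤ ‖N‖ / √c := by
      by_cases hN : N = 0
      · subst hN
        simp [dn]
      · obtain ⟨-, e1, e2⟩ := nu_spec hB hN
        have a1 := (H y hy (nu (G y) N)).1
        have a2 : √c * ‖nu (G y) N‖ ≤ 1 := by
          refine (sq_le_one_iff₀ (by positivity)).1 ?_
          rw [mul_pow, Real.sq_sqrt hc.le, ← e1]
          exact a1
        have a3 := (le_abs_self _).trans (N.le_opNorm (nu (G y) N))
        rw [e2, e1, mul_one] at a3
        rw [le_div_iff₀ hc']
        nlinarith [mul_le_mul_of_nonneg_left a2 (norm_nonneg N)]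
    have h2 : wt (G y) ≤ |M| := (le_abs_self _).trans ((hM y hy).trans (le_abs_self M))
    calc ad (G y) N ≤ ‖N‖ / √c * |M| := mul_le_mul h1 h2 hw0.le (by positivity)
      _ = |M| / √c * ‖N‖ := by ring
      _ ≤ _ := mul_le_mul_of_nonneg_right (by
        linarith [mul_nonneg (Real.sqrt_nonneg C) (abs_nonneg m)]) (norm_nonneg N)
  · have h1 : ‖N‖ ≤ dn (G y) N * √C := N.opNorm_le_bound (by positivity) fun v => by
      refine (abs_le_dn hB N v).trans ?_
      rw [mul_assoc]
      refine mul_le_mul_of_nonneg_left ((Real.sqrt_le_sqrt (H y hy v).2).trans_eq ?_) hd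
      rw [Real.sqrt_mul hC.le, Real.sqrt_sq (norm_nonneg v)]
    have h2 : (wt (G y))⁻¹ ≤ |m| := (le_abs_self _).trans ((hm y hy).trans (le_abs_self m))
    calc ‖N‖ ≤ √C * (wt (G y))⁻¹ * ad (G y) N := by
          refine h1.trans_eq ?_
          rw [ad]
          field_simp
      _ ≤ √C * |m| * ad (G y) N := by
          have := ad_nonneg (G y) N
          gcongr
      _ ≤ _ := mul_le_mul_of_nonneg_right (by
        linarith [div_nonneg (abs_nonneg M) hc'.le]) (ad_nonneg _ _)

variable [MeasurableSpace E] [BorelSpace E] {X : Type*} [MeasurableSpace X] {μ : Measure X}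

theorem Dom.isCompact_closure (D : Dom E μ) : IsCompact (closure D.Ω) :=
  D.bdd.isCompact_closure

theorem Dom.integrable_ad (D : Dom E μ) (h : LocMetric G univ) :
    Integrable (fun ξ => ad (G (D.p ξ)) (D.N ξ)) μ := by
  obtain ⟨C, -, H⟩ := exists_ad_le h D.isCompact_closure
  refine (D.N_int.norm.const_mul C).mono' ((continuous_ad h).comp_aestronglyMeasurable
    (D.p_meas.aestronglyMeasurable.prodMk D.N_int.aestronglyMeasurable)) (ae_of_all _ fun ξ => ?_)
  rw [Real.norm_of_nonneg (ad_nonneg _ _)]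
  exact (H _ (frontier_subset_closure (D.p_mem ξ)) _).1

theorem Dom.integrable_apply (D : Dom E μ) {Z : E → E} (hZ : Continuous Z) :
    Integrable (fun ξ => D.N ξ (Z (D.p ξ))) μ := by
  obtain ⟨C, H⟩ := D.isCompact_closure.exists_bound_of_continuousOn hZ.continuousOn
  have hc : Continuous fun z : E × (E →L[ℝ] ℝ) => z.2 (Z z.1) :=
    continuous_snd.clm_apply (hZ.comp continuous_fst)
  refine (D.N_int.norm.mul_const C).mono' (hc.comp_aestronglyMeasurable
    (D.p_meas.aestronglyMeasurable.prodMk D.N_int.aestronglyMeasurable)) (ae_of_all _ fun ξ => ?_)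
  exact ((D.N ξ).le_opNorm _).trans (mul_le_mul_of_nonneg_left
    (H _ (frontier_subset_closure (D.p_mem ξ))) (norm_nonneg _))

theorem integrableOn_wt (h : LocMetric G univ) {S : Set E} (hS : Bornology.IsBounded S) :
    IntegrableOn (fun y => wt (G y)) S :=
  ((contDiff_wt h).continuous.continuousOn.integrableOn_compact hS.isCompact_closure).mono_set
    subset_closure

theorem vol_nonneg (G : E → Bil E) (S : Set E) : 0 ≤ vol G S :=
  integral_nonneg fun _ => Real.sqrt_nonneg _

theorem vol_mono (h : LocMetric G univ) {S T : Set E} (hT : Bornology.IsBounded T) (hS : S ⊆ T) :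
    vol G S ≤ vol G T :=
  setIntegral_mono_set (integrableOn_wt h hT) (ae_of_all _ fun _ => Real.sqrt_nonneg _)
    hS.eventuallyLE

theorem vol_pos (h : LocMetric G univ) {S : Set E} (hS : IsOpen S) (hb : Bornology.IsBounded S)
    (hne : S.Nonempty) : 0 < vol G S := by
  refine (setIntegral_pos_iff_support_of_nonneg_ae (ae_of_all _ fun _ => Real.sqrt_nonneg _)
    (integrableOn_wt h hb)).2 ((hS.measure_pos volume hne).trans_le (measure_mono fun y hy => ?_))
  exact ⟨(wt_pos (posB_of_loc h y)).ne', hy⟩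

theorem om_pos : 0 < om E :=
  ENNReal.toReal_pos (Metric.measure_ball_pos volume (0 : E) one_pos).ne' measure_ball_lt_top.ne

end Vale.Agent.P219
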