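import Vale.Agent.P219.Basic

/-!
# Smooth domains, Gram densities and boundary patches in Euclidean space
-/

namespace Vale.Agent.P219

open scoped ContDiff Topology RealInnerProductSpace
open MeasureTheory Set Vale.Agent.P255

variable {E : Type*} [NormedAddCommGroup E] [InnerProductSpace ℝ E] [FiniteDimensional ℝ E]

/-- A bounded open set with smooth boundary. -/
structure EDom (Ω : Set E) : Prop where
  isOpen : IsOpen Ω
  bdd : Bornology.IsBounded Ω
  bdry : ∀ p ∈ frontier Ω, ∃ (U : Set E) (f : E → ℝ), IsOpen U ∧ p ∈ U ∧ ContDiffOn ℝ ∞ f U ∧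
    fderiv ℝ f p ≠ 0 ∧ Ω ∩ U = {x ∈ U | f x < 0}

/-- The volume element of a parametrisation. -/
noncomputable def gram {n k : ℕ} (G : Euc n → Bil (Euc n)) (ψ : Euc k → Euc n) (z : Euc k) : ℝ :=
  √(Matrix.of fun i j : Fin k => G (ψ z) (fderiv ℝ ψ z (EuclideanSpace.single i 1))
    (fderiv ℝ ψ z (EuclideanSpace.single j 1))).det

/-- The inclusion of the hyperplane `y 0 = 0`. -/
noncomputable def emb : Euc 4 →L[ℝ] Euc 5 :=
  ∑ i : Fin 4, (EuclideanSpace.proj i : Euc 4 →L[ℝ] ℝ).smulRight (EuclideanSpace.single i.succ 1)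

/-- The projection onto the hyperplane `y 0 = 0`. -/
noncomputable def prj : Euc 5 →L[ℝ] Euc 4 :=
  ∑ i : Fin 4, (EuclideanSpace.proj i.succ : Euc 5 →L[ℝ] ℝ).smulRight (EuclideanSpace.single i 1)

theorem emb_zero (z : Euc 4) : emb z 0 = 0 := by
  simp [emb, Fin.sum_univ_four]

theorem emb_succ (z : Euc 4) (i : Fin 4) : emb z i.succ = z i := by
  fin_cases i <;> simp [emb, Fin.sum_univ_four]

theorem prj_apply (y : Euc 5) (i : Fin 4) : prj y i = y i.succ := by
  fin_cases i <;> simp [prj, Fin.sum_univ_four]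

theorem prj_emb (z : Euc 4) : prj (emb z) = z := by
  ext i
  rw [prj_apply, emb_succ]

theorem emb_prj {y : Euc 5} (h : y 0 = 0) : emb (prj y) = y := by
  ext i
  refine Fin.cases ?_ (fun j => ?_) i
  · rw [emb_zero, h]
  · rw [emb_succ, prj_apply]

theorem emb_single (i : Fin 4) :
    emb (EuclideanSpace.single i 1) = EuclideanSpace.single i.succ 1 := by
  ext j
  refine Fin.cases ?_ (fun j => ?_) j
  · rw [emb_zero]
    simp [(Fin.succ_ne_zero i).symm]
  · rw [emb_succ]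
    simp

/-- A global diffeomorphism that straightens the boundary of `Ω` inside `U`. -/
structure Patch (Ω : Set (Euc 5)) (Θ Θ' : Euc 5 → Euc 5) (U : Set (Euc 5)) : Prop where
  smooth : ContDiff ℝ ∞ Θ
  smooth' : ContDiff ℝ ∞ Θ'
  left : ∀ y, Θ' (Θ y) = y
  right : ∀ y, Θ (Θ' y) = y
  isOpen : IsOpen U
  bdd : Bornology.IsBounded U
  mem : ∀ y ∈ U, y ∈ Ω ↔ Θ' y 0 < 0
  fr : ∀ y ∈ U, y ∈ frontier Ω ↔ Θ' y 0 = 0

/-- The vector area element of a patch. -/
noncomputable def pN (Θ : Euc 5 → Euc 5) (z : Euc 4) : Euc 5 →L[ℝ] ℝ :=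
  cof (fderiv ℝ Θ (emb z)) (EuclideanSpace.proj 0)

end Vale.Agent.P219
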