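import Vale.Agent.P219.Det

/-!
# First order expansions, uniform on compact sets  (TASK)

`taylor_unif`: `∂_τ² f` is bounded on the compact set `K ×ˢ Icc 0 1`; mean value inequality twice.
`taylor_metric`: apply it to `f ((y, ξ, A), τ) = (G (y - τ • ξ)).bilinearComp (1 - τ • A) (1 - τ • A)` on
`K ×ˢ closedBall 0 C ×ˢ closedBall 0 C`, and `‖h‖² ≤ c⁻¹ G y h h` (`LocMetric.exists_bounds`); `taylor_vol`: to
`wt (G (y - τ • ξ)) * (1 - τ • A).det` (`contDiff_wt`, `contDiff_det`, `fderiv_det` at `1`).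
`diffeo_sub`: `‖τ • X a - τ • X b‖ ≤ τ C ‖a - b‖` (`Convex.norm_image_sub_le_of_norm_fderiv_le`), and `1 - τ • DX` is injective.
-/

namespace Vale.Agent.P219

open scoped ContDiff Topology RealInnerProductSpace
open MeasureTheory Set Vale.Agent.P255

variable {E : Type*} [NormedAddCommGroup E] [InnerProductSpace ℝ E] [FiniteDimensional ℝ E]
  {G : E → Bil E}

theorem taylor_slice {P F : Type*} [NormedAddCommGroup P] [NormedSpace ℝ P] [NormedAddCommGroup F]
    [NormedSpace ℝ F] {f : P × ℝ → F} (hf : Differentiable ℝ f) (p : P) (t : ℝ) :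
    HasDerivAt (fun t => f (p, t)) (fderiv ℝ f (p, t) (0, 1)) t :=
  (hf (p, t)).hasFDerivAt.comp_hasDerivAt t ((hasDerivAt_const t p).prodMk (hasDerivAt_id t))

theorem taylor_unif {P F : Type*} [NormedAddCommGroup P] [NormedSpace ℝ P] [NormedAddCommGroup F]
    [NormedSpace ℝ F] {f : P × ℝ → F} (hf : ContDiff ℝ 2 f) {K : Set P} (hK : IsCompact K) :
    ∃ C : ℝ, 0 < C ∧ ∀ p ∈ K, ∀ τ ∈ Icc (0 : ℝ) 1,
      ‖f (p, τ) - f (p, 0) - τ • deriv (fun t => f (p, t)) 0‖ ≤ C * τ ^ 2 := by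
  have hg : ContDiff ℝ 1 fun z => fderiv ℝ f z (0, 1) :=
    (hf.fderiv_right (m := 1) le_rfl).clm_apply contDiff_const
  have hg2 : Continuous fun z => fderiv ℝ (fun z => fderiv ℝ f z (0, 1)) z (0, 1) :=
    (hg.continuous_fderiv one_ne_zero).clm_apply continuous_const
  obtain ⟨M, hM⟩ := (hK.prod (isCompact_Icc (a := (0 : ℝ)) (b := 1))).exists_bound_of_continuousOn
    hg2.continuousOn
  refine ⟨|M| + 1, by positivity, fun p hp τ hτ => ?_⟩
  have d1 := taylor_slice (hf.differentiable two_ne_zero) p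
  have d2 := taylor_slice (hg.differentiable one_ne_zero) p
  have h1 := norm_image_sub_le_of_norm_deriv_le_segment' (a := 0) (b := 1) (C := |M| + 1)
    (fun t _ => (d2 t).hasDerivWithinAt) fun t ht =>
      (hM (p, t) ⟨hp, Ico_subset_Icc_self ht⟩).trans ((le_abs_self M).trans (lt_add_one _).le)
  have h2 := norm_image_sub_le_of_norm_deriv_le_segment' (a := 0) (b := τ) (C := (|M| + 1) * τ)
    (fun t _ => ((d1 t).fun_sub
      ((hasDerivAt_id' t).smul_const (fderiv ℝ f (p, 0) (0, 1)))).hasDerivWithinAt)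
    (fun t ht => by
      rw [one_smul]
      refine (h1 t ⟨ht.1, ht.2.le.trans hτ.2⟩).trans ?_
      rw [sub_zero]
      exact mul_le_mul_of_nonneg_left ht.2.le (by positivity)) τ ⟨hτ.1, le_rfl⟩
  rw [zero_smul, sub_zero, sub_zero, sub_right_comm, mul_assoc, ← sq] at h2
  rwa [(d1 0).deriv]

/-- The Lie derivative of the metric along a field with value `ξ` and derivative `A` at `y`. -/
noncomputable def lie (G : E → Bil E) (y ξ : E) (A : E →L[ℝ] E) (h : E) : ℝ :=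
  fderiv ℝ G y ξ h h + 2 * G y (A h) h

theorem taylor_line {V F : Type*} [NormedAddCommGroup V] [NormedSpace ℝ V] [NormedAddCommGroup F]
    [NormedSpace ℝ F] {g : V → F} {y : V} (hg : DifferentiableAt ℝ g y) (ξ : V) :
    HasDerivAt (fun t : ℝ => g (y - t • ξ)) (-fderiv ℝ g y ξ) 0 := by
  have h := hg.hasFDerivAt.comp_hasDerivAt_of_eq 0
    (((hasDerivAt_id' (0 : ℝ)).smul_const ξ).const_sub y) (by simp)
  rwa [one_smul, map_neg] at h

theorem taylor_metric (hG : LocMetric G univ) {K : Set E} (hK : IsCompact K) (C : ℝ) :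
    ∃ C' : ℝ, 0 < C' ∧ ∀ y ∈ K, ∀ (ξ : E) (A : E →L[ℝ] E), ‖ξ‖ ≤ C → ‖A‖ ≤ C → ∀ h : E,
      |lie G y ξ A h| ≤ C' * G y h h ∧ ∀ τ ∈ Icc (0 : ℝ) 1,
        G (y - τ • ξ) (h - τ • A h) (h - τ • A h) ≤
          G y h h - τ * lie G y ξ A h + C' * τ ^ 2 * G y h h := by
  have sm : ContDiff ℝ 2 G := (contDiffOn_univ.1 hG.smooth).of_le (WithTop.coe_le_coe.2 le_top)
  have hK' : IsCompact (K ×ˢ Metric.closedBall (0 : E) C ×ˢ Metric.closedBall (0 : E →L[ℝ] E) C ×ˢ
      Metric.closedBall (0 : E) 1) := hK.prod ((isCompact_closedBall _ _).prod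
        ((isCompact_closedBall _ _).prod (isCompact_closedBall _ _)))
  obtain ⟨M, hM0, hM⟩ := taylor_unif (f := fun z : (E × E × (E →L[ℝ] E) × E) × ℝ =>
    G (z.1.1 - z.2 • z.1.2.1) (z.1.2.2.2 - z.2 • z.1.2.2.1 z.1.2.2.2)
      (z.1.2.2.2 - z.2 • z.1.2.2.1 z.1.2.2.2)) (by fun_prop) hK'
  have c1 : Continuous fun z : E × E × (E →L[ℝ] E) × E => fderiv ℝ G z.1 z.2.1 :=
    (sm.continuous_fderiv_apply two_ne_zero).comp (continuous_fst.prodMk continuous_snd.fst)
  have c2 := sm.continuous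
  obtain ⟨M', hM'⟩ := hK'.exists_bound_of_continuousOn
    (f := fun z => lie G z.1 z.2.1 z.2.2.1 z.2.2.2)
    (((c1.clm_apply continuous_snd.snd.snd).clm_apply continuous_snd.snd.snd).add
      (by fun_prop)).continuousOn
  obtain ⟨c, _, hc, -, hb⟩ := hG.exists_bounds hK (subset_univ K)
  refine ⟨(M + |M'|) / c, by positivity, fun y hy ξ A hξ hA h => ?_⟩
  have h1 : (M + |M'|) * ‖h‖ ^ 2 ≤ (M + |M'|) / c * G y h h := by
    rw [div_mul_eq_mul_div, mul_div_assoc]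
    exact mul_le_mul_of_nonneg_left ((le_div_iff₀' hc).2 (hb y hy h).1) (by positivity)
  obtain ⟨u, hu, e⟩ : ∃ u : E, ‖u‖ ≤ 1 ∧ h = ‖h‖ • u := by
    rcases eq_or_ne h 0 with rfl | h0
    · exact ⟨0, by simp, by simp⟩
    · exact ⟨‖h‖⁻¹ • h, (norm_smul_inv_norm (𝕜 := ℝ) h0).le,
        (smul_inv_smul₀ (norm_ne_zero_iff.2 h0) h).symm⟩
  generalize ‖h‖ = r at h1 e
  have hz : (y, ξ, A, u) ∈ K ×ˢ Metric.closedBall (0 : E) C ×ˢ
      Metric.closedBall (0 : E →L[ℝ] E) C ×ˢ Metric.closedBall (0 : E) 1 :=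
    ⟨hy, mem_closedBall_zero_iff.2 hξ, mem_closedBall_zero_iff.2 hA, mem_closedBall_zero_iff.2 hu⟩
  have e1 : lie G y ξ A h = r ^ 2 * lie G y ξ A u := by
    simp only [e, lie, map_smul, smul_apply, smul_eq_mul]
    ring
  have e2 : G y h h = r ^ 2 * G y u u := by
    simp only [e, map_smul, smul_apply, smul_eq_mul]
    ring
  refine ⟨le_trans ?_ h1, fun τ hτ => ?_⟩
  · rw [e1, abs_mul, abs_sq, mul_comm]
    refine mul_le_mul_of_nonneg_right ((hM' _ hz).trans ?_) (sq_nonneg r)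
    linarith [le_abs_self M']
  · have e3 : G (y - τ • ξ) (h - τ • A h) (h - τ • A h) =
        r ^ 2 * G (y - τ • ξ) (u - τ • A u) (u - τ • A u) := by
      rw [e, map_smul A, smul_comm τ r, ← smul_sub]
      simp only [map_smul, smul_apply, smul_eq_mul]
      ring
    have d1 : HasDerivAt (fun t : ℝ => u - t • A u) (-A u) 0 := by
      simpa using ((hasDerivAt_id' (0 : ℝ)).smul_const (A u)).const_sub u
    have d2 := (((taylor_line (sm.differentiable two_ne_zero y) ξ).clm_apply d1).clm_apply d1).deriv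
    have h2 := hM _ hz τ hτ
    simp only [d2, zero_smul, sub_zero, map_neg, add_apply,
      neg_apply, smul_eq_mul, hG.symm y (mem_univ y) u (A u),
      Real.norm_eq_abs] at h2
    have h3 := mul_le_mul_of_nonneg_left (abs_le.1 h2).2 (sq_nonneg r)
    have h4 := mul_le_mul_of_nonneg_left h1 (sq_nonneg τ)
    have h5 : 0 ≤ τ ^ 2 * (|M'| * r ^ 2) := by positivity
    rw [e3, e1, lie, mul_right_comm _ (τ ^ 2)]
    nth_rewrite 1 [e2]
    linarith

theorem taylor_vol (hG : LocMetric G univ) {K : Set E} (hK : IsCompact K) (C : ℝ) :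
    ∃ C' : ℝ, 0 < C' ∧ ∀ y ∈ K, ∀ (ξ : E) (A : E →L[ℝ] E), ‖ξ‖ ≤ C → ‖A‖ ≤ C →
      ∀ τ ∈ Icc (0 : ℝ) 1,
        wt (G y) - τ * (fderiv ℝ (fun z => wt (G z)) y ξ +
            wt (G y) * LinearMap.trace ℝ E (A : E →ₗ[ℝ] E)) - C' * τ ^ 2 ≤
          (ContinuousLinearMap.id ℝ E - τ • A).det * wt (G (y - τ • ξ)) := by
  have s1 : ContDiff ℝ 2 fun y => wt (G y) := (contDiff_wt hG).of_le (WithTop.coe_le_coe.2 le_top)
  have s2 : ContDiff ℝ 2 fun A : E →L[ℝ] E => A.det := contDiff_det.of_le (WithTop.coe_le_coe.2 le_top)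
  obtain ⟨M, hM0, hM⟩ := taylor_unif (f := fun z : (E × E × (E →L[ℝ] E)) × ℝ =>
    (ContinuousLinearMap.id ℝ E - z.2 • z.1.2.2).det * wt (G (z.1.1 - z.2 • z.1.2.1)))
    ((s2.comp (by fun_prop)).mul (s1.comp (f := fun z : (E × E × (E →L[ℝ] E)) × ℝ =>
      z.1.1 - z.2 • z.1.2.1) (by fun_prop)))
    (hK.prod ((isCompact_closedBall (0 : E) C).prod (isCompact_closedBall (0 : E →L[ℝ] E) C)))
  refine ⟨M, hM0, fun y hy ξ A hξ hA τ hτ => ?_⟩
  have e : (ContinuousLinearMap.id ℝ E).det = 1 := LinearMap.det_id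
  have d1 := taylor_line (s2.differentiable two_ne_zero (ContinuousLinearMap.id ℝ E)) A
  rw [fderiv_det (by rw [e]; exact one_ne_zero), e, one_mul, ContinuousLinearMap.inverse_id,
    ContinuousLinearMap.id_comp] at d1
  have d2 := (d1.fun_mul (taylor_line (s1.differentiable two_ne_zero y) ξ)).deriv
  have h2 := hM (y, ξ, A) ⟨hy, mem_closedBall_zero_iff.2 hξ, mem_closedBall_zero_iff.2 hA⟩ τ hτ
  simp only [d2, zero_smul, sub_zero, e, one_mul, smul_eq_mul, Real.norm_eq_abs] at h2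
  linarith [(abs_le.1 h2).1]

theorem diffeo_sub {X : E → E} (hX : ContDiff ℝ 2 X) {C τ : ℝ} (hC : ∀ y, ‖fderiv ℝ X y‖ ≤ C)
    (h0 : 0 ≤ τ) (h1 : τ * C < 1) : Diffeo fun y => y - τ • X y := by
  have hd := hX.differentiable two_ne_zero
  have key : ∀ v w : E, v = τ • w → ‖w‖ ≤ C * ‖v‖ → v = 0 := fun v w e h => by
    have h2 : ‖v‖ = τ * ‖w‖ := by rw [e, norm_smul, Real.norm_of_nonneg h0]
    have h3 := mul_le_mul_of_nonneg_left h h0
    refine norm_le_zero_iff.1 ?_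
    nlinarith [norm_nonneg v]
  refine ⟨contDiff_id.sub (hX.const_smul τ), fun a b h => sub_eq_zero.1 (key _ (X a - X b) ?_ ?_),
    fun y => ?_⟩
  · rw [smul_sub]
    exact sub_eq_sub_iff_sub_eq_sub.1 h
  · exact convex_univ.norm_image_sub_le_of_norm_fderiv_le (fun x _ => hd x) (fun x _ => hC x)
      (mem_univ b) (mem_univ a)
  · have d : HasFDerivAt (fun y => y - τ • X y) _ y :=
      (hasFDerivAt_id y).fun_sub ((hd y).hasFDerivAt.fun_const_smul τ)
    rw [d.fderiv]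
    refine det_ne_of_injective ((injective_iff_map_eq_zero _).2 fun v hv => ?_)
    exact key v (fderiv ℝ X y v) (sub_eq_zero.1 hv) ((fderiv ℝ X y).le_of_opNorm_le (hC y) v)

end Vale.Agent.P219
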