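import Vale.Agent.P219.Param
import Vale.Agent.P219.Taylor
import Vale.Agent.P219.CertAlg
import Vale.Agent.P219.Chg

/-!
# The deformation field  (TASK)

Take a smooth `β : E → ℝ` with compact support, equal to `1` on a ball containing `K` (`ContDiffBump` centred at `0`), put
`c q = chi √(q + ε²)` (smooth for `q ≥ 0`: `contDiffAt_chi`, `ContDiffAt.sqrt`), `k (y, x) = -(β y * c (qq y x) * wt (G x)) • L y x`,
`k₀ y = -(κ * β y) • L y 0` (smooth with compact support, so bounded with its derivative) and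
`Z y = (∫ x in S, k (y, x)) + k₀ y` (`exists_param`).  Near `y ∈ K` one has `β = 1`, and by `grad`, `hasDerivAt_chi`
`fderiv (k (·, x)) y h = wt (G x) • ((chi1 ρ / ρ * G y (L y x) h) • L y x - chi ρ • fderiv (L · x) y h)`, `ρ = √(qq + ε²)`; `lie` is linear in
`(ξ, A)` so it commutes with the integral (`ContinuousLinearMap.integral_comp_comm`), and `hess` bounds each integrand
(`chi_pos`, `wt_pos`); the `k₀` part contributes `≥ 2 κ G y h h ≥ 0`.
-/

namespace Vale.Agent.P219

open scoped ContDiff Topology RealInnerProductSpace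
open MeasureTheory Set Vale.Agent.P255

variable {E : Type*} [NormedAddCommGroup E] [InnerProductSpace ℝ E] [FiniteDimensional ℝ E]
  [MeasurableSpace E] [BorelSpace E]
  {G : E → Bil E} {L : E → E → E}

omit [MeasurableSpace E] [BorelSpace E] in
theorem field_bump {K : Set E} (hK : IsCompact K) : ∃ β : E → ℝ, ContDiff ℝ ∞ β ∧
    HasCompactSupport β ∧ ∀ y ∈ K, β =ᶠ[𝓝 y] 1 := by
  obtain ⟨r, hr, h⟩ := hK.isBounded.subset_ball_lt 0 (0 : E)
  let f : ContDiffBump (0 : E) := ⟨r, r + 1, hr, by linarith⟩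
  exact ⟨f, f.contDiff, f.hasCompactSupport, fun y hy => f.eventuallyEq_one_of_mem_ball (h hy)⟩

omit [MeasurableSpace E] [BorelSpace E] in
theorem field_pos (hP : Pack G L) {ε : ℝ} (hε : 0 < ε) (y x : E) : 0 < qq G L y x + ε ^ 2 :=
  add_pos_of_nonneg_of_pos ((posB_of_loc hP.loc y).nonneg _) (by positivity)

omit [MeasurableSpace E] [BorelSpace E] in
theorem field_rho (hP : Pack G L) {ε : ℝ} (hε : 0 < ε) :
    ContDiff ℝ ∞ fun z : E × E => √(qq G L z.1 z.2 + ε ^ 2) :=
  (hP.contDiff_qq.add contDiff_const).sqrt fun z => (field_pos hP hε z.1 z.2).ne'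

omit [MeasurableSpace E] [BorelSpace E] in
theorem field_chi (hP : Pack G L) {ε : ℝ} (hε : 0 < ε) :
    ContDiff ℝ ∞ fun z : E × E => chi (√(qq G L z.1 z.2 + ε ^ 2)) :=
  contDiff_iff_contDiffAt.2 fun z => by
    have h := ContDiffAt.comp (g := chi) (f := fun z : E × E => √(qq G L z.1 z.2 + ε ^ 2)) z
      (contDiffAt_chi (Real.sqrt_pos.2 (field_pos hP hε z.1 z.2))) (field_rho hP hε).contDiffAt
    exact h

theorem field_two : (2 : WithTop ℕ∞) ≤ ∞ := WithTop.coe_le_coe.2 (le_top : (2 : ℕ∞) ≤ ⊤)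

omit [MeasurableSpace E] [BorelSpace E] in
theorem field_cont (hP : Pack G L) {ε : ℝ} (hε : 0 < ε) (y h : E) :
    Continuous fun x => (chi (√(qq G L y x + ε ^ 2)) * G y h h +
      chi1 (√(qq G L y x + ε ^ 2)) / √(qq G L y x + ε ^ 2) * G y (L y x) h ^ 2) * wt (G x) := by
  have hρ0 : ∀ x, 0 < √(qq G L y x + ε ^ 2) := fun x => Real.sqrt_pos.2 (field_pos hP hε y x)
  have hρ : Continuous fun x => √(qq G L y x + ε ^ 2) := by
    have := (field_rho hP hε).continuous.comp (Continuous.prodMk_right y)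
    exact this
  have hχ : Continuous fun x => chi (√(qq G L y x + ε ^ 2)) := by
    have := (field_chi hP hε).continuous.comp (Continuous.prodMk_right y)
    exact this
  have hL : Continuous (L y) := by
    have := hP.smooth.continuous.comp (Continuous.prodMk_right y)
    exact this
  have hG : Continuous fun x => G y (L y x) h := by
    have := ((G y).flip h).continuous.comp hL
    exact this
  have hχ1 : Continuous fun x => chi1 (√(qq G L y x + ε ^ 2)) := by
    unfold chi1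
    exact Continuous.div (by fun_prop) (by fun_prop) fun x => by have := hρ0 x; positivity
  exact ((hχ.mul continuous_const).add ((hχ1.div hρ fun x => (hρ0 x).ne').mul
    (hG.pow 2))).mul (contDiff_wt hP.loc).continuous

omit [MeasurableSpace E] [BorelSpace E] in
theorem field_L (hP : Pack G L) (x : E) : ContDiff ℝ ∞ fun y => L y x :=
  hP.smooth.comp (contDiff_id.prodMk contDiff_const)

omit [MeasurableSpace E] [BorelSpace E] in
theorem field_lie (hP : Pack G L) {β a : E → ℝ} {a' : E →L[ℝ] ℝ} {y : E} (hβ : β =ᶠ[𝓝 y] 1)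
    (ha : HasFDerivAt a a' y) (h0 : 0 ≤ a y) (x h : E) :
    2 * (a y * G y h h - a' h * G y (L y x) h) ≤
      lie G y (-(β y * a y) • L y x) (fderiv ℝ (fun z => -(β z * a z) • L z x) y) h := by
  have h1 : (fun z => -(β z * a z) • L z x) =ᶠ[𝓝 y] fun z => -(a z) • L z x := by
    filter_upwards [hβ] with z hz
    rw [hz, Pi.one_apply, one_mul]
  have h2 := ha.neg.smul (((field_L hP x).differentiable (by simp)) y).hasFDerivAt
  have h3 : fderiv ℝ (fun z => -(a z) • L z x) y = _ := h2.fderiv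
  rw [h1.fderiv_eq, h3, hβ.eq_of_nhds, Pi.one_apply, one_mul, lie]
  have h4 := mul_le_mul_of_nonneg_left (hP.hess y x h) h0
  simp only [map_smul, map_add, smul_apply, add_apply, neg_apply, smul_eq_mul, Pi.neg_apply,
    ContinuousLinearMap.smulRight_apply]
  linarith

omit [MeasurableSpace E] [BorelSpace E] in
theorem field_deriv (hP : Pack G L) {ε : ℝ} (hε : 0 < ε) (y x : E) : ∃ a' : E →L[ℝ] ℝ,
    HasFDerivAt (fun z => chi (√(qq G L z x + ε ^ 2)) * wt (G x)) a' y ∧ ∀ h, a' h =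
      -(chi1 (√(qq G L y x + ε ^ 2)) / √(qq G L y x + ε ^ 2) * G y (L y x) h * wt (G x)) := by
  have h0 := field_pos hP hε y x
  have h1 : HasFDerivAt (fun z => qq G L z x) _ y :=
    (((hP.contDiff_qq.comp (contDiff_id.prodMk (contDiff_const (c := x)))).differentiable
      (by simp)) y).hasFDerivAt
  have h2 := ((hasDerivAt_chi (Real.sqrt_pos.2 h0)).comp_hasFDerivAt y
    ((h1.add_const (ε ^ 2)).sqrt h0.ne')).mul_const (wt (G x))
  refine ⟨_, h2, fun h => ?_⟩
  have h3 : fderiv ℝ ((fun z : E × E => qq G L z.1 z.2) ∘ fun z => (id z, x)) y h =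
      -2 * G y (L y x) h := hP.grad y x h
  have h4 := (Real.sqrt_pos.2 h0).ne'
  simp only [smul_apply, smul_eq_mul, h3]
  field_simp

omit [MeasurableSpace E] [BorelSpace E] in
theorem field_lin (G : E → Bil E) (y h : E) : ∃ (Λ₁ : E →L[ℝ] ℝ) (Λ₂ : (E →L[ℝ] E) →L[ℝ] ℝ),
    ∀ ξ A, lie G y ξ A h = Λ₁ ξ + Λ₂ A :=
  ⟨(ContinuousLinearMap.apply ℝ ℝ h).comp
      ((ContinuousLinearMap.apply ℝ (E →L[ℝ] ℝ) h).comp (fderiv ℝ G y)),
    (2 : ℝ) • ((G y).flip h).comp (ContinuousLinearMap.apply ℝ E h), fun _ _ => rfl⟩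

theorem Pack.exists_field (hP : Pack G L) {K : Set E} (hK : IsCompact K) {ε κ : ℝ} (hε : 0 < ε)
    (hκ : 0 ≤ κ) :
    ∃ C : ℝ, 0 < C ∧ ∀ S : Set E, MeasurableSet S → S ⊆ K → ∃ Z : E → E, ContDiff ℝ 2 Z ∧
      (∀ y, ‖Z y‖ ≤ C ∧ ‖fderiv ℝ Z y‖ ≤ C) ∧ ∀ y ∈ K,
        (∀ l : E →L[ℝ] ℝ, l (Z y) =
          (∫ x in S, chi (√(qq G L y x + ε ^ 2)) * l (-L y x) * wt (G x)) + κ * l (-L y 0)) ∧
        ∀ h : E, ∫ x in S, (chi (√(qq G L y x + ε ^ 2)) * G y h h +
            chi1 (√(qq G L y x + ε ^ 2)) / √(qq G L y x + ε ^ 2) * G y (L y x) h ^ 2) * wt (G x) ≤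
          lie G y (Z y) (fderiv ℝ Z y) h / 2 := by
  obtain ⟨β, hβ, hβc, hβ1⟩ := field_bump hK
  have hwt := contDiff_wt hP.loc
  have hc := field_chi hP hε
  have hk : ContDiff ℝ 2 fun z : E × E =>
      -(β z.1 * (chi (√(qq G L z.1 z.2 + ε ^ 2)) * wt (G z.2))) • L z.1 z.2 :=
    (((hβ.comp contDiff_fst).mul (hc.mul (hwt.comp contDiff_snd))).neg.smul hP.smooth).of_le
      field_two
  obtain ⟨C, hC, H⟩ := exists_param hk hK hβc (fun y hy x => by
    simp [image_eq_zero_of_notMem_tsupport hy])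
  have hk0 : ContDiff ℝ 2 fun y => -(β y * κ) • L y 0 :=
    ((hβ.mul contDiff_const).neg.smul (field_L hP 0)).of_le field_two
  have hk0c : HasCompactSupport fun y => -(β y * κ) • L y 0 :=
    hβc.mono fun y hy h => hy (by simp [h])
  obtain ⟨C1, hC1⟩ := hk0c.exists_bound_of_continuous hk0.continuous
  obtain ⟨C2, hC2⟩ := (hk0c.fderiv ℝ).exists_bound_of_continuous
    (hk0.continuous_fderiv (by simp))
  have hC10 := (norm_nonneg _).trans (hC1 0)
  have hC20 := (norm_nonneg _).trans (hC2 0)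
  refine ⟨C + C1 + C2, by linarith, fun S hS hSK => ?_⟩
  obtain ⟨hI, HI⟩ := H S hS hSK
  have hD := fun y => fderiv_add ((hI.differentiable (by simp)) y)
    ((hk0.differentiable (by simp)) y)
  refine ⟨_, hI.add hk0, fun y => ⟨?_, ?_⟩, fun y hy => ⟨fun l => ?_, fun h => ?_⟩⟩
  · exact (norm_add_le _ _).trans (by linarith [(HI y).1, hC1 y])
  · exact (congrArg _ (hD y)).trans_le
      ((norm_add_le _ _).trans (by linarith [(HI y).2.1, hC2 y]))
  · rw [map_add, ← l.integral_comp_comm (HI y).2.2.1]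
    simp only [(hβ1 y hy).eq_of_nhds, Pi.one_apply, one_mul, map_smul, map_neg, smul_eq_mul]
    congr 1
    · congr 1
      ext x
      ring
    · ring
  · obtain ⟨Λ₁, Λ₂, hΛ⟩ := field_lin G y h
    obtain ⟨-, -, i1, i2, hd⟩ := HI y
    have e0 := field_lie hP (hβ1 y hy) (hasFDerivAt_const κ y) hκ 0 h
    have e1 : 0 ≤ κ * G y h h := mul_nonneg hκ ((posB_of_loc hP.loc y).nonneg h)
    have hρ0 : ∀ x, 0 < √(qq G L y x + ε ^ 2) := fun x => Real.sqrt_pos.2 (field_pos hP hε y x)
    have hcont := field_cont hP hε y h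
    have e2 := integral_mono ((hcont.continuousOn.integrableOn_compact hK).mono_set hSK)
      (((Λ₁.integrable_comp i1).add (Λ₂.integrable_comp i2)).div_const 2) fun x => by
        obtain ⟨a', h1, h2⟩ := field_deriv hP hε y x
        have := field_lie hP (hβ1 y hy) h1
          (mul_nonneg (chi_pos (hρ0 x)).le (wt_pos (posB_of_loc hP.loc x)).le) x h
        rw [hΛ, h2] at this
        simp only [Pi.add_apply, Function.comp_apply]
        linarith
    refine e2.trans ?_
    simp only [Pi.add_apply, Function.comp_apply]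
    rw [integral_div, integral_add (Λ₁.integrable_comp i1) (Λ₂.integrable_comp i2),
      Λ₁.integral_comp_comm i1, Λ₂.integral_comp_comm i2, ← hd]
    rw [hΛ] at e0 ⊢
    erw [hD y]
    simp only [map_add, zero_apply, zero_mul, sub_zero] at e0 ⊢
    linarith

end Vale.Agent.P219
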