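import Vale.Agent.P219.GeoE2

/-!
# Law of cosines and Hessian comparison  (TASK)

`cos`: `η t = L y (Ex o (t • L o x))` runs from `L y o` to `L y x` and `G y η' η' ≤ qq o x` (`contr`, `d1`, `speed`); with `a = η 1 - η 0` apply the mean
value theorem to `t ↦ G y a (η t)` and Cauchy-Schwarz (`PosB.sq_le`), compare `NPC.dist_key` in `P255/Dist.lean`.
`hess`: `f t = qq (Ex y (t • h)) x ≥ G y (L y x - t • h) (L y x - t • h)` (`cos` with `o = x`, `sym`) with equality at `t = 0`, so the difference has a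
minimum at `0` and nonnegative second derivative there (if it were negative `isLocalMax_of_deriv_deriv_neg`-type strictness or a
Taylor / monotonicity argument gives a contradiction).  `f' t = -2 G c (L c x) (W t)` (`grad`, `d1`), differentiate once more at `0` (`d2`,
`vel0`) and use `LocMetric.koszul`, `LocMetric.loc_fderiv_symm`.
-/

namespace Vale.Agent.P219

open scoped ContDiff Topology RealInnerProductSpace
open MeasureTheory Set Vale.Agent.P255

variable {E : Type*} [NormedAddCommGroup E] [InnerProductSpace ℝ E] [FiniteDimensional ℝ E]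
  {G : E → Bil E} {Ex L : E → E → E} {W : E → E → ℝ → E}

theorem ExpPack.cos (h : ExpPack G Ex W) (hL : IsLog Ex L) (y o x : E) :
    G y (L y o - L y x) (L y o - L y x) ≤ qq G L o x := by
  have hd : Differentiable ℝ (L y) :=
    (hL.smooth.comp (contDiff_prodMk_right y)).differentiable (by simp)
  have hB := posB_of_loc h.loc y
  set a := L y o - L y x with ha
  have h1 : ∀ t : ℝ, HasDerivAt (fun s : ℝ => G y a (L y (Ex o (s • L o x))))
      (G y a (fderiv ℝ (L y) (Ex o (t • L o x)) (W o (L o x) t))) t := fun t =>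
    (G y a).hasFDerivAt.comp_hasDerivAt t ((hd _).hasFDerivAt.comp_hasDerivAt t (h.d1 o _ t))
  obtain ⟨ξ, -, hξ⟩ := exists_hasDerivAt_eq_slope _ _ zero_lt_one
    (fun t _ => (h1 t).continuousAt.continuousWithinAt) fun t _ => h1 t
  rw [one_smul, zero_smul, hL.right, h.zero, sub_zero, div_one, ← map_sub, ← neg_sub, ← ha,
    map_neg] at hξ
  have h2 := hB.sq_le a (fderiv ℝ (L y) (Ex o (ξ • L o x)) (W o (L o x) ξ))
  have h3 := h.contr hL y (Ex o (ξ • L o x)) (W o (L o x) ξ)
  rw [h.speed] at h3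
  rw [hξ, neg_sq, sq] at h2
  rcases (hB.nonneg a).eq_or_lt with h0 | h0
  · rw [← h0]
    exact (posB_of_loc h.loc o).nonneg _
  · exact (le_of_mul_le_mul_left h2 h0).trans h3

theorem geoe3_snd {D D' : ℝ → ℝ} {c : ℝ} (h1 : ∀ t, HasDerivAt D (D' t) t)
    (h2 : HasDerivAt D' c 0) (hm : ∀ t, D 0 ≤ D t) : 0 ≤ c := by
  by_contra! hc
  have h0 : D' 0 = 0 := IsLocalMin.hasDerivAt_eq_zero (Filter.Eventually.of_forall hm) (h1 0)
  have h3 : ∀ t, HasDerivAt (fun s => D s - c / 4 * (s * s)) (D' t - c / 2 * t) t := fun t =>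
    ((h1 t).fun_sub (((hasDerivAt_id' t).fun_mul (hasDerivAt_id' t)).const_mul (c / 4))).congr_deriv
      (by ring)
  have h4 : deriv (fun s => D s - c / 4 * (s * s)) = fun t => D' t - c / 2 * t :=
    funext fun t => (h3 t).deriv
  have h5 := isLocalMax_of_deriv_deriv_neg (f := fun s => D s - c / 4 * (s * s)) (x₀ := 0)
    (by rw [h4, (h2.fun_sub ((hasDerivAt_id' 0).const_mul (c / 2))).deriv]; linarith)
    (by rw [h4]; simp [h0]) (h3 0).continuousAt
  obtain ⟨t, ht, ht0⟩ := ((h5.filter_mono nhdsWithin_le_nhds).and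
    (self_mem_nhdsWithin (s := Ioi (0 : ℝ)))).exists
  have := hm t
  have h6 : 0 < t * t := mul_pos ht0 ht0
  simp only [mul_zero, sub_zero] at ht
  nlinarith

theorem ExpPack.hess (h : ExpPack G Ex W) (hL : IsLog Ex L) (y x k : E) :
    2 * G y k k ≤ -fderiv ℝ G y (L y x) k k - 2 * G y (fderiv ℝ (fun z => L z x) y k) k := by
  have hG : Differentiable ℝ G := fun z => h.loc.loc_diff (mem_univ z)
  have hd : Differentiable ℝ fun z => L z x :=
    (hL.smooth.comp (contDiff_prodMk_left x)).differentiable (by simp)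
  have hq : Differentiable ℝ fun z => qq G L z x := (hG.clm_apply hd).clm_apply hd
  have hB := posB_of_loc h.loc y
  have f1 : ∀ t : ℝ, HasDerivAt (fun s : ℝ => qq G L (Ex y (s • k)) x)
      (-2 * G (Ex y (t • k)) (L (Ex y (t • k)) x) (W y k t)) t := fun t =>
    ((hq _).hasFDerivAt.comp_hasDerivAt t (h.d1 y k t)).congr_deriv (h.grad hL _ _ _)
  have f2 := h.loc.hasDerivAt_inner (x := fun s : ℝ => Ex y (s • k))
    (a := fun s : ℝ => L (Ex y (s • k)) x) (b := W y k) (t := 0) (mem_univ _) (h.d1 y k 0)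
    ((hd _).hasFDerivAt.comp_hasDerivAt 0 (h.d1 y k 0)) (h.d2 y k 0)
  have g1 : ∀ t : ℝ, HasDerivAt
      (fun s : ℝ => G y (L y x) (L y x) - 2 * G y (L y x) k * s + G y k k * (s * s))
      (-(2 * G y (L y x) k) + 2 * G y k k * t) t := fun t =>
    ((((hasDerivAt_id' t).const_mul _).const_sub _).fun_add
      (((hasDerivAt_id' t).fun_mul (hasDerivAt_id' t)).const_mul _)).congr_deriv (by ring)
  have key := geoe3_snd (fun t => (f1 t).fun_sub (g1 t))
    ((f2.const_mul (-2)).fun_sub (((hasDerivAt_id' 0).const_mul _).const_add _)) fun t => by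
      have h1 := h.cos hL y x (Ex y (t • k))
      rw [hL.left, h.sym hL] at h1
      simp only [map_sub, map_smul, sub_apply, smul_apply,
        smul_eq_mul, hB.1 k (L y x)] at h1
      simp only [zero_smul, h.zero, qq] at h1 ⊢
      linarith
  simp only [zero_smul, h.zero, h.vel0, neg_add_cancel, map_zero, map_add,
    add_apply, h.loc.koszul (mem_univ y)] at key
  linarith [h.loc.loc_fderiv_symm (mem_univ y) k k (L y x)]

theorem CH.exists_pack (h : CH G) : ∃ L, Pack G L := by
  obtain ⟨Ex, W, hE⟩ := h.exists_exp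
  obtain ⟨L, hL⟩ := hE.exists_log
  refine ⟨L, h.loc, hL.smooth, fun y => ?_, fun y a b hab => ?_, hE.det_ne hL, hE.contr hL,
    hE.radial hL, hE.sym hL, hE.grad hL, hE.cos hL, hE.hess hL, hE.proper hL⟩
  · simpa [hE.zero] using hL.left y 0
  · rw [← hL.right y a, hab, hL.right]

end Vale.Agent.P219
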