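import Vale.Agent.P219.Red1
import Vale.Agent.P219.EDefs
import Vale.Agent.P219.LinAlg2
import Vale.Agent.P219.Det

/-!
# Transfer of measures and domains to the global chart  (TASK)

`pull_comp`: chain rule in the chart at `φ (ψ z)` and `metric`.  `contMDiffAt_comp`: `contMDiffAt_iff_target` / `contMDiffAt_iff`, `mfld_simps`.
`rmeas_eq`, `≤`: for a piece `(χ, T)` put `ψ = invFun φ ∘ χ`, differentiable at the points of `T` (`symm_smooth`; `χ = φ ∘ ψ`), injective on `T` with image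
in `S`; `dens g χ z = gram G ψ z = |det (fderiv ψ z)| wt (G (ψ z))` (`wt_basis` with `EuclideanSpace.basisFun`, `wt_comp`), so the piece contributes
`∫⁻ over ψ '' T of wt` (`lintegral_image_eq_lintegral_abs_det_fderiv_mul`, `measurable_image_of_fderivWithin`); the images are disjoint subsets of `S`
(`lintegral_iUnion` / `lintegral_biUnion_finset`); `ofReal_integral_eq_lintegral_ofReal`, `integrableOn_wt`.  `≥`: `le_rmeas` with `ψ = id`.
`edom`: `frontier (φ ⁻¹' Ω) = φ ⁻¹' frontier Ω` (`IsOpenMap.preimage_frontier_eq_frontier_preimage`), `f ∘ φ = (f ∘ e.symm) ∘ (e ∘ φ)` near a point, the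
derivative of `e ∘ φ` is onto and `mfderiv f p = fderiv (f ∘ e.symm) (e p)` for `e = chartAt p`.
-/

namespace Vale.Agent.P219

open scoped ContDiff Topology Manifold RealInnerProductSpace ENNReal
open MeasureTheory Vale.Agent.P255 Set Filter

variable {n : ℕ} {M : Type*} [TopologicalSpace M] [ChartedSpace (Euc n) M]
  [IsManifold 𝓘(ℝ, Euc n) ∞ M] {g : Metric (Euc n) M} {φ : Euc n → M} {G : Euc n → Bil (Euc n)}

theorem GChart.pull_comp (h : GChart g φ G) {k : ℕ} {ψ : Euc k → Euc n} {z : Euc k}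
    (hψ : DifferentiableAt ℝ ψ z) (u v : Euc k) :
    pull g (φ ∘ ψ) z u v = G (ψ z) (fderiv ℝ ψ z u) (fderiv ℝ ψ z v) := by
  have he := chart_mem_atlas (Euc n) (φ (ψ z))
  have hs := mem_chart_source (Euc n) (φ (ψ z))
  have h1 := fderiv_comp z ((h.smooth _ he _ hs).differentiableAt (by simp)) hψ
  rw [h.metric _ he _ hs]
  show g.g (chartAt (Euc n) (φ (ψ z))) (chartAt (Euc n) (φ (ψ z)) (φ (ψ z)))
    (fderiv ℝ ((chartAt (Euc n) (φ (ψ z)) ∘ φ) ∘ ψ) z u)
    (fderiv ℝ ((chartAt (Euc n) (φ (ψ z)) ∘ φ) ∘ ψ) z v) = _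
  rw [h1]
  rfl

theorem GChart.contMDiffAt_comp (h : GChart g φ G) {k : ℕ} {ψ : Euc k → Euc n} {z : Euc k}
    {m : ℕ∞} (hψ : ContDiffAt ℝ m ψ z) : ContMDiffAt 𝓘(ℝ, Euc k) 𝓘(ℝ, Euc n) m (φ ∘ ψ) z := by
  have he := chart_mem_atlas (Euc n) (φ (ψ z))
  have hs := mem_chart_source (Euc n) (φ (ψ z))
  rw [contMDiffAt_iff_target, contMDiffAt_iff_contDiffAt]
  exact ⟨h.homeo.continuous.continuousAt.comp hψ.continuousAt,
    ((h.smooth _ he _ hs).of_le (by exact_mod_cast le_top)).comp z hψ⟩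

theorem red2_dens (h : GChart g φ G) {k : ℕ} {ψ : Euc k → Euc n} {z : Euc k}
    (hψ : DifferentiableAt ℝ ψ z) : dens g (φ ∘ ψ) z = gram G ψ z := by
  simp only [dens, gram, h.pull_comp hψ]

theorem red2_gram (G : Euc n → Bil (Euc n)) (ψ : Euc n → Euc n) (z : Euc n) :
    gram G ψ z = |(fderiv ℝ ψ z).det| * wt (G (ψ z)) := by
  rw [← wt_comp, wt_basis (EuclideanSpace.basisFun (Fin n) ℝ), gram]
  simp only [EuclideanSpace.basisFun_apply, ContinuousLinearMap.bilinearComp_apply]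

theorem red2_diff (h : GChart g φ G) {k : ℕ} {χ : Euc k → M} {z : Euc k}
    (hχ : ContMDiffAt 𝓘(ℝ, Euc k) 𝓘(ℝ, Euc n) 1 χ z) :
    DifferentiableAt ℝ (Function.invFun φ ∘ χ) z := by
  have hr := Function.rightInverse_invFun h.homeo.surjective (χ z)
  have he := chart_mem_atlas (Euc n) (χ z)
  have hs := mem_chart_source (Euc n) (χ z)
  rw [contMDiffAt_iff_target, contMDiffAt_iff_contDiffAt] at hχ
  have h1 := (h.symm_smooth he (v := Function.invFun φ (χ z)) (by rwa [hr])).differentiableAt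
    (by simp)
  rw [hr] at h1
  have h2 : DifferentiableAt ℝ (chartAt (Euc n) (χ z) ∘ χ) z := hχ.2.differentiableAt (by simp)
  refine (DifferentiableAt.comp z h1 h2).congr_of_eventuallyEq ?_
  filter_upwards [hχ.1.preimage_mem_nhds ((chartAt (Euc n) (χ z)).open_source.mem_nhds hs)]
    with w hw
  simp only [Function.comp_apply]
  rw [(chartAt (Euc n) (χ z)).left_inv hw]

theorem GChart.le_rmeas (h : GChart g φ G) {k N : ℕ} {Z : Set (Euc n)}
    {ψ : Fin N → Euc k → Euc n} {S : Fin N → Set (Euc k)}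
    (h1 : ∀ i, MeasurableSet (S i) ∧ ContDiff ℝ 1 (ψ i) ∧ InjOn (ψ i) (S i) ∧ MapsTo (ψ i) (S i) Z)
    (h2 : ∀ i j, i ≠ j → Disjoint (ψ i '' S i) (ψ j '' S j)) :
    ∑ i, ∫⁻ z in S i, ENNReal.ofReal (gram G (ψ i) z) ≤ rmeas g k (φ '' Z) := by
  refine le_iSup_of_le N (le_iSup₂_of_le (fun i => φ ∘ ψ i) S (le_iSup₂_of_le (fun i =>
    ⟨(h1 i).1, fun z _ => h.contMDiffAt_comp (m := 1) (h1 i).2.1.contDiffAt,
      h.homeo.injective.comp_injOn (h1 i).2.2.1,
      fun z hz => mem_image_of_mem φ ((h1 i).2.2.2 hz)⟩) (fun i j hij => ?_) (le_of_eq ?_)))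
  · rw [image_comp, image_comp]
    exact (disjoint_image_iff h.homeo.injective).2 (h2 i j hij)
  · refine Finset.sum_congr rfl fun i _ => ?_
    simp only [red2_dens h ((h1 i).2.1.differentiable (by simp) _)]

theorem GChart.rmeas_eq (h : GChart g φ G) {S : Set (Euc n)} (hS : IsOpen S)
    (hb : Bornology.IsBounded S) : rmeas g n (φ '' S) = ENNReal.ofReal (vol G S) := by
  have hv : ENNReal.ofReal (vol G S) = ∫⁻ y in S, ENNReal.ofReal (wt (G y)) :=
    ofReal_integral_eq_lintegral_ofReal (integrableOn_wt h.loc hb)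
      (Eventually.of_forall fun y => Real.sqrt_nonneg _)
  rw [hv]
  refine le_antisymm (iSup_le fun N => iSup₂_le fun χ T => iSup₂_le fun h1 h2 => ?_) ?_
  · have hr : ∀ i, φ ∘ (Function.invFun φ ∘ χ i) = χ i := fun i =>
      funext fun z => Function.rightInverse_invFun h.homeo.surjective (χ i z)
    have hd : ∀ i, ∀ z ∈ T i, HasFDerivWithinAt (Function.invFun φ ∘ χ i)
        (fderiv ℝ (Function.invFun φ ∘ χ i) z) (T i) z := fun i z hz =>
      (red2_diff h ((h1 i).2.1 z hz)).hasFDerivAt.hasFDerivWithinAt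
    have hi : ∀ i, InjOn (Function.invFun φ ∘ χ i) (T i) := fun i =>
      InjOn.of_comp (g := φ) (by rw [hr i]; exact (h1 i).2.2.1)
    have e1 : ∀ i, ∫⁻ z in T i, ENNReal.ofReal (dens g (χ i) z) =
        ∫⁻ y in (Function.invFun φ ∘ χ i) '' T i, ENNReal.ofReal (wt (G y)) := fun i => by
      rw [lintegral_image_eq_lintegral_abs_det_fderiv_mul volume (h1 i).1 (hd i) (hi i)]
      refine setLIntegral_congr_fun (h1 i).1 fun z hz => ?_
      have := red2_dens h (red2_diff h ((h1 i).2.1 z hz))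
      rw [hr i, red2_gram] at this
      simp only [this]
      exact ENNReal.ofReal_mul (abs_nonneg _)
    rw [Finset.sum_congr rfl fun i _ => e1 i, ← tsum_fintype (L := .unconditional _),
      ← lintegral_iUnion (fun i => measurable_image_of_fderivWithin (h1 i).1 (hd i) (hi i))]
    · refine lintegral_mono_set (iUnion_subset fun i => ?_)
      rintro _ ⟨z, hz, rfl⟩
      obtain ⟨y, hy, e⟩ := (h1 i).2.2.2 hz
      rwa [Function.comp_apply, ← e, Function.leftInverse_invFun h.homeo.injective]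
    · intro i j hij
      refine (disjoint_image_iff h.homeo.injective).1 ?_
      rw [← image_comp, ← image_comp, hr, hr]
      exact h2 i j hij
  · have := h.le_rmeas (N := 1) (Z := S) (ψ := fun _ => id) (S := fun _ => S)
      (fun _ => ⟨hS.measurableSet, contDiff_id, injOn_id _, mapsTo_id _⟩)
      fun i j hij => absurd (Subsingleton.elim i j) hij
    simpa [red2_gram, ContinuousLinearMap.det] using this

theorem GChart.edom (h : GChart g φ G) {Ω : Set M} (hΩ : IsDomain n Ω) : EDom (φ ⁻¹' Ω) := by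
  have hφ : ∀ x, ContMDiffAt 𝓘(ℝ, Euc n) 𝓘(ℝ, Euc n) ∞ φ x := fun x =>
    h.contMDiffAt_comp (ψ := id) (m := ⊤) contDiffAt_id
  refine ⟨hΩ.isOpen.preimage h.homeo.continuous,
    (h.homeo.isClosedEmbedding.isCompact_preimage hΩ.compact).isBounded.subset
      (preimage_mono subset_closure), fun p hp => ?_⟩
  rw [← h.homeo.isOpenMap.preimage_frontier_eq_frontier_preimage h.homeo.continuous] at hp
  obtain ⟨U, f, hU, hpU, hf, hd, hs⟩ := hΩ.bdry _ hp
  refine ⟨φ ⁻¹' U, f ∘ φ, hU.preimage h.homeo.continuous, hpU, fun x hx => ?_, fun h0 => hd ?_, ?_⟩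
  · exact (contMDiffAt_iff_contDiffAt.1
      ((hf.contMDiffAt (hU.mem_nhds hx)).comp x (hφ x))).contDiffWithinAt
  · have h1 := (hφ p).mdifferentiableAt (by simp)
    have h2 := mfderiv_comp p ((hf.contMDiffAt (hU.mem_nhds hpU)).mdifferentiableAt (by simp)) h1
    rw [mfderiv_eq_fderiv, h0] at h2
    have h3 : mfderiv 𝓘(ℝ, Euc n) 𝓘(ℝ, Euc n) φ p = fderiv ℝ (chartAt (Euc n) (φ p) ∘ φ) p := by
      rw [h1.mfderiv]
      simp only [mfld_simps, fderivWithin_univ]
      rfl
    obtain ⟨A, hA⟩ := isInvertible_of_det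
      (h.det_ne _ (chart_mem_atlas (Euc n) (φ p)) p (mem_chart_source _ _))
    ext v
    obtain ⟨w, hw⟩ := A.surjective v
    have h4 := congrArg (fun L => L w) h2
    simp only [h3, ← hA] at h4
    rw [← hw]
    exact h4.symm
  · rw [← preimage_inter, hs]
    rfl

end Vale.Agent.P219
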