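import Vale.Agent.P219.Rigid1

/-!
# The equality case: the isometry  (TASK)

`rigid_unit`: `rigid_pt`, `Qc_eq` give `P, e`.  `Ψ x = P (L y x)` is an injective open smooth map (`Pack.diffeo`, `Diffeo.isOpenMap`).
`Ψ '' Ω` and `ball e 1` are open and a.e. equal, so they have the same closure (open sets have positive measure); both equal the
interior of their closure (`closure (Ψ '' Ω) = Ψ '' closure Ω` by compactness; an open embedding commutes with interior), so
`Ψ '' Ω = ball e 1`.  `ψ z = Function.invFun Ψ (z + e)` is smooth on `ball 0 1` (`ContDiffAt.to_localInverse`, or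
`OpenPartialHomeomorph.contDiffAt_symm` for `IsOpenEmbedding.toOpenPartialHomeomorph`), `fderiv Ψ (ψ z) ∘ fderiv ψ z = id`, and
`eq_of_wt_eq` with `contr` gives `G x u v = ⟪fderiv Ψ x u, fderiv Ψ x v⟫` on `Ω`.
`rigid`: `V > 0` (`vol_pos`), `l ^ 5 V = om E`, apply `rigid_unit` to `l ^ 2 • G` and take `R = l⁻¹`, `ψ' z = ψ (l • z)`.
-/

namespace Vale.Agent.P219

open scoped ContDiff Topology RealInnerProductSpace
open MeasureTheory Set Vale.Agent.P255

variable {E : Type*} [NormedAddCommGroup E] [InnerProductSpace ℝ E] [FiniteDimensional ℝ E]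
  [MeasurableSpace E] [BorelSpace E]
  {X : Type*} [MeasurableSpace X] {μ : Measure X}
  {G : E → Bil E} {L : E → E → E}

theorem rigid2_sub {U V : Set E} (hU : IsOpen U) (h : U =ᵐ[volume] V) : U ⊆ closure V := by
  have h1 : volume (U \ closure V) = 0 :=
    measure_mono_null (sdiff_subset_sdiff_right subset_closure) (ae_eq_set.1 h).1
  exact sdiff_eq_empty.1 ((hU.sdiff isClosed_closure).eq_empty_of_measure_zero h1)

theorem rigid2_image {Ψ : E → E} (hΨ : Diffeo Ψ) {Ω : Set E} (ho : IsOpen Ω)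
    (hc : IsCompact (closure Ω)) (hreg : interior (closure Ω) = Ω) {e : E}
    (h : Ψ '' Ω =ᵐ[volume] Metric.ball e 1) : Ψ '' Ω = Metric.ball e 1 := by
  have h1 := hΨ.isOpenMap Ω ho
  have hcont := hΨ.smooth.continuous
  refine Subset.antisymm ?_ fun z hz => ?_
  · rw [← interior_closedBall e one_ne_zero, ← closure_ball e one_ne_zero]
    exact interior_maximal (rigid2_sub h1 h) h1
  · have h2 := rigid2_sub Metric.isOpen_ball h.symm
    rw [← image_closure_of_isCompact hc hcont.continuousOn] at h2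
    obtain ⟨x, -, rfl⟩ := h2 hz
    refine mem_image_of_mem _ ?_
    rw [← hreg]
    refine interior_maximal (t := Ψ ⁻¹' Metric.ball e 1) (fun w hw => ?_)
      (Metric.isOpen_ball.preimage hcont) hz
    obtain ⟨w', hw', e⟩ := h2 hw
    exact hΨ.inj e ▸ hw'

omit [MeasurableSpace E] [BorelSpace E] in
theorem rigid2_inv {Ψ : E → E} (hΨ : Diffeo Ψ) (ho : IsOpenMap Ψ) (hs : ContDiff ℝ ∞ Ψ) :
    ∃ φ : E → E, (∀ x, φ (Ψ x) = x) ∧ ∀ x, ContDiffAt ℝ ∞ φ (Ψ x) := by
  have := FiniteDimensional.complete ℝ E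
  have h : Topology.IsOpenEmbedding Ψ :=
    .of_continuous_injective_isOpenMap hs.continuous hΨ.inj ho
  refine ⟨(h.toOpenPartialHomeomorph Ψ).symm, fun x => h.toOpenPartialHomeomorph_left_inv,
    fun x => ?_⟩
  obtain ⟨A, hA⟩ := isInvertible_of_det (hΨ.det_ne x)
  refine (h.toOpenPartialHomeomorph Ψ).contDiffAt_symm (f₀' := A) (by simp) ?_ ?_
  · rw [h.toOpenPartialHomeomorph_left_inv, hA]
    exact (hs.differentiable (by simp) x).hasFDerivAt
  · exact hs.contDiffAt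

theorem Pack.rigid_unit [SFinite μ] (hE : Module.finrank ℝ E = 5) (hP : Pack G L) (D : Dom E μ)
    (hreg : interior (closure D.Ω) = D.Ω) (hV : vol G D.Ω = om E) (hA : D.area G = 5 * om E) :
    ∃ ψ : E → E, BijOn ψ (Metric.ball 0 1) D.Ω ∧ ContDiffOn ℝ ∞ ψ (Metric.ball 0 1) ∧
      ∀ z ∈ Metric.ball (0 : E) 1, ∀ u v,
        G (ψ z) (fderiv ℝ ψ z u) (fderiv ℝ ψ z v) = ⟪u, v⟫ := by
  obtain ⟨ξ, hN, hQ⟩ := hP.rigid_pt hE D hV hA
  obtain ⟨P, e, hG, hae, hw⟩ := hP.Qc_eq hE D.isOpen D.bdd (D.p ξ) hN hQ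
  generalize D.p ξ = y at hG hae hw
  have hΨ := hP.diffeo y P
  have hL : ContDiff ℝ ∞ (L y) := hP.smooth.comp (contDiff_const.prodMk contDiff_id)
  have hs : ContDiff ℝ ∞ fun x => P (L y x) := P.contDiff.comp hL
  have him := rigid2_image hΨ D.isOpen D.isCompact_closure hreg hae
  obtain ⟨φ, hφ, hφs⟩ := rigid2_inv hΨ hΨ.isOpenMap hs
  have hz : ∀ z ∈ Metric.ball (0 : E) 1, ∃ x ∈ D.Ω, P (L y x) = z + e := by
    intro z hz
    have : z + e ∈ Metric.ball e 1 := by simpa using hz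
    rw [← him] at this
    exact this
  have hsm : ∀ z ∈ Metric.ball (0 : E) 1, ContDiffAt ℝ ∞ (fun z => φ (z + e)) z := by
    intro z h
    obtain ⟨x, -, hx⟩ := hz z h
    have h1 := hφs x
    rw [hx] at h1
    exact ContDiffAt.comp (g := φ) z h1 (contDiffAt_id.add contDiffAt_const)
  refine ⟨fun z => φ (z + e), ⟨fun z h => ?_, fun z h z' h' hzz => ?_, fun x hx => ?_⟩,
    fun z h => (hsm z h).contDiffWithinAt, fun z h u v => ?_⟩
  · obtain ⟨x, hx, e1⟩ := hz z h
    show φ (z + e) ∈ D.Ω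
    rw [← e1, hφ]
    exact hx
  · obtain ⟨x, -, e1⟩ := hz z h
    obtain ⟨x', -, e2⟩ := hz z' h'
    have h1 : φ (z + e) = φ (z' + e) := hzz
    rw [← e1, ← e2, hφ, hφ] at h1
    rw [h1, e2] at e1
    exact (add_right_cancel e1).symm
  · have h1 : P (L y x) ∈ Metric.ball e 1 := him ▸ mem_image_of_mem (fun x => P (L y x)) hx
    refine ⟨P (L y x) - e, by simpa [dist_eq_norm] using h1, ?_⟩
    show φ (P (L y x) - e + e) = x
    rw [sub_add_cancel, hφ]
  · obtain ⟨x, hx, e1⟩ := hz z h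
    have e2 : φ (z + e) = x := by rw [← e1, hφ]
    have d1 := ((hsm z h).differentiableAt (by simp)).hasFDerivAt
    have d2 := (hL.differentiable (by simp) (φ (z + e))).hasFDerivAt
    have d3 := P.hasFDerivAt.comp z (d2.comp z d1)
    have d4 : HasFDerivAt (fun w => w + e) _ z := d3.congr_of_eventuallyEq (by
      filter_upwards [Metric.isOpen_ball.mem_nhds h] with w hw
      obtain ⟨x', -, e3⟩ := hz w hw
      show w + e = P (L y (φ (w + e)))
      rw [← e3, hφ])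
    have d5 := d4.unique ((hasFDerivAt_id z).add_const e)
    have d6 : ∀ k, P (fderiv ℝ (L y) x (fderiv ℝ (fun z => φ (z + e)) z k)) = k := by
      intro k
      rw [← e2]
      exact DFunLike.congr_fun d5 k
    show G (φ (z + e)) _ _ = _
    rw [e2, ← eq_of_wt_eq (posB_of_loc hP.loc y) (posB_of_loc hP.loc x) (hP.contr y x) (hw x hx),
      hG, d6, d6]

theorem Pack.rigid [SFinite μ] (hE : Module.finrank ℝ E = 5) (hP : Pack G L) (D : Dom E μ)
    (hreg : interior (closure D.Ω) = D.Ω) (hne : D.Ω.Nonempty)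
    (hA : D.area G = prof (om E) (vol G D.Ω)) :
    ∃ R : ℝ, 0 < R ∧ ∃ ψ : E → E, BijOn ψ (Metric.ball 0 R) D.Ω ∧
      ContDiffOn ℝ ∞ ψ (Metric.ball 0 R) ∧ ∀ z ∈ Metric.ball (0 : E) R, ∀ u v,
        G (ψ z) (fderiv ℝ ψ z u) (fderiv ℝ ψ z v) = ⟪u, v⟫ := by
  have hV := vol_pos hP.loc D.isOpen D.bdd hne
  have ho : 0 < om E := om_pos
  obtain ⟨l, hl, hl5⟩ : ∃ l : ℝ, 0 < l ∧ l ^ 5 * vol G D.Ω = om E := by
    refine ⟨(om E / vol G D.Ω) ^ ((5 : ℕ) : ℝ)⁻¹, by positivity, ?_⟩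
    rw [Real.rpow_inv_natCast_pow (by positivity) (by norm_num), div_mul_cancel₀ _ hV.ne']
  obtain ⟨ψ, hb, hs, hi⟩ := (hP.scale hl).rigid_unit hE D hreg
    (by rw [vol_scale hE G hl, hl5])
    (by rw [D.area_scale hE hP.loc hl, hA, ← prof_scale hV.le hl, hl5, prof_self ho])
  have hm : ∀ z : E, z ∈ Metric.ball (0 : E) l⁻¹ ↔ l • z ∈ Metric.ball (0 : E) 1 := by
    intro z
    rw [mem_ball_zero_iff, mem_ball_zero_iff, norm_smul, Real.norm_of_nonneg hl.le,
      ← one_div, lt_div_iff₀' hl]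
  have hbij : BijOn (fun z : E => l • z) (Metric.ball 0 l⁻¹) (Metric.ball 0 1) := by
    refine ⟨fun z hz => (hm z).1 hz, fun z _ z' _ h => smul_right_injective E hl.ne' h,
      fun w hw => ⟨l⁻¹ • w, (hm _).2 ?_, ?_⟩⟩
    · rwa [smul_inv_smul₀ hl.ne']
    · exact smul_inv_smul₀ hl.ne' w
  refine ⟨l⁻¹, inv_pos.2 hl, fun z => ψ (l • z), hb.comp hbij,
    hs.comp (contDiff_const_smul l).contDiffOn hbij.mapsTo, fun z hz u v => ?_⟩
  have h1 := (hm z).1 hz
  have d1 := ((hs.contDiffAt (Metric.isOpen_ball.mem_nhds h1)).differentiableAt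
    (by simp)).hasFDerivAt
  have d2 : HasFDerivAt (fun z : E => ψ (l • z)) _ z := d1.comp z ((hasFDerivAt_id z).const_smul l)
  have h2 := hi _ h1 u v
  rw [d2.fderiv, ← h2]
  simp only [ContinuousLinearMap.comp_apply, smul_apply,
    ContinuousLinearMap.id_apply, map_smul, smul_eq_mul]
  ring

end Vale.Agent.P219
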