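import Vale.Agent.P219.Init
import Vale.Agent.P219.Red2
import Vale.Agent.P219.GeoE3
import Vale.Agent.P219.Rigid2

/-!
# Assembly  (TASK)

`area_le`: `T j = U j \ ⋃ (l < j), U l` (`disjointed`), `S j = (Θ j ∘ emb) ⁻¹' T j`; these points are frontier points (`fr`, `left`, `emb_zero`).  The `i`-th integrand
vanishes unless `Θ i (emb z) ∈ U i`; split this set into the pieces `T j ∩ U i`, move each piece to the patch `j` (`Patch.trans`), and use `∑ i, χ i ≤ 1` on
`closure Ω`.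
`main`: `exists_gchart`, `GChart.ch`, `CH.exists_pack`; `Ω' = φ ⁻¹' Ω`, `Ω = φ '' Ω'`, `frontier Ω = φ '' frontier Ω'`.  If `Ω` is empty its volume is `0`
(`rmeas_eq`).  Otherwise `ofReal (prof ..) ≤ ofReal area ≤ rmeas g 4 (frontier Ω)` (`Pack.ineq`, `area_le`, `le_rmeas`), and the left side is the `ENNReal`
expression (`ENNReal.ofReal_rpow_of_nonneg`, `om_pos`).  In the equality case `area = prof`, `Pack.rigid`, and `φ ∘ ψ` is the isometry (`pull_comp`,
`contMDiffAt_comp`).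
-/

namespace Vale.Agent.P219

open scoped ContDiff Topology Manifold RealInnerProductSpace ENNReal
open MeasureTheory Set Vale.Agent.P255

variable {Ω : Set (Euc 5)} {G : Euc 5 → Bil (Euc 5)}

theorem Cover.area_le {k : ℕ} {Θ Θ' : Fin k → Euc 5 → Euc 5} {U : Fin k → Set (Euc 5)}
    {χ₀ : Euc 5 → ℝ} {χ : Fin k → Euc 5 → ℝ} (hC : Cover Ω Θ Θ' U χ₀ χ) (hG : LocMetric G univ) :
    ∃ S : Fin k → Set (Euc 4),
      (∀ i, MeasurableSet (S i) ∧ ContDiff ℝ 1 (fun z => Θ i (emb z)) ∧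
        InjOn (fun z => Θ i (emb z)) (S i) ∧ MapsTo (fun z => Θ i (emb z)) (S i) (frontier Ω)) ∧
      (∀ i j, i ≠ j → Disjoint ((fun z => Θ i (emb z)) '' S i) ((fun z => Θ j (emb z)) '' S j)) ∧
      ∑ i, ∫⁻ z, ENNReal.ofReal (χ i (Θ i (emb z))) *
          ENNReal.ofReal (gram G (fun z => Θ i (emb z)) z) ≤
        ∑ i, ∫⁻ z in S i, ENNReal.ofReal (gram G (fun z => Θ i (emb z)) z) := by
  classical
  let T : Fin k → Set (Euc 5) := fun j => U j \ ⋃ l, ⋃ _ : l < j, U l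
  have hT : ∀ j, MeasurableSet (T j) := fun j => (hC.patch j).isOpen.measurableSet.diff
    (isOpen_iUnion fun l => isOpen_iUnion fun _ => (hC.patch l).isOpen).measurableSet
  have hTU : ∀ j, T j ⊆ U j := fun j => sdiff_subset
  have hcov : ∀ i y, y ∈ U i → ∃ j, y ∈ T j := fun i y hy => by
    obtain ⟨j, hj, hm⟩ := (wellFounded_lt (α := Fin k)).has_min {j | y ∈ U j} ⟨i, hy⟩
    refine ⟨j, hj, fun h => ?_⟩
    obtain ⟨l, hl, hy'⟩ := mem_iUnion₂.1 h
    exact hm l hy' hl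
  have hdis : ∀ i j, i < j → Disjoint (T i) (T j) := fun i j hij =>
    disjoint_left.2 fun y h1 h2 => h2.2 (mem_iUnion₂.2 ⟨i, hij, h1.1⟩)
  have hq : ∀ i, ContDiff ℝ 1 fun z => Θ i (emb z) := fun i =>
    ((hC.patch i).smooth.of_le (by simp)).comp emb.contDiff
  have hfr : ∀ i z, Θ i (emb z) ∈ T i → Θ i (emb z) ∈ frontier Ω := fun i z hz => by
    rw [(hC.patch i).fr _ (hTU i hz), (hC.patch i).left, emb_zero]
  have hS : ∀ j, MeasurableSet ((fun z => Θ j (emb z)) ⁻¹' T j) := fun j =>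
    (hq j).continuous.measurable (hT j)
  have hg : ∀ j, Measurable fun z => ENNReal.ofReal (gram G (fun z => Θ j (emb z)) z) := fun j => by
    have h1 : Continuous fun z => ad (G (Θ j (emb z))) (pN (Θ j) z) :=
      (continuous_ad hG).comp ((hq j).continuous.prodMk (hC.patch j).continuous_pN)
    simp only [(hC.patch j).ad_pN hG] at h1
    exact h1.measurable.ennreal_ofReal
  refine ⟨fun j => (fun z => Θ j (emb z)) ⁻¹' T j, fun i => ⟨hS i, hq i, fun a _ b _ hab => ?_,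
    fun z hz => hfr i z hz⟩, fun i j hij => ?_, ?_⟩
  · have h1 := congrArg (fun y => prj (Θ' i y)) hab
    simpa only [(hC.patch i).left, prj_emb] using h1
  · refine Disjoint.mono (image_preimage_subset _ _) (image_preimage_subset _ _) ?_
    rcases lt_or_gt_of_ne hij with h | h
    · exact hdis i j h
    · exact (hdis j i h).symm
  have hA : ∀ i, ∫⁻ z, ENNReal.ofReal (χ i (Θ i (emb z))) *
      ENNReal.ofReal (gram G (fun z => Θ i (emb z)) z) ≤
      ∑ j, ∫⁻ z in (fun z => Θ j (emb z)) ⁻¹' T j, ENNReal.ofReal (χ i (Θ j (emb z))) *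
        ENNReal.ofReal (gram G (fun z => Θ j (emb z)) z) := fun i => by
    rw [← setLIntegral_eq_of_support_subset
      (s := ⋃ j, (fun z => Θ i (emb z)) ⁻¹' (T j ∩ U i)) fun z hz => ?_]
    · refine (lintegral_iUnion_le _ _).trans ?_
      rw [tsum_fintype]
      refine Finset.sum_le_sum fun j _ => ?_
      rw [Patch.trans (hC.patch i) (hC.patch j) ((hT j).inter (hC.patch i).isOpen.measurableSet)
        (fun y hy => ⟨hy.2, hTU j hy.1⟩) fun y => ENNReal.ofReal (χ i y)]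
      exact lintegral_mono_set (preimage_mono inter_subset_left)
    · have h1 : Θ i (emb z) ∈ U i := by
        by_contra h
        refine hz ?_
        simp only [image_eq_zero_of_notMem_tsupport fun hy' => h (hC.supp i hy'),
          ENNReal.ofReal_zero, zero_mul]
      obtain ⟨j, hj⟩ := hcov i _ h1
      exact mem_iUnion.2 ⟨j, hj, h1⟩
  refine (Finset.sum_le_sum fun i _ => hA i).trans ?_
  rw [Finset.sum_comm]
  refine Finset.sum_le_sum fun j _ => ?_
  have hm : ∀ i, Measurable fun z => ENNReal.ofReal (χ i (Θ j (emb z))) *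
      ENNReal.ofReal (gram G (fun z => Θ j (emb z)) z) := fun i =>
    (((hC.smooth i).continuous.comp (hq j).continuous).measurable.ennreal_ofReal).mul (hg j)
  rw [← lintegral_finsetSum _ fun i _ => hm i]
  refine setLIntegral_mono' (hS j) fun z hz => ?_
  rw [← Finset.sum_mul, ← ENNReal.ofReal_sum_of_nonneg fun i _ => hC.nonneg i _]
  refine mul_le_of_le_one_left' (ENNReal.ofReal_le_one.2 ?_)
  have h1 := hC.sum _ (frontier_subset_closure (hfr j z hz))
  have h2 := hC.nonneg₀ (Θ j (emb z))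
  linarith

theorem main {M : Type*} [TopologicalSpace M] [ChartedSpace (Euc 5) M]
    [IsManifold 𝓘(ℝ, Euc 5) ∞ M] [T2Space M] [SimplyConnectedSpace M] (g : Metric (Euc 5) M)
    (hc : Complete g) (hK : g.NPC) (Ω : Set M) (hΩ : IsDomain 5 Ω) :
    5 * volume (Metric.ball (0 : Euc 5) 1) ^ (1 / 5 : ℝ) * rmeas g 5 Ω ^ (4 / 5 : ℝ) ≤
        rmeas g 4 (frontier Ω) ∧
      (Ω.Nonempty → rmeas g 4 (frontier Ω) =
          5 * volume (Metric.ball (0 : Euc 5) 1) ^ (1 / 5 : ℝ) * rmeas g 5 Ω ^ (4 / 5 : ℝ) →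
        ∃ R : ℝ, 0 < R ∧ ∃ ψ : Euc 5 → M, BijOn ψ (Metric.ball 0 R) Ω ∧
          ContMDiffOn 𝓘(ℝ, Euc 5) 𝓘(ℝ, Euc 5) ∞ ψ (Metric.ball 0 R) ∧
          ∀ z ∈ Metric.ball (0 : Euc 5) R, ∀ u v, pull g ψ z u v = ⟪u, v⟫) := by
  obtain ⟨φ, G, h⟩ := exists_gchart hc hK
  obtain ⟨L, hP⟩ := (h.ch hc hK).exists_pack
  have hD := h.edom hΩ
  have e1 : φ '' (φ ⁻¹' Ω) = Ω := image_preimage_eq _ h.homeo.surjective
  have e2 : φ '' frontier (φ ⁻¹' Ω) = frontier Ω := by
    rw [← h.homeo.isOpenMap.preimage_frontier_eq_frontier_preimage h.homeo.continuous,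
      image_preimage_eq _ h.homeo.surjective]
  have e3 : rmeas g 5 Ω = ENNReal.ofReal (vol G (φ ⁻¹' Ω)) := by
    rw [← h.rmeas_eq hD.isOpen hD.bdd, e1]
  have e4 : volume (Metric.ball (0 : Euc 5) 1) = ENNReal.ofReal (om (Euc 5)) :=
    (ENNReal.ofReal_toReal measure_ball_lt_top.ne).symm
  have ho := (om_pos (E := Euc 5)).le
  have hv := vol_nonneg G (φ ⁻¹' Ω)
  have e5 : 5 * volume (Metric.ball (0 : Euc 5) 1) ^ (1 / 5 : ℝ) * rmeas g 5 Ω ^ (4 / 5 : ℝ) =
      ENNReal.ofReal (prof (om (Euc 5)) (vol G (φ ⁻¹' Ω))) := by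
    rw [e3, e4, ENNReal.ofReal_rpow_of_nonneg ho (by norm_num),
      ENNReal.ofReal_rpow_of_nonneg hv (by norm_num), prof,
      ENNReal.ofReal_mul (by positivity), ENNReal.ofReal_mul (by norm_num), ENNReal.ofReal_ofNat]
  rw [e5]
  rcases Ω.eq_empty_or_nonempty with rfl | hne
  · refine ⟨?_, fun h => absurd h not_nonempty_empty⟩
    simp [prof, vol]
  have hne' : (φ ⁻¹' Ω).Nonempty := hne.preimage h.homeo.surjective
  obtain ⟨k, Θ, Θ', U, χ₀, χ, hC⟩ := hD.exists_cover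
  obtain ⟨D, hDΩ, hA⟩ := hC.exists_dom hD hne'
  obtain ⟨S, h1, h2, h3⟩ := hC.area_le h.loc
  have hE : Module.finrank ℝ (Euc 5) = 5 := finrank_euclideanSpace_fin
  have h4 : ENNReal.ofReal (D.area G) ≤ rmeas g 4 (frontier Ω) := by
    rw [hA G h.loc, ← e2]
    exact h3.trans (h.le_rmeas h1 h2)
  have h5 := hP.ineq hE D
  rw [hDΩ] at h5
  refine ⟨(ENNReal.ofReal_le_ofReal h5).trans h4, fun _ heq => ?_⟩
  rw [heq, ENNReal.ofReal_le_ofReal_iff (by rw [prof]; positivity)] at h4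
  obtain ⟨R, hR, ψ, b1, b2, b3⟩ := hP.rigid hE D (by rw [hDΩ]; exact hD.interior_closure)
    (by rwa [hDΩ]) (by rw [hDΩ]; exact le_antisymm h4 h5)
  have b4 : ∀ z ∈ Metric.ball (0 : Euc 5) R, ContDiffAt ℝ ∞ ψ z := fun z hz =>
    b2.contDiffAt (Metric.isOpen_ball.mem_nhds hz)
  refine ⟨R, hR, φ ∘ ψ, ?_, fun z hz => (h.contMDiffAt_comp (m := ⊤) (b4 z hz)).contMDiffWithinAt,
    fun z hz u v => ?_⟩
  · rw [hDΩ] at b1
    rw [← e1]
    exact h.homeo.injective.injOn.bijOn_image.comp b1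
  · rw [h.pull_comp ((b4 z hz).differentiableAt (by simp)), b3 z hz]

end Vale.Agent.P219
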