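import Vale.Agent.P219.EDefs
import Vale.Agent.P219.Det

/-!
# The divergence theorem for the whole space and a half space  (TASK)

`dvg Z y = ∑ i, ⟪b i, fderiv Z y (b i)⟫` in an orthonormal basis (`LinearMap.trace_eq_sum_inner`).  `integral_dvg_zero`: `integral_fderiv_eq_zero`-type lemma
(`integral_mul_fderiv_eq_neg_fderiv_mul_of_integrable` with the constant function, or `integral_eq_zero_of_hasCompactSupport`-style results in
`Mathlib/Analysis/Calculus/LineDeriv/IntegrationByParts.lean`).  `half_div`: `Euc 5 ≃ ℝ × Euc 4`, `(t, z) ↦ t • single 0 1 + emb z` preserves volume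
(`PiLp.volume_preserving_ofLp`, `volume_preserving_piFinSuccAbove`); Fubini; for fixed `t` the tangential terms are the divergence of the compactly
supported field `z ↦ prj (Z (t • single 0 1 + emb z))` on `Euc 4`, and `∫ t in Iio 0` of the normal derivative is the boundary value
(`HasCompactSupport.integral_Iic_deriv_eq`).
-/

namespace Vale.Agent.P219

open scoped ContDiff Topology RealInnerProductSpace
open MeasureTheory Set Vale.Agent.P255

variable {E : Type*} [NormedAddCommGroup E] [InnerProductSpace ℝ E] [FiniteDimensional ℝ E]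
  [MeasurableSpace E] [BorelSpace E]

theorem half_integrable_fderiv {g : E → ℝ} (hg : ContDiff ℝ 1 g) (hc : HasCompactSupport g)
    (v : E) : Integrable fun y => fderiv ℝ g y v :=
  ((hg.continuous_fderiv one_ne_zero).clm_apply continuous_const).integrable_of_hasCompactSupport
    (hc.fderiv_apply ℝ v)

theorem half_int_fderiv_zero {g : E → ℝ} (hg : ContDiff ℝ 1 g) (hc : HasCompactSupport g)
    (v : E) : ∫ y, fderiv ℝ g y v = 0 := by
  have h := integral_mul_fderiv_eq_neg_fderiv_mul_of_integrable (μ := (volume : Measure E))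
    (f := fun _ : E => (1 : ℝ)) (g := g) (v := v) (by simp)
    (by simpa using half_integrable_fderiv hg hc v)
    (by simpa using hg.continuous.integrable_of_hasCompactSupport hc)
    (fun x _ => differentiableAt_const _) (fun x _ => hg.differentiable one_ne_zero x)
  simpa using h

omit [FiniteDimensional ℝ E] [MeasurableSpace E] [BorelSpace E] in
theorem half_dvg_eq {ι : Type*} [Fintype ι] (b : OrthonormalBasis ι ℝ E) {Z : E → E}
    (hZ : ContDiff ℝ 1 Z) (y : E) :
    dvg Z y = ∑ i, fderiv ℝ (fun x => ⟪b i, Z x⟫) y (b i) := by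
  unfold dvg
  rw [LinearMap.trace_eq_sum_inner _ b]
  refine Finset.sum_congr rfl fun i _ => ?_
  have h := ((innerSL ℝ (b i)).hasFDerivAt.comp y (hZ.differentiable one_ne_zero y).hasFDerivAt)
  have h2 : fderiv ℝ (fun x => ⟪b i, Z x⟫) y = _ := h.fderiv
  rw [h2]
  rfl

omit [FiniteDimensional ℝ E] [MeasurableSpace E] [BorelSpace E] in
theorem half_inner_smooth {Z : E → E} (hZ : ContDiff ℝ 1 Z) (v : E) :
    ContDiff ℝ 1 fun x => ⟪v, Z x⟫ :=
  (innerSL ℝ v).contDiff.comp hZ

omit [FiniteDimensional ℝ E] [MeasurableSpace E] [BorelSpace E] in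
theorem half_inner_supp {Z : E → E} (hc : HasCompactSupport Z) (v : E) :
    HasCompactSupport fun x => ⟪v, Z x⟫ :=
  hc.comp_left (g := fun w => ⟪v, w⟫) (inner_zero_right v)

theorem integral_dvg_zero {Z : E → E} (hZ : ContDiff ℝ 1 Z) (hc : HasCompactSupport Z) :
    ∫ y, dvg Z y = 0 := by
  simp only [half_dvg_eq (stdOrthonormalBasis ℝ E) hZ]
  rw [integral_finsetSum _ fun i _ =>
    half_integrable_fderiv (half_inner_smooth hZ _) (half_inner_supp hc _) _]
  exact Finset.sum_eq_zero fun i _ =>
    half_int_fderiv_zero (half_inner_smooth hZ _) (half_inner_supp hc _) _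

/-- The splitting of the space. -/
noncomputable def halfE : ℝ × Euc 4 ≃ᵐ Euc 5 :=
  (MeasurableEquiv.prodCongr (MeasurableEquiv.refl ℝ)
    (MeasurableEquiv.toLp 2 (Fin 4 → ℝ)).symm).trans
    ((MeasurableEquiv.piFinSuccAbove (fun _ : Fin 5 => ℝ) 0).symm.trans
      (MeasurableEquiv.toLp 2 (Fin 5 → ℝ)))

theorem halfE_zero (p : ℝ × Euc 4) : halfE p 0 = p.1 := rfl

theorem halfE_apply (p : ℝ × Euc 4) :
    halfE p = p.1 • EuclideanSpace.single (0 : Fin 5) (1 : ℝ) + emb p.2 := by
  ext i
  refine Fin.cases ?_ (fun j => ?_) i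
  · rw [halfE_zero]
    simp [emb_zero]
  · have : halfE p j.succ = p.2 j := rfl
    rw [this]
    simp [emb_succ, Fin.succ_ne_zero]

theorem halfE_mp : MeasurePreserving halfE volume volume := by
  have h1 : MeasurePreserving (MeasurableEquiv.prodCongr (MeasurableEquiv.refl ℝ)
      (MeasurableEquiv.toLp 2 (Fin 4 → ℝ)).symm) volume volume :=
    (MeasurePreserving.id (volume : Measure ℝ)).prod (PiLp.volume_preserving_ofLp (Fin 4))
  have h2 := (volume_preserving_piFinSuccAbove (fun _ : Fin 5 => ℝ) 0).symm _
  exact (PiLp.volume_preserving_toLp (Fin 5)).comp (h2.comp h1)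

theorem half_setIntegral (f : Euc 5 → ℝ) :
    ∫ y in {y : Euc 5 | y 0 < 0}, f y =
      ∫ p, f (halfE p) ∂((volume.restrict (Iio (0 : ℝ))).prod (volume : Measure (Euc 4))) := by
  rw [← halfE_mp.setIntegral_preimage_emb halfE.measurableEmbedding,
    Measure.restrict_prod_eq_prod_univ]
  congr 2
  ext p
  simp [halfE_zero]

theorem half_integrable_comp {f : Euc 5 → ℝ} (hf : Integrable f) :
    Integrable (fun p => f (halfE p))
      ((volume.restrict (Iio (0 : ℝ))).prod (volume : Measure (Euc 4))) := by
  rw [Measure.restrict_prod_eq_prod_univ]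
  exact ((halfE_mp.integrable_comp_emb halfE.measurableEmbedding).2 hf).integrableOn

theorem half_tangential {g : Euc 5 → ℝ} (hg : ContDiff ℝ 1 g) (hc : HasCompactSupport g)
    (w : Euc 4) : ∫ y in {y : Euc 5 | y 0 < 0}, fderiv ℝ g y (emb w) = 0 := by
  rw [half_setIntegral, integral_prod _ (half_integrable_comp (half_integrable_fderiv hg hc _))]
  have key : ∀ t : ℝ, ∫ z : Euc 4, fderiv ℝ g (halfE (t, z)) (emb w) = 0 := by
    intro t
    set c : Euc 5 := t • EuclideanSpace.single (0 : Fin 5) (1 : ℝ) with hcdef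
    have hemb : Topology.IsClosedEmbedding fun z : Euc 4 => c + emb z :=
      (Homeomorph.addLeft c).isClosedEmbedding.comp
        (LinearMap.isClosedEmbedding_of_injective (f := (emb : Euc 4 →ₗ[ℝ] Euc 5))
          (LinearMap.ker_eq_bot.2 (Function.LeftInverse.injective prj_emb)))
    have h1 : ContDiff ℝ 1 fun z : Euc 4 => g (c + emb z) :=
      hg.comp (contDiff_const.add emb.contDiff)
    have h2 : HasCompactSupport fun z : Euc 4 => g (c + emb z) := hc.comp_isClosedEmbedding hemb
    rw [← half_int_fderiv_zero h1 h2 w]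
    refine integral_congr_ae (Filter.Eventually.of_forall fun z => ?_)
    have h3 := (hg.differentiable one_ne_zero (c + emb z)).hasFDerivAt.comp z
      (emb.hasFDerivAt.const_add c)
    have h4 : fderiv ℝ (fun z : Euc 4 => g (c + emb z)) z = _ := h3.fderiv
    simp only [h4, halfE_apply, ContinuousLinearMap.comp_apply]
    rfl
  simp only [key, integral_zero]

theorem half_normal {g : Euc 5 → ℝ} (hg : ContDiff ℝ 1 g) (hc : HasCompactSupport g) :
    ∫ y in {y : Euc 5 | y 0 < 0}, fderiv ℝ g y (EuclideanSpace.single (0 : Fin 5) (1 : ℝ)) =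
      ∫ z : Euc 4, g (emb z) := by
  rw [half_setIntegral,
    integral_prod_symm _ (half_integrable_comp (half_integrable_fderiv hg hc _))]
  refine integral_congr_ae (Filter.Eventually.of_forall fun z => ?_)
  set e : Euc 5 := EuclideanSpace.single (0 : Fin 5) (1 : ℝ) with he
  have hne : e ≠ 0 := by
    intro h
    have := congrArg (fun v : Euc 5 => v 0) h
    simp [he] at this
  have hemb : Topology.IsClosedEmbedding fun t : ℝ => t • e + emb z :=
    (Homeomorph.addRight (emb z)).isClosedEmbedding.comp (isClosedEmbedding_smul_left hne)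
  have h1 : ContDiff ℝ 1 fun t : ℝ => g (t • e + emb z) :=
    hg.comp ((contDiff_id.smul contDiff_const).add contDiff_const)
  have h2 : HasCompactSupport fun t : ℝ => g (t • e + emb z) := hc.comp_isClosedEmbedding hemb
  have h3 := h2.integral_Iic_deriv_eq h1 0
  rw [integral_Iic_eq_integral_Iio, zero_smul, zero_add] at h3
  simp only
  rw [← h3]
  refine integral_congr_ae (Filter.Eventually.of_forall fun t => ?_)
  have h4 := (hg.differentiable one_ne_zero (t • e + emb z)).hasFDerivAt.comp_hasDerivAt t
    (((hasDerivAt_id t).smul_const e).add_const (emb z))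
  have h5 : deriv (fun t : ℝ => g (t • e + emb z)) t = _ := h4.deriv
  simp only [h5, halfE_apply, one_smul]
  rfl

theorem half_div {Z : Euc 5 → Euc 5} (hZ : ContDiff ℝ 1 Z) (hc : HasCompactSupport Z) :
    ∫ y in {y : Euc 5 | y 0 < 0}, dvg Z y = ∫ z : Euc 4, Z (emb z) 0 := by
  simp only [half_dvg_eq (EuclideanSpace.basisFun (Fin 5) ℝ) hZ]
  rw [integral_finsetSum _ fun i _ =>
    (half_integrable_fderiv (half_inner_smooth hZ _) (half_inner_supp hc _) _).integrableOn,
    Fin.sum_univ_succ]
  simp only [EuclideanSpace.basisFun_apply]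
  rw [half_normal (half_inner_smooth hZ _) (half_inner_supp hc _),
    Finset.sum_eq_zero fun i _ => ?_]
  · simp [EuclideanSpace.inner_single_left]
  · have h := half_tangential (half_inner_smooth hZ (EuclideanSpace.single i.succ (1 : ℝ)))
      (half_inner_supp hc _) (EuclideanSpace.single i 1)
    rwa [emb_single] at h

end Vale.Agent.P219
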