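import Vale.Agent.P219.Main

/-!
# The equality case: a good boundary point  (TASK)

`o = om E`, `a ξ` the area density, `d ξ = Qc + o a - 2 Fl ≥ 0` (`Qc_ge`; measurability of `d` is not needed).  For `η, τ` the last clause
of `step` reads `d ≤ h := (a - a') / τ - 4 t + a V + o a - 2 Fl + η a + C τ a`, an integrable function with
`∫ h = (A - A') / τ - 4 T + (A V + o A - 10 o V) + η A + C τ A`; the bracket vanishes, and `A' ≥ prof V' ≥ 5 o - 4 s - θ |s|`,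
`s = τ T + C τ²` (`ineq` for `D'`, `prof_mono`, `prof_taylor`).  So for every `k` there is an integrable `h k ≥ d ≥ 0` with
`∫ h k ≤ 2⁻¹ ^ k`; then `h k → 0` a.e. (`lintegral_tsum`, or Fatou `lintegral_liminf_le`), so `d = 0` a.e.  Since `A > 0` the set
`{N ≠ 0}` is not null (`ad_zero`).
-/

namespace Vale.Agent.P219

open scoped ContDiff Topology RealInnerProductSpace
open MeasureTheory Set Vale.Agent.P255

variable {E : Type*} [NormedAddCommGroup E] [InnerProductSpace ℝ E] [FiniteDimensional ℝ E]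
  [MeasurableSpace E] [BorelSpace E]
  {X : Type*} [MeasurableSpace X] {μ : Measure X}
  {G : E → Bil E} {L : E → E → E}

theorem rigid1_ae {d : X → ℝ} (h0 : ∀ ξ, 0 ≤ d ξ)
    (h : ∀ ε : ℝ, 0 < ε → ∃ f : X → ℝ, Integrable f μ ∧ (∀ ξ, d ξ ≤ f ξ) ∧ ∫ ξ, f ξ ∂μ ≤ ε) :
    ∀ᵐ ξ ∂μ, d ξ ≤ 0 := by
  have h1 : ∀ c : ℝ, 0 < c → μ {ξ | c ≤ d ξ} = 0 := by
    intro c hc
    have h2 : ENNReal.ofReal c * μ {ξ | c ≤ d ξ} ≤ 0 := by
      refine ENNReal.le_of_forall_pos_le_add fun ε hε _ => ?_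
      obtain ⟨f, hf, h3, h4⟩ := h ε hε
      have h5 := mul_meas_ge_le_lintegral₀ (μ := μ) (f := fun ξ => ENNReal.ofReal (f ξ))
        hf.aemeasurable.ennreal_ofReal (ENNReal.ofReal c)
      rw [← ofReal_integral_eq_lintegral_ofReal hf
        (Filter.Eventually.of_forall fun ξ => (h0 ξ).trans (h3 ξ))] at h5
      rw [zero_add, ← ENNReal.ofReal_coe_nnreal]
      refine le_trans (mul_le_mul_right (measure_mono fun ξ hξ => ?_) _)
        (h5.trans (ENNReal.ofReal_le_ofReal h4))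
      exact ENNReal.ofReal_le_ofReal (le_trans hξ (h3 ξ))
    rw [nonpos_iff_eq_zero, mul_eq_zero] at h2
    exact h2.resolve_left (ENNReal.ofReal_pos.2 hc).ne'
  rw [ae_iff]
  refine measure_mono_null (fun ξ hξ => ?_)
    (measure_iUnion_null fun n : ℕ => h1 (1 / ((n : ℝ) + 1)) Nat.one_div_pos_of_nat)
  obtain ⟨n, hn⟩ := exists_nat_one_div_lt (not_le.1 hξ)
  exact mem_iUnion.2 ⟨n, hn.le⟩

theorem rigid1_small [SFinite μ] (hE : Module.finrank ℝ E = 5) (hP : Pack G L) (D : Dom E μ)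
    (hV : vol G D.Ω = om E) (hA : D.area G = 5 * om E) {ε : ℝ} (hε : 0 < ε) :
    ∃ f : X → ℝ, Integrable f μ ∧ (∀ ξ, Qc G L D.Ω (D.p ξ) (D.N ξ) -
      (-om E * ad (G (D.p ξ)) (D.N ξ) + 2 * Fl G L D.Ω (D.p ξ) (D.N ξ)) ≤ f ξ) ∧
      ∫ ξ, f ξ ∂μ ≤ ε := by
  have ho : 0 < om E := om_pos
  obtain ⟨c, hc, hΩ⟩ := hP.exists_level D
  obtain ⟨η, hη, e1⟩ := exists_pos_mul_lt (show 0 < ε / 3 by positivity) (5 * om E)
  obtain ⟨C, τ₀, hC, hτ₀, hs⟩ := hP.step (μ := μ) hE hc hη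
  obtain ⟨θ, hθ, e2⟩ := exists_pos_mul_lt (show 0 < ε / 3 by positivity) (C * (5 * om E) + C)
  obtain ⟨δ, hδ, hδ', ht⟩ := prof_taylor ho hθ
  obtain ⟨τ₁, hτ₁, e3⟩ := exists_pos_mul_lt hδ (C * (5 * om E) + C)
  obtain ⟨τ₂, hτ₂, e4⟩ := exists_pos_mul_lt (show 0 < ε / 3 by positivity) (4 * C + C * (5 * om E))
  obtain ⟨τ, hτ, t0, t1, t2, t3⟩ : ∃ τ : ℝ, 0 < τ ∧ τ ≤ τ₀ ∧ τ ≤ 1 ∧ τ ≤ τ₁ ∧ τ ≤ τ₂ :=
    ⟨min (min τ₀ 1) (min τ₁ τ₂), by positivity, (min_le_left _ _).trans (min_le_left _ _),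
      (min_le_left _ _).trans (min_le_right _ _), (min_le_right _ _).trans (min_le_left _ _),
      (min_le_right _ _).trans (min_le_right _ _)⟩
  obtain ⟨D', t, -, h1, h2, h3, h4⟩ := hs D hΩ τ hτ t0
  have ia := D.integrable_ad hP.loc
  have ia' := D'.integrable_ad hP.loc
  obtain ⟨iF, hF⟩ := hP.flux hE D
  have hT : |∫ ξ, t ξ ∂μ| ≤ C * (5 * om E) := by
    rw [← hA, Dom.area, ← integral_const_mul]
    exact norm_integral_le_of_norm_le (f := t) (ia.const_mul C) (Filter.Eventually.of_forall h2)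
  have i1 : Integrable (fun ξ => (τ⁻¹ + 2 * om E + η + C * τ) * ad (G (D.p ξ)) (D.N ξ) -
      τ⁻¹ * ad (G (D'.p ξ)) (D'.N ξ)) μ := (ia.const_mul _).sub (ia'.const_mul _)
  have i2 : Integrable (fun ξ => 4 * t ξ + 2 * Fl G L D.Ω (D.p ξ) (D.N ξ)) μ :=
    (h1.const_mul 4).add (iF.const_mul 2)
  refine ⟨fun ξ => ((τ⁻¹ + 2 * om E + η + C * τ) * ad (G (D.p ξ)) (D.N ξ) -
    τ⁻¹ * ad (G (D'.p ξ)) (D'.N ξ)) - (4 * t ξ + 2 * Fl G L D.Ω (D.p ξ) (D.N ξ)), i1.sub i2,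
    fun ξ => ?_, ?_⟩
  · have h5 := mul_le_mul_of_nonneg_left (h4 ξ) (inv_pos.2 hτ).le
    have h6 : τ⁻¹ * τ = 1 := inv_mul_cancel₀ hτ.ne'
    rw [hV] at h5
    beta_reduce
    generalize ad (G (D.p ξ)) (D.N ξ) = a at *
    generalize Qc G L D.Ω (D.p ξ) (D.N ξ) = Q at *
    have h7 : τ⁻¹ * (a - τ * (4 * t ξ - a * om E + Q - η * a) + C * τ ^ 2 * a) =
        τ⁻¹ * a - (4 * t ξ - a * om E + Q - η * a) + C * τ * a := by
      field_simp
    rw [h7] at h5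
    linarith
  · beta_reduce
    rw [integral_sub i1 i2, integral_sub (ia.const_mul _) (ia'.const_mul _),
      integral_add (h1.const_mul 4) (iF.const_mul 2), integral_const_mul, integral_const_mul,
      integral_const_mul, integral_const_mul, hF, hV]
    change _ * D.area G - τ⁻¹ * D'.area G - _ ≤ ε
    have h5 := hP.ineq hE D'
    rw [hV] at h3
    generalize ∫ ξ, t ξ ∂μ = T at *
    have h6 : |T + C * τ| ≤ C * (5 * om E) + C := (abs_add_le _ _).trans (add_le_add hT (by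
      rw [abs_of_pos (by positivity)]
      exact mul_le_of_le_one_right hC.le t1))
    have h7 : |τ * (T + C * τ)| ≤ δ := by
      rw [abs_mul, abs_of_pos hτ, mul_comm]
      exact (mul_le_mul h6 t2 hτ.le (by positivity)).trans e3.le
    have h8 := ht (om E) _ (by simpa using hδ.le) h7
    have h9 := prof_mono (V := om E - τ * (T + C * τ)) (W := vol G D'.Ω) ho
      (by linarith [(abs_le.1 h7).2]) (by linarith)
    rw [prof_self ho, abs_mul, abs_of_pos hτ] at h8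
    have k1 := mul_le_mul_of_nonneg_left (h8.trans (h9.trans h5)) (inv_pos.2 hτ).le
    have k2 : τ⁻¹ * (5 * om E - 4 * (τ * (T + C * τ)) - θ * (τ * |T + C * τ|)) =
        τ⁻¹ * (5 * om E) - 4 * (T + C * τ) - θ * |T + C * τ| := by
      field_simp
    have k3 := mul_le_mul_of_nonneg_left h6 hθ.le
    have k4 := mul_le_mul_of_nonneg_left t3 (show 0 ≤ 4 * C + C * (5 * om E) by positivity)
    rw [k2] at k1
    rw [hA]
    linarith

theorem Pack.rigid_pt [SFinite μ] (hE : Module.finrank ℝ E = 5) (hP : Pack G L) (D : Dom E μ)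
    (hV : vol G D.Ω = om E) (hA : D.area G = 5 * om E) :
    ∃ ξ, D.N ξ ≠ 0 ∧ Qc G L D.Ω (D.p ξ) (D.N ξ) ≤
      -om E * ad (G (D.p ξ)) (D.N ξ) + 2 * Fl G L D.Ω (D.p ξ) (D.N ξ) := by
  by_contra hn
  have h1 := rigid1_ae (μ := μ) (fun ξ => sub_nonneg.2
    (hP.Qc_ge hE D.isOpen.measurableSet D.bdd (D.p ξ) (D.N ξ)))
    fun ε hε => rigid1_small hE hP D hV hA hε
  have h2 : D.area G = 0 := by
    refine integral_eq_zero_of_ae (h1.mono fun ξ hξ => ?_)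
    have h3 : D.N ξ = 0 := by
      by_contra h4
      exact hn ⟨ξ, h4, sub_nonpos.1 hξ⟩
    simp only [h3, ad_zero, Pi.zero_apply]
  linarith [om_pos (E := E)]

end Vale.Agent.P219
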