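import Vale.Agent.P219.Piola

/-!
# Transport of domains  (TASK)

`isOpenMap`: inverse function theorem (`isOpenMap_of_hasStrictFDerivAt_equiv`, `isInvertible_of_det`).
`integral_image`, `integrableOn_image`: `integral_image_eq_integral_abs_det_fderiv_smul`,
`integrableOn_image_iff_integrableOn_abs_det_fderiv_smul`.  `exists_push`: `D.div (pio Φ Z)` with `dvg_pio`; the map
`y ↦ (N ↦ cof (fderiv Φ y) N)` is continuous, hence bounded on the compact set `closure D.Ω`; `Φ (p ξ)` is in
`closure (Φ '' Ω)` by continuity and not in the open set `Φ '' Ω` by injectivity.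
-/

namespace Vale.Agent.P219

open scoped ContDiff Topology RealInnerProductSpace
open MeasureTheory Set Vale.Agent.P255

variable {E : Type*} [NormedAddCommGroup E] [InnerProductSpace ℝ E] [FiniteDimensional ℝ E]
  [MeasurableSpace E] [BorelSpace E]
  {X : Type*} [MeasurableSpace X] {μ : Measure X}

omit [MeasurableSpace E] [BorelSpace E] in
theorem Diffeo.isOpenMap {Φ : E → E} (hΦ : Diffeo Φ) : IsOpenMap Φ := by
  have := FiniteDimensional.complete ℝ E
  choose e he using fun y => isInvertible_of_det (hΦ.det_ne y)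
  refine isOpenMap_of_hasStrictFDerivAt_equiv (𝕜 := ℝ) (f' := e) fun y => ?_
  rw [he]
  exact hΦ.smooth.contDiffAt.hasStrictFDerivAt (by simp)

omit [FiniteDimensional ℝ E] [MeasurableSpace E] [BorelSpace E] in
theorem push_deriv {Φ : E → E} (hΦ : Diffeo Φ) (S : Set E) :
    ∀ y ∈ S, HasFDerivWithinAt Φ (fderiv ℝ Φ y) S y := fun y _ =>
  (hΦ.smooth.differentiable (by simp) y).hasFDerivAt.hasFDerivWithinAt

theorem Diffeo.integral_image {Φ : E → E} (hΦ : Diffeo Φ) {S : Set E} (hS : MeasurableSet S)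
    (f : E → ℝ) : ∫ x in Φ '' S, f x = ∫ y in S, |(fderiv ℝ Φ y).det| * f (Φ y) :=
  integral_image_eq_integral_abs_det_fderiv_smul volume hS (push_deriv hΦ S) hΦ.inj.injOn f

theorem Diffeo.integrableOn_image {Φ : E → E} (hΦ : Diffeo Φ) {S : Set E} (hS : MeasurableSet S)
    (f : E → ℝ) :
    IntegrableOn f (Φ '' S) ↔ IntegrableOn (fun y => |(fderiv ℝ Φ y).det| * f (Φ y)) S :=
  integrableOn_image_iff_integrableOn_abs_det_fderiv_smul volume hS (push_deriv hΦ S)
    hΦ.inj.injOn f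

theorem Diffeo.measurableSet_image {Φ : E → E} (hΦ : Diffeo Φ) {S : Set E}
    (hS : MeasurableSet S) : MeasurableSet (Φ '' S) :=
  measurable_image_of_fderivWithin hS (push_deriv hΦ S) hΦ.inj.injOn

theorem Diffeo.integral_dvg {Φ Z : E → E} (hΦ : Diffeo Φ) {S : Set E} (hS : MeasurableSet S)
    (hZ : ContDiff ℝ 1 Z) : ∫ x in Φ '' S, dvg Z x = ∫ y in S, dvg (pio Φ Z) y := by
  simp only [hΦ.integral_image hS, dvg_pio hΦ hZ]

omit [MeasurableSpace E] [BorelSpace E] in
theorem push_cont {Φ : E → E} (hΦ : Diffeo Φ) :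
    Continuous fun y => |(fderiv ℝ Φ y).det| • (fderiv ℝ Φ y).inverse := by
  have := FiniteDimensional.complete ℝ E
  have h1 : Continuous (fderiv ℝ Φ) := hΦ.smooth.continuous_fderiv (by simp)
  refine ((ContinuousLinearMap.continuous_det.comp h1).abs).smul
    (continuous_iff_continuousAt.2 fun y => ?_)
  exact ((isInvertible_of_det (hΦ.det_ne y)).contDiffAt_map_inverse
    (n := 0)).continuousAt.comp h1.continuousAt

theorem Dom.exists_push (D : Dom E μ) {Φ : E → E} (hΦ : Diffeo Φ) :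
    ∃ D' : Dom E μ, D'.Ω = Φ '' D.Ω ∧ (∀ ξ, D'.p ξ = Φ (D.p ξ)) ∧
      ∀ ξ, D'.N ξ = cof (fderiv ℝ Φ (D.p ξ)) (D.N ξ) := by
  have hc := hΦ.smooth.continuous
  have ho := hΦ.isOpenMap _ D.isOpen
  refine ⟨⟨Φ '' D.Ω, fun ξ => Φ (D.p ξ), fun ξ => cof (fderiv ℝ Φ (D.p ξ)) (D.N ξ), ho,
    (D.isCompact_closure.image hc).isBounded.subset (image_mono subset_closure),
    hc.measurable.comp D.p_meas, fun ξ => ?_, ?_, fun Z hZ => ?_⟩, rfl, fun _ => rfl, fun _ => rfl⟩
  · have h := D.p_mem ξ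
    rw [D.isOpen.frontier_eq] at h
    rw [ho.frontier_eq]
    exact ⟨image_closure_subset_closure_image hc (mem_image_of_mem _ h.1),
      fun h' => h.2 (hΦ.inj.mem_set_image.1 h')⟩
  · obtain ⟨C, hC⟩ := D.isCompact_closure.exists_bound_of_continuousOn (push_cont hΦ).continuousOn
    have e : (fun ξ => cof (fderiv ℝ Φ (D.p ξ)) (D.N ξ)) = fun ξ =>
        (D.N ξ).comp (|(fderiv ℝ Φ (D.p ξ)).det| • (fderiv ℝ Φ (D.p ξ)).inverse) := by
      funext ξ
      rw [cof, ContinuousLinearMap.comp_smul]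
    rw [e]
    refine (D.N_int.norm.mul_const C).mono' ?_ (ae_of_all _ fun ξ => ?_)
    · exact (continuous_fst.clm_comp ((push_cont hΦ).comp continuous_snd)).comp_aestronglyMeasurable
        (D.N_int.1.prodMk D.p_meas.aestronglyMeasurable)
    · exact (ContinuousLinearMap.opNorm_comp_le _ _).trans (mul_le_mul_of_nonneg_left
        (hC _ (frontier_subset_closure (D.p_mem ξ))) (norm_nonneg _))
  · rw [hΦ.integral_dvg D.isOpen.measurableSet hZ, D.div _ (contDiff_pio hΦ hZ)]
    simp only [pio, cof, map_smul, smul_apply, ContinuousLinearMap.comp_apply]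

end Vale.Agent.P219
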