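import Vale.Agent.P219.Half
import Vale.Agent.P219.Push
import Vale.Agent.P219.LinAlg2

/-!
# Divergence theorem and area element in a patch  (TASK)

`div`: `dvg Z` vanishes off `tsupport Z ⊆ U`, and `Ω ∩ U = Θ '' {y 0 < 0} ∩ U`; `Diffeo.integral_dvg`, then `half_div` for `pio Θ Z` (`contDiff_pio`; its support lies in
the compact set `Θ' '' tsupport Z`).  `ad_pN`: `ad_cof`, `ad_basis` with `EuclideanSpace.basisFun`, `emb_single`, chain rule.
`trans`: `τ = prj ∘ Θ₂' ∘ Θ₁ ∘ emb` satisfies `Θ₂ (emb (τ z)) = Θ₁ (emb z)` on the open set `O = (Θ₁ ∘ emb) ⁻¹' (U₁ ∩ U₂)` (`fr` twice, `emb_prj`), maps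
`(Θ₁ ∘ emb) ⁻¹' T` bijectively onto `(Θ₂ ∘ emb) ⁻¹' T`, and `gram G (Θ₁ ∘ emb) z = |det (fderiv τ z)| gram G (Θ₂ ∘ emb) (τ z)` (`wt_basis`, `wt_comp` on `Euc 4`
for the form `(G y).bilinearComp B B`); `lintegral_image_eq_lintegral_abs_det_fderiv_mul`.
-/

namespace Vale.Agent.P219

open scoped ContDiff Topology RealInnerProductSpace ENNReal
open MeasureTheory Set Vale.Agent.P255

variable {Ω : Set (Euc 5)} {G : Euc 5 → Bil (Euc 5)}
  {Θ Θ' : Euc 5 → Euc 5} {U : Set (Euc 5)}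

theorem patchdiv_chain {F F' : Euc 5 → Euc 5} (hF : ContDiff ℝ ∞ F) (hF' : ContDiff ℝ ∞ F')
    (hl : ∀ y, F' (F y) = y) (y : Euc 5) :
    (fderiv ℝ F' (F y)).comp (fderiv ℝ F y) = ContinuousLinearMap.id ℝ (Euc 5) := by
  have h1 : DifferentiableAt ℝ F y := (hF.differentiable (by simp)).differentiableAt
  have h2 : DifferentiableAt ℝ F' (F y) := (hF'.differentiable (by simp)).differentiableAt
  rw [← fderiv_comp y h2 h1]
  have : F' ∘ F = id := funext hl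
  rw [this, fderiv_id]

theorem patchdiv_inverse (h : Patch Ω Θ Θ' U) (y : Euc 5) :
    (fderiv ℝ Θ y).inverse = fderiv ℝ Θ' (Θ y) := by
  refine ContinuousLinearMap.inverse_eq ?_ (patchdiv_chain h.smooth h.smooth' h.left y)
  have := patchdiv_chain h.smooth' h.smooth h.right (Θ y)
  rwa [h.left] at this

theorem patchdiv_fderiv (h : Patch Ω Θ Θ' U) (z : Euc 4) :
    fderiv ℝ (fun z => Θ (emb z)) z = (fderiv ℝ Θ (emb z)).comp emb := by
  have h1 : DifferentiableAt ℝ Θ (emb z) := (h.smooth.differentiable (by simp)).differentiableAt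
  exact (h1.hasFDerivAt.comp z emb.hasFDerivAt).fderiv

theorem patchdiv_gram (G : Euc 5 → Bil (Euc 5)) (ψ : Euc 4 → Euc 5) (z : Euc 4) :
    gram G ψ z = wt ((G (ψ z)).bilinearComp (fderiv ℝ ψ z) (fderiv ℝ ψ z)) := by
  rw [wt_basis (EuclideanSpace.basisFun (Fin 4) ℝ), gram]
  simp only [ContinuousLinearMap.bilinearComp_apply, EuclideanSpace.basisFun_apply]

theorem patchdiv_tr {Θ₁ Θ₁' Θ₂ Θ₂' : Euc 5 → Euc 5} {U₁ U₂ : Set (Euc 5)}
    (h₁ : Patch Ω Θ₁ Θ₁' U₁) (h₂ : Patch Ω Θ₂ Θ₂' U₂) {z : Euc 4} (hz : Θ₁ (emb z) ∈ U₁ ∩ U₂) :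
    Θ₂ (emb (prj (Θ₂' (Θ₁ (emb z))))) = Θ₁ (emb z) := by
  have h0 : Θ₁ (emb z) ∈ frontier Ω := by
    rw [h₁.fr _ hz.1, h₁.left, emb_zero]
  rw [emb_prj ((h₂.fr _ hz.2).1 h0), h₂.right]

theorem Patch.diffeo (h : Patch Ω Θ Θ' U) : Diffeo Θ := by
  refine ⟨h.smooth.of_le (by decide), Function.LeftInverse.injective h.left,
    fun y => det_ne_of_injective ?_⟩
  have hc := patchdiv_chain h.smooth h.smooth' h.left y
  refine Function.LeftInverse.injective (g := fderiv ℝ Θ' (Θ y)) fun v => ?_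
  exact congrArg (fun A : Euc 5 →L[ℝ] Euc 5 => A v) hc

theorem Patch.continuous_pN (h : Patch Ω Θ Θ' U) : Continuous (pN Θ) := by
  have e : pN Θ = fun z => |(fderiv ℝ Θ (emb z)).det| •
      (EuclideanSpace.proj 0 : Euc 5 →L[ℝ] ℝ).comp (fderiv ℝ Θ' (Θ (emb z))) := by
    funext z
    rw [pN, cof, patchdiv_inverse h]
  rw [e]
  have c1 : Continuous fun z : Euc 4 => fderiv ℝ Θ (emb z) :=
    (h.smooth.continuous_fderiv (by simp)).comp emb.continuous
  have c2 : Continuous fun z : Euc 4 => fderiv ℝ Θ' (Θ (emb z)) :=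
    (h.smooth'.continuous_fderiv (by simp)).comp (h.smooth.continuous.comp emb.continuous)
  exact (ContinuousLinearMap.continuous_det.comp c1).abs.smul (continuous_const.clm_comp c2)

theorem Patch.div (h : Patch Ω Θ Θ' U) (hΩ : IsOpen Ω) {Z : Euc 5 → Euc 5} (hZ : ContDiff ℝ 1 Z)
    (hs : tsupport Z ⊆ U) : ∫ y in Ω, dvg Z y = ∫ z : Euc 4, pN Θ z (Z (Θ (emb z))) := by
  have hH : MeasurableSet {y : Euc 5 | y 0 < 0} :=
    (isOpen_lt (EuclideanSpace.proj (0 : Fin 5) : Euc 5 →L[ℝ] ℝ).continuous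
      continuous_const).measurableSet
  have him : ∀ y, y ∈ Θ '' {y : Euc 5 | y 0 < 0} ↔ Θ' y 0 < 0 := by
    intro y
    constructor
    · rintro ⟨x, hx, rfl⟩
      rw [h.left]
      exact hx
    · intro hy
      exact ⟨Θ' y, hy, h.right y⟩
  have e1 : ∫ y in Ω, dvg Z y = ∫ y in Θ '' {y : Euc 5 | y 0 < 0}, dvg Z y := by
    rw [← integral_indicator hΩ.measurableSet,
      ← integral_indicator (h.diffeo.measurableSet_image hH)]
    congr 1
    funext y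
    by_cases hy : y ∈ U
    · by_cases hy' : y ∈ Ω
      · rw [indicator_of_mem hy', indicator_of_mem ((him y).2 ((h.mem y hy).1 hy'))]
      · rw [indicator_of_notMem hy',
          indicator_of_notMem fun h' => hy' ((h.mem y hy).2 ((him y).1 h'))]
    · have h0 : dvg Z y = 0 := by
        have hn : y ∉ tsupport Z := fun h' => hy (hs h')
        have : fderiv ℝ Z y = 0 := by
          rw [(notMem_tsupport_iff_eventuallyEq.1 hn).fderiv_eq]
          simp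
        rw [dvg, this]
        simp
      rw [indicator_apply_eq_zero.2 fun _ => h0, indicator_apply_eq_zero.2 fun _ => h0]
  have hK : IsCompact (tsupport Z) :=
    Metric.isCompact_of_isClosed_isBounded (isClosed_tsupport Z) (h.bdd.subset hs)
  have hc : HasCompactSupport (pio Θ Z) := by
    refine HasCompactSupport.intro (hK.image h.smooth'.continuous) fun y hy => ?_
    have : Z (Θ y) = 0 := by
      by_contra hne
      exact hy ⟨Θ y, subset_tsupport Z hne, h.left y⟩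
    rw [pio, this, map_zero, smul_zero]
  rw [e1, h.diffeo.integral_dvg hH hZ, half_div (contDiff_pio h.diffeo hZ) hc]
  congr 1

theorem Patch.ad_pN (h : Patch Ω Θ Θ' U) (hG : LocMetric G univ) (z : Euc 4) :
    ad (G (Θ (emb z))) (pN Θ z) = gram G (fun z => Θ (emb z)) z := by
  have hB := posB_of_loc hG (Θ (emb z))
  have hd := h.diffeo.det_ne (emb z)
  rw [pN, ad_cof hB hd, ad_basis (EuclideanSpace.basisFun (Fin 5) ℝ) (hB.comp hd), gram,
    patchdiv_fderiv h]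
  · simp only [ContinuousLinearMap.bilinearComp_apply, EuclideanSpace.basisFun_apply,
      ContinuousLinearMap.comp_apply, emb_single]
  · intro v
    rw [EuclideanSpace.basisFun_inner]
    rfl

theorem Patch.trans {Θ₁ Θ₁' Θ₂ Θ₂' : Euc 5 → Euc 5} {U₁ U₂ : Set (Euc 5)} (h₁ : Patch Ω Θ₁ Θ₁' U₁)
    (h₂ : Patch Ω Θ₂ Θ₂' U₂) {T : Set (Euc 5)} (hT : MeasurableSet T) (hU : T ⊆ U₁ ∩ U₂)
    (f : Euc 5 → ℝ≥0∞) :
    ∫⁻ z in (fun z => Θ₁ (emb z)) ⁻¹' T,
        f (Θ₁ (emb z)) * ENNReal.ofReal (gram G (fun z => Θ₁ (emb z)) z) =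
      ∫⁻ z in (fun z => Θ₂ (emb z)) ⁻¹' T,
        f (Θ₂ (emb z)) * ENNReal.ofReal (gram G (fun z => Θ₂ (emb z)) z) := by
  set τ : Euc 4 → Euc 4 := fun z => prj (Θ₂' (Θ₁ (emb z))) with hτ
  have hψ₁ : Differentiable ℝ fun z : Euc 4 => Θ₁ (emb z) :=
    (h₁.smooth.differentiable (by simp)).comp emb.differentiable
  have hψ₂ : Differentiable ℝ fun z : Euc 4 => Θ₂ (emb z) :=
    (h₂.smooth.differentiable (by simp)).comp emb.differentiable
  have hτd : Differentiable ℝ τ :=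
    prj.differentiable.comp ((h₂.smooth'.differentiable (by simp)).comp hψ₁)
  have hS : MeasurableSet ((fun z : Euc 4 => Θ₁ (emb z)) ⁻¹' T) :=
    hψ₁.continuous.measurable hT
  have him : (fun z : Euc 4 => Θ₂ (emb z)) ⁻¹' T = τ '' ((fun z : Euc 4 => Θ₁ (emb z)) ⁻¹' T) := by
    ext w
    constructor
    · intro hw
      have hw' : Θ₂ (emb w) ∈ U₂ ∩ U₁ := ⟨(hU hw).2, (hU hw).1⟩
      have e := patchdiv_tr h₂ h₁ hw'
      refine ⟨prj (Θ₁' (Θ₂ (emb w))), ?_, ?_⟩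
      · show Θ₁ (emb (prj (Θ₁' (Θ₂ (emb w))))) ∈ T
        rw [e]
        exact hw
      · show prj (Θ₂' (Θ₁ (emb (prj (Θ₁' (Θ₂ (emb w))))))) = w
        rw [e, h₂.left, prj_emb]
    · rintro ⟨z, hz, rfl⟩
      show Θ₂ (emb (prj (Θ₂' (Θ₁ (emb z))))) ∈ T
      rw [patchdiv_tr h₁ h₂ (hU hz)]
      exact hz
  have hinj : InjOn τ ((fun z : Euc 4 => Θ₁ (emb z)) ⁻¹' T) := by
    intro z hz z' hz' e
    have e1 := patchdiv_tr h₁ h₂ (hU hz)
    have e2 := patchdiv_tr h₁ h₂ (hU hz')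
    have e3 : Θ₁ (emb z) = Θ₁ (emb z') := by
      rw [← e1, ← e2]
      exact congrArg (fun w => Θ₂ (emb w)) e
    have e4 := h₁.diffeo.inj e3
    rw [← prj_emb z, e4, prj_emb]
  rw [him, lintegral_image_eq_lintegral_abs_det_fderiv_mul volume hS
    (fun x _ => (hτd x).hasFDerivAt.hasFDerivWithinAt) hinj]
  refine setLIntegral_congr_fun hS fun z hz => ?_
  have e1 : Θ₂ (emb (τ z)) = Θ₁ (emb z) := patchdiv_tr h₁ h₂ (hU hz)
  have hev : (fun z : Euc 4 => Θ₁ (emb z)) =ᶠ[𝓝 z] (fun z : Euc 4 => Θ₂ (emb z)) ∘ τ := by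
    have ho : IsOpen ((fun z : Euc 4 => Θ₁ (emb z)) ⁻¹' (U₁ ∩ U₂)) :=
      (h₁.isOpen.inter h₂.isOpen).preimage hψ₁.continuous
    filter_upwards [ho.mem_nhds (hU hz)] with x hx
    exact (patchdiv_tr h₁ h₂ hx).symm
  have hfd : fderiv ℝ (fun z : Euc 4 => Θ₁ (emb z)) z =
      (fderiv ℝ (fun z : Euc 4 => Θ₂ (emb z)) (τ z)).comp (fderiv ℝ τ z) := by
    rw [hev.fderiv_eq, fderiv_comp z (hψ₂ _) (hτd _)]
  have hg : gram G (fun z : Euc 4 => Θ₁ (emb z)) z =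
      |(fderiv ℝ τ z).det| * gram G (fun z : Euc 4 => Θ₂ (emb z)) (τ z) := by
    rw [patchdiv_gram, patchdiv_gram, ← wt_comp, hfd, e1]
    congr 1
  show _ = _ * (_ * _)
  rw [hg, e1, ENNReal.ofReal_mul (abs_nonneg _)]
  ring

end Vale.Agent.P219
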