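import Vale.Agent.P219.Patch
import Vale.Agent.P219.PatchDiv

/-!
# The boundary data of a smooth domain  (TASK)

`exists_cover`: finitely many patches cover the compact frontier; a smooth partition of unity subordinate to `Ω, U 1, …, U k` on the closed set `closure Ω`
(`SmoothPartitionOfUnity.exists_isSubordinate` with index type `Option (Fin k)`, or `exists_contDiff_sum_one`-type lemmas).
`exists_dom_of_cover`: `N (i, z) = χ i (Θ i (emb z)) • pN (Θ i) z`, `p (i, z) = Θ i (emb z)` if this point is in `U i` and a fixed frontier point otherwise (the frontier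
of a nonempty bounded set is nonempty); each `N (i, ·)` is continuous with compact support.  On `Ω` one has `Z = χ₀ • Z + ∑ χ i • Z` (`dvg_sum`),
`integral_dvg_zero` for `χ₀ • Z`, `Patch.div` for the others; `integral_prod`, `integral_count` / `integrable_prod_iff`.  The area formula is `ad_smul`, `Patch.ad_pN`.
-/

namespace Vale.Agent.P219

open scoped ContDiff Topology RealInnerProductSpace ENNReal
open MeasureTheory Set Vale.Agent.P255

variable {Ω : Set (Euc 5)} {G : Euc 5 → Bil (Euc 5)}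

/-- Patches covering the boundary with a subordinate partition of unity. -/
structure Cover (Ω : Set (Euc 5)) {k : ℕ} (Θ Θ' : Fin k → Euc 5 → Euc 5)
    (U : Fin k → Set (Euc 5)) (χ₀ : Euc 5 → ℝ) (χ : Fin k → Euc 5 → ℝ) : Prop where
  patch : ∀ i, Patch Ω (Θ i) (Θ' i) (U i)
  smooth₀ : ContDiff ℝ ∞ χ₀
  smooth : ∀ i, ContDiff ℝ ∞ (χ i)
  supp₀ : tsupport χ₀ ⊆ Ω
  supp : ∀ i, tsupport (χ i) ⊆ U i
  nonneg₀ : ∀ y, 0 ≤ χ₀ y
  nonneg : ∀ i y, 0 ≤ χ i y
  sum : ∀ y ∈ closure Ω, χ₀ y + ∑ i, χ i y = 1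

theorem EDom.exists_cover (h : EDom Ω) :
    ∃ (k : ℕ) (Θ Θ' : Fin k → Euc 5 → Euc 5) (U : Fin k → Set (Euc 5)) (χ₀ : Euc 5 → ℝ)
      (χ : Fin k → Euc 5 → ℝ), Cover Ω Θ Θ' U χ₀ χ := by
  classical
  have hc : IsCompact (frontier Ω) :=
    h.bdd.isCompact_closure.of_isClosed_subset isClosed_frontier frontier_subset_closure
  choose Θ Θ' U hP hU using fun (p : Euc 5) (hp : p ∈ frontier Ω) => h.exists_patch hp
  obtain ⟨t, ht⟩ := hc.elim_nhds_subcover' U fun p hp => (hP p hp).isOpen.mem_nhds (hU p hp)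
  let e : Fin t.card → frontier Ω := fun i => (t.equivFin.symm i : frontier Ω)
  let V : Option (Fin t.card) → Set (Euc 5) := fun o => o.elim Ω fun i => U (e i) (e i).2
  obtain ⟨f, hf⟩ := SmoothPartitionOfUnity.exists_isSubordinate (modelWithCornersSelf ℝ (Euc 5))
    (isClosed_closure (s := Ω)) V (by
      rintro (_ | i)
      · exact h.isOpen
      · exact (hP _ _).isOpen) (by
      intro y hy
      rw [closure_eq_self_union_frontier] at hy
      rcases hy with hy | hy
      · exact mem_iUnion.2 ⟨none, hy⟩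
      · obtain ⟨x, hx, hy'⟩ := mem_iUnion₂.1 (ht hy)
        refine mem_iUnion.2 ⟨some (t.equivFin ⟨x, hx⟩), ?_⟩
        have he : e (t.equivFin ⟨x, hx⟩) = x := by simp [e]
        change y ∈ (fun x : frontier Ω => U x x.2) (e (t.equivFin ⟨x, hx⟩))
        rw [he]
        exact hy')
  refine ⟨t.card, fun i => Θ (e i) (e i).2, fun i => Θ' (e i) (e i).2, fun i => U (e i) (e i).2,
    f none, fun i => f (some i), fun i => hP _ _, (f none).contMDiff.contDiff,
    fun i => (f (some i)).contMDiff.contDiff, hf none, fun i => hf (some i),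
    fun y => f.nonneg _ _, fun i y => f.nonneg _ _, fun y hy => ?_⟩
  have h1 := f.sum_eq_one hy
  rwa [finsum_eq_sum_of_fintype, Fintype.sum_option] at h1

theorem init_int {k : ℕ} {V : Type*} [NormedAddCommGroup V] [NormedSpace ℝ V] [CompleteSpace V]
    [SecondCountableTopology V] {F : Fin k → Euc 4 → V} (hF : ∀ i, Continuous (F i))
    (hc : ∀ i, HasCompactSupport (F i)) :
    Integrable (fun ξ : Fin k × Euc 4 => F ξ.1 ξ.2)
      ((Measure.count : Measure (Fin k)).prod volume) ∧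
    ∫ ξ : Fin k × Euc 4, F ξ.1 ξ.2 ∂((Measure.count : Measure (Fin k)).prod volume) =
      ∑ i, ∫ z, F i z := by
  have h1 : Continuous fun ξ : Fin k × Euc 4 => F ξ.1 ξ.2 :=
    continuous_prod_of_discrete_left.2 hF
  have h2 : Integrable (fun ξ : Fin k × Euc 4 => F ξ.1 ξ.2)
      ((Measure.count : Measure (Fin k)).prod volume) :=
    (integrable_prod_iff h1.aestronglyMeasurable).2
      ⟨Filter.Eventually.of_forall fun i => (hF i).integrable_of_hasCompactSupport (hc i),
        Integrable.of_finite⟩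
  exact ⟨h2, by rw [integral_prod _ h2, integral_count]⟩

theorem init_supp {Θ Θ' : Euc 5 → Euc 5} {U : Set (Euc 5)} (h : Patch Ω Θ Θ' U)
    {χ : Euc 5 → ℝ} (hs : tsupport χ ⊆ U) {V : Type*} [Zero V] {F : Euc 4 → V}
    (hF : ∀ z, χ (Θ (emb z)) = 0 → F z = 0) : HasCompactSupport F := by
  have h1 : IsCompact (tsupport χ) :=
    Metric.isCompact_of_isClosed_isBounded (isClosed_tsupport χ) (h.bdd.subset hs)
  refine HasCompactSupport.intro
    ((h1.image h.smooth'.continuous).image prj.continuous) fun z hz => hF z ?_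
  by_contra hne
  exact hz ⟨emb z, ⟨Θ (emb z), subset_tsupport χ hne, h.left _⟩, prj_emb z⟩

theorem init_div {k : ℕ} {Θ Θ' : Fin k → Euc 5 → Euc 5} {U : Fin k → Set (Euc 5)}
    {χ₀ : Euc 5 → ℝ} {χ : Fin k → Euc 5 → ℝ} (hC : Cover Ω Θ Θ' U χ₀ χ) (h : EDom Ω)
    {Z : Euc 5 → Euc 5} (hZ : ContDiff ℝ 1 Z) : ∫ y in Ω, dvg Z y =
      ∑ i, ∫ z : Euc 4, pN (Θ i) z (χ i (Θ i (emb z)) • Z (Θ i (emb z))) := by
  let W : Option (Fin k) → Euc 5 → Euc 5 := fun o y => (o.elim χ₀ χ) y • Z y
  have hW : ∀ o, ContDiff ℝ 1 (W o) := by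
    rintro (_ | i)
    · exact (hC.smooth₀.of_le (by simp)).smul hZ
    · exact ((hC.smooth i).of_le (by simp)).smul hZ
  have h1 : ∀ y ∈ Ω, dvg Z y = ∑ o, dvg (W o) y := fun y hy => by
    rw [← dvg_sum _ fun o _ => ((hW o).differentiable one_ne_zero).differentiableAt]
    have h2 : Z =ᶠ[𝓝 y] fun x => ∑ o, W o x := by
      filter_upwards [h.isOpen.mem_nhds hy] with x hx
      simp only [W, ← Finset.sum_smul, Fintype.sum_option, Option.elim_none, Option.elim_some,
        hC.sum x (subset_closure hx), one_smul]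
    rw [dvg, dvg, h2.fderiv_eq]
  have h2 : ∀ o, IntegrableOn (dvg (W o)) Ω := fun o =>
    ((continuous_dvg (hW o)).continuousOn.integrableOn_compact
      h.bdd.isCompact_closure).mono_set subset_closure
  have h3 : tsupport (W none) ⊆ Ω := (tsupport_smul_subset_left χ₀ Z).trans hC.supp₀
  have h4 : ∫ y in Ω, dvg (W none) y = 0 := by
    rw [setIntegral_eq_integral_of_forall_compl_eq_zero fun y hy => by
      rw [dvg, fderiv_of_notMem_tsupport ℝ fun hy' => hy (h3 hy')]
      simp]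
    exact integral_dvg_zero (hW none)
      (Metric.isCompact_of_isClosed_isBounded (isClosed_tsupport _) (h.bdd.subset h3))
  rw [setIntegral_congr_fun h.isOpen.measurableSet h1, integral_finsetSum _ fun o _ => h2 o,
    Fintype.sum_option, h4, zero_add]
  exact Finset.sum_congr rfl fun i _ => (hC.patch i).div h.isOpen (hW (some i))
    ((tsupport_smul_subset_left (χ i) Z).trans (hC.supp i))

theorem Cover.exists_dom {k : ℕ} {Θ Θ' : Fin k → Euc 5 → Euc 5} {U : Fin k → Set (Euc 5)}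
    {χ₀ : Euc 5 → ℝ} {χ : Fin k → Euc 5 → ℝ} (hC : Cover Ω Θ Θ' U χ₀ χ) (h : EDom Ω)
    (hne : Ω.Nonempty) :
    ∃ D : Dom (Euc 5) ((Measure.count : Measure (Fin k)).prod (volume : Measure (Euc 4))),
      D.Ω = Ω ∧ ∀ G : Euc 5 → Bil (Euc 5), LocMetric G univ → ENNReal.ofReal (D.area G) =
        ∑ i, ∫⁻ z, ENNReal.ofReal (χ i (Θ i (emb z))) *
          ENNReal.ofReal (gram G (fun z => Θ i (emb z)) z) := by
  classical
  obtain ⟨p₀, hp₀⟩ : (frontier Ω).Nonempty := nonempty_frontier_iff.2 ⟨hne, fun e =>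
    NormedSpace.unbounded_univ ℝ (Euc 5) (e ▸ h.bdd)⟩
  have hq : ∀ i, Continuous fun z => Θ i (emb z) := fun i =>
    (hC.patch i).smooth.continuous.comp emb.continuous
  have hχ : ∀ i, Continuous fun z => χ i (Θ i (emb z)) := fun i =>
    (hC.smooth i).continuous.comp (hq i)
  have h0 : ∀ i y, y ∉ U i → χ i y = 0 := fun i y hy =>
    image_eq_zero_of_notMem_tsupport fun hy' => hy (hC.supp i hy')
  let p : Fin k × Euc 4 → Euc 5 := fun ξ =>
    if Θ ξ.1 (emb ξ.2) ∈ U ξ.1 then Θ ξ.1 (emb ξ.2) else p₀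
  let N : Fin k × Euc 4 → Euc 5 →L[ℝ] ℝ := fun ξ => χ ξ.1 (Θ ξ.1 (emb ξ.2)) • pN (Θ ξ.1) ξ.2
  have hp : Measurable p := measurable_from_prod_countable_right fun i =>
    Measurable.ite ((hq i).measurable (hC.patch i).isOpen.measurableSet) (hq i).measurable
      measurable_const
  have hm : ∀ ξ, p ξ ∈ frontier Ω := fun ξ => by
    simp only [p]
    split_ifs with hξ
    · rw [(hC.patch _).fr _ hξ, (hC.patch _).left, emb_zero]
    · exact hp₀
  have hN : Integrable N ((Measure.count : Measure (Fin k)).prod volume) :=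
    (init_int (F := fun i z => χ i (Θ i (emb z)) • pN (Θ i) z)
      (fun i => (hχ i).smul (hC.patch i).continuous_pN)
      fun i => init_supp (hC.patch i) (hC.supp i) fun z hz => by rw [hz, zero_smul]).1
  have hd : ∀ Z : Euc 5 → Euc 5, ContDiff ℝ 1 Z → ∫ y in Ω, dvg Z y =
      ∫ ξ, N ξ (Z (p ξ)) ∂((Measure.count : Measure (Fin k)).prod volume) := fun Z hZ => by
    rw [init_div hC h hZ, ← (init_int
      (F := fun i z => pN (Θ i) z (χ i (Θ i (emb z)) • Z (Θ i (emb z))))
      (fun i => (hC.patch i).continuous_pN.clm_apply ((hχ i).smul (hZ.continuous.comp (hq i))))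
      fun i => init_supp (hC.patch i) (hC.supp i) fun z hz => by
        rw [hz, zero_smul, map_zero]).2]
    refine integral_congr_ae (Filter.Eventually.of_forall fun ξ => ?_)
    simp only [N, p]
    split_ifs with hξ
    · rw [map_smul, smul_apply]
    · rw [h0 _ _ hξ, zero_smul, zero_smul, map_zero, zero_apply]
  refine ⟨⟨Ω, p, N, h.isOpen, h.bdd, hp, hm, hN, hd⟩, rfl, fun G hG => ?_⟩
  have hF : ∀ i, Continuous fun z => χ i (Θ i (emb z)) * ad (G (Θ i (emb z))) (pN (Θ i) z) :=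
    fun i => (hχ i).mul ((continuous_ad hG).comp ((hq i).prodMk (hC.patch i).continuous_pN))
  have hS : ∀ i, HasCompactSupport
      fun z => χ i (Θ i (emb z)) * ad (G (Θ i (emb z))) (pN (Θ i) z) :=
    fun i => init_supp (hC.patch i) (hC.supp i) fun z hz => by rw [hz, zero_mul]
  have hnn : ∀ i z, 0 ≤ χ i (Θ i (emb z)) * ad (G (Θ i (emb z))) (pN (Θ i) z) :=
    fun i z => mul_nonneg (hC.nonneg _ _) (ad_nonneg _ _)
  have h1 : ∫ ξ, ad (G (p ξ)) (N ξ) ∂((Measure.count : Measure (Fin k)).prod volume) =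
      ∑ i, ∫ z, χ i (Θ i (emb z)) * ad (G (Θ i (emb z))) (pN (Θ i) z) := by
    rw [← (init_int hF hS).2]
    refine integral_congr_ae (Filter.Eventually.of_forall fun ξ => ?_)
    simp only [N, p]
    rw [ad_smul (posB_of_loc hG _), abs_of_nonneg (hC.nonneg _ _)]
    split_ifs with hξ
    · rfl
    · rw [h0 _ _ hξ, zero_mul, zero_mul]
  change ENNReal.ofReal (∫ ξ, ad (G (p ξ)) (N ξ) ∂_) = _
  rw [h1, ENNReal.ofReal_sum_of_nonneg fun i _ => integral_nonneg (hnn i)]
  refine Finset.sum_congr rfl fun i _ => ?_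
  rw [ofReal_integral_eq_lintegral_ofReal ((hF i).integrable_of_hasCompactSupport (hS i))
    (Filter.Eventually.of_forall (hnn i))]
  refine lintegral_congr fun z => ?_
  rw [ENNReal.ofReal_mul (hC.nonneg _ _), (hC.patch i).ad_pN hG]

end Vale.Agent.P219
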