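import Vale.Agent.P219.Basic

/-!
# Linear algebra of a positive definite form  (TASK)

`exists_sqrt`: put the inner product `B` on a copy of `E` or diagonalise the symmetric operator
`hat B` (`LinearMap.IsSymmetric.eigenvectorBasis`, positive eigenvalues `λ i`; `P` multiplies the `i`-th
eigenvector by `√λ i`); then `hat B = P† P`, `det (hat B) = det P ^ 2` (`LinearMap.det_adjoint` or matrices in an
orthonormal basis).  More generally `hat (B.bilinearComp A A) = A† (hat B) A`.  `PosB.inv`: as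
`LocMetric.loc_inv` in `P255/Loc.lean`.  For `dn`: `w = B.inverse N` is the vector with `B w = N`
(`ContinuousLinearMap.IsInvertible.self_apply_inverse`), `dn ^ 2 = B w w`.  `ad_cof`: if `B' = B(A·, A·)` and
`B' w = N` then `B (A w) = N ∘ A⁻¹`.  `det_adj`: `hat B₁ ∘ A = (hat B₂ ∘ C)†`.
-/

namespace Vale.Agent.P219

open scoped ContDiff Topology RealInnerProductSpace
open MeasureTheory Set Vale.Agent.P255

variable {E : Type*} [NormedAddCommGroup E] [InnerProductSpace ℝ E] [FiniteDimensional ℝ E]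
  {B : Bil E}

theorem linalg_adj {T S : E →ₗ[ℝ] E} (h : ∀ u v, ⟪T u, v⟫ = ⟪u, S v⟫) :
    LinearMap.det T = LinearMap.det S := by
  let b := stdOrthonormalBasis ℝ E
  rw [← LinearMap.det_toMatrix b.toBasis, ← LinearMap.det_toMatrix b.toBasis S,
    ← Matrix.det_transpose]
  congr 1
  ext i j
  simp only [Matrix.transpose_apply, LinearMap.toMatrix_apply, OrthonormalBasis.coe_toBasis,
    OrthonormalBasis.coe_toBasis_repr_apply, OrthonormalBasis.repr_apply_apply]
  rw [real_inner_comm, h]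

theorem linalg_hat (T S : E →ₗ[ℝ] E) (h : ∀ u v, B u v = ⟪T u, S v⟫) :
    (hat B).det = LinearMap.det S * LinearMap.det T := by
  have h1 : (hat B : E →ₗ[ℝ] E) = LinearMap.adjoint S ∘ₗ T := by
    ext u
    refine ext_inner_right ℝ fun v => ?_
    rw [ContinuousLinearMap.coe_coe, inner_hat, LinearMap.comp_apply,
      LinearMap.adjoint_inner_left, h]
  rw [ContinuousLinearMap.det, h1, LinearMap.det_comp,
    linalg_adj fun u v => LinearMap.adjoint_inner_left S v u]

theorem exists_sqrt (hB : PosB B) : ∃ P : E ≃L[ℝ] E,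
    (∀ u v, B u v = ⟪P u, P v⟫) ∧ wt B = |(P : E →L[ℝ] E).det| := by
  have hT : (hat B : E →ₗ[ℝ] E).IsSymmetric := fun u v => by
    rw [ContinuousLinearMap.coe_coe, inner_hat, real_inner_comm, inner_hat, hB.1]
  let b := hT.eigenvectorBasis rfl
  let l := hT.eigenvalues rfl
  have hb : ∀ i j, B (b i) (b j) = l i * ⟪b i, b j⟫ := fun i j => by
    have := hT.apply_eigenvectorBasis rfl i
    rw [ContinuousLinearMap.coe_coe] at this
    rw [← inner_hat, this, RCLike.ofReal_real_eq_id, id, real_inner_smul_left]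
  have hl : ∀ i, 0 < l i := fun i => by
    have := hB.2 (b i) (b.orthonormal.ne_zero i)
    rwa [hb, b.inner_eq_one, mul_one] at this
  let P : E →ₗ[ℝ] E := b.toBasis.constr ℝ fun i => √(l i) • b i
  have hP : ∀ i, P (b i) = √(l i) • b i := fun i => b.toBasis.constr_basis ℝ _ i
  have h1 : B.toLinearMap₁₂ = (innerₗ E).compl₁₂ P P := by
    refine LinearMap.ext_basis b.toBasis b.toBasis fun i j => ?_
    simp only [ContinuousLinearMap.toLinearMap₁₂_apply_apply_apply, LinearMap.compl₁₂_apply,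
      innerₗ_apply_apply, OrthonormalBasis.coe_toBasis, hP, hb, real_inner_smul_left,
      real_inner_smul_right]
    by_cases e : i = j
    · subst e
      rw [← mul_assoc, Real.mul_self_sqrt (hl i).le]
    · rw [b.orthonormal.2 e, mul_zero, mul_zero, mul_zero]
  have h2 : ∀ u v, B u v = ⟪P u, P v⟫ := fun u v => LinearMap.congr_fun₂ h1 u v
  have h3 : Function.Injective P := (injective_iff_map_eq_zero P).2 fun u hu => by
    by_contra h0
    have := hB.2 u h0
    rw [h2, hu, inner_zero_left] at this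
    exact lt_irrefl _ this
  refine ⟨(LinearEquiv.ofInjectiveEndo P h3).toContinuousLinearEquiv, h2, ?_⟩
  rw [wt, linalg_hat P P h2, ← sq, Real.sqrt_sq_eq_abs]
  rfl

theorem PosB.nonneg (hB : PosB B) (u : E) : 0 ≤ B u u := by
  by_cases h : u = 0
  · simp [h]
  · exact (hB.2 u h).le

theorem PosB.sq_le (hB : PosB B) (u v : E) : B u v ^ 2 ≤ B u u * B v v := by
  obtain ⟨P, hP, -⟩ := exists_sqrt hB
  rw [hP, hP, hP, sq]
  exact real_inner_mul_inner_self_le _ _

theorem PosB.inv (hB : PosB B) : B.IsInvertible := by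
  have hd : Module.finrank ℝ E = Module.finrank ℝ (E →L[ℝ] ℝ) := by
    rw [← (LinearMap.toContinuousLinearMap (𝕜 := ℝ) (E := E) (F' := ℝ)).finrank_eq]
    simp
  have hi : Function.Injective (B : E →ₗ[ℝ] E →L[ℝ] ℝ) :=
    (injective_iff_map_eq_zero _).2 fun u hu => by
      by_contra h0
      have := hB.2 u h0
      rw [ContinuousLinearMap.coe_coe] at hu
      rw [hu] at this
      exact lt_irrefl _ this
  refine ⟨(LinearMap.linearEquivOfInjective _ hi hd).toContinuousLinearEquiv, ?_⟩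
  ext a b
  simp

theorem isInvertible_of_det {A : E →L[ℝ] E} (hA : A.det ≠ 0) : A.IsInvertible := by
  exact ⟨A.toContinuousLinearEquivOfDetNeZero hA, A.coe_toContinuousLinearEquivOfDetNeZero hA⟩

theorem det_ne_of_injective {A : E →L[ℝ] E} (hA : Function.Injective A) : A.det ≠ 0 := by
  exact (LinearEquiv.isUnit_det' (LinearEquiv.ofInjectiveEndo (A : E →ₗ[ℝ] E) hA)).ne_zero

theorem wt_pos (hB : PosB B) : 0 < wt B := by
  obtain ⟨P, -, hP⟩ := exists_sqrt hB
  rw [hP]
  exact abs_pos.2 (det_ne_of_injective P.injective)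

theorem wt_sq (hB : PosB B) : wt B ^ 2 = (hat B).det := by
  exact Real.sq_sqrt (Real.sqrt_pos.1 (wt_pos hB)).le

theorem PosB.comp (hB : PosB B) {A : E →L[ℝ] E} (hA : A.det ≠ 0) : PosB (B.bilinearComp A A) := by
  refine ⟨fun u v => hB.1 _ _, fun u hu => hB.2 _ fun h => hu ?_⟩
  rw [← (isInvertible_of_det hA).inverse_apply_self u, show A u = 0 from h, map_zero]

theorem wt_comp (B : Bil E) (A : E →L[ℝ] E) : wt (B.bilinearComp A A) = |A.det| * wt B := by
  have h := linalg_hat (B := B.bilinearComp A A) ((hat B : E →ₗ[ℝ] E) ∘ₗ (A : E →ₗ[ℝ] E)) A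
    fun u v => (inner_hat B (A u) (A v)).symm
  rw [wt, wt, h, LinearMap.det_comp, mul_comm (LinearMap.det (hat B : E →ₗ[ℝ] E)), ← mul_assoc,
    ← sq, Real.sqrt_mul (sq_nonneg _), Real.sqrt_sq_eq_abs]

theorem ad_nonneg (B : Bil E) (N : E →L[ℝ] ℝ) : 0 ≤ ad B N := by
  exact mul_nonneg (Real.sqrt_nonneg _) (Real.sqrt_nonneg _)

theorem ad_zero (B : Bil E) : ad B 0 = 0 := by
  simp [ad, dn]

theorem nu_spec (hB : PosB B) {N : E →L[ℝ] ℝ} (hN : N ≠ 0) :
    0 < dn B N ∧ B (nu B N) (nu B N) = 1 ∧ ∀ v, N v = dn B N * B (nu B N) v := by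
  have h1 := hB.inv.self_apply_inverse N
  have h2 : B.inverse N ≠ 0 := fun h => hN (by rw [← h1, h, map_zero])
  have h3 : 0 < N (B.inverse N) := by
    have := hB.2 _ h2
    rwa [h1] at this
  have h4 : 0 < dn B N := Real.sqrt_pos.2 h3
  have h5 : dn B N * dn B N = N (B.inverse N) := Real.mul_self_sqrt h3.le
  refine ⟨h4, ?_, fun v => ?_⟩
  · simp only [nu, map_smul, h1, smul_apply, smul_eq_mul, ← h5]
    field_simp
  · simp only [nu, map_smul, h1, smul_apply, smul_eq_mul]
    field_simp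

theorem abs_le_dn (hB : PosB B) (N : E →L[ℝ] ℝ) (v : E) : |N v| ≤ dn B N * √(B v v) := by
  have h1 := hB.inv.self_apply_inverse N
  have h2 := hB.sq_le (B.inverse N) v
  have h3 := hB.nonneg (B.inverse N)
  rw [h1] at h2 h3
  rw [dn, ← Real.sqrt_mul h3]
  exact Real.abs_le_sqrt h2

theorem ad_smul (hB : PosB B) (c : ℝ) (N : E →L[ℝ] ℝ) : ad B (c • N) = |c| * ad B N := by
  have _ := hB
  simp only [ad, dn, map_smul, smul_apply, smul_eq_mul]
  rw [← mul_assoc c, ← sq, Real.sqrt_mul (sq_nonneg _), Real.sqrt_sq_eq_abs, mul_assoc]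

theorem cof_apply {A : E →L[ℝ] E} (hA : A.det ≠ 0) (N : E →L[ℝ] ℝ) (v : E) :
    cof A N (A v) = |A.det| * N v := by
  simp only [cof, smul_apply, ContinuousLinearMap.comp_apply, smul_eq_mul,
    (isInvertible_of_det hA).inverse_apply_self]

theorem ad_cof (hB : PosB B) {A : E →L[ℝ] E} (hA : A.det ≠ 0) (N : E →L[ℝ] ℝ) :
    ad B (cof A N) = ad (B.bilinearComp A A) N := by
  have hI := isInvertible_of_det hA
  have h1 := (hB.comp hA).inv.self_apply_inverse N
  have h2 : B.inverse (N.comp A.inverse) = A ((B.bilinearComp A A).inverse N) := by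
    rw [hB.inv.inverse_apply_eq]
    ext v
    rw [ContinuousLinearMap.comp_apply]
    conv_lhs => rw [← h1]
    rw [ContinuousLinearMap.bilinearComp_apply, hI.self_apply_inverse]
  rw [cof, ad_smul hB, abs_abs, ad, ad, wt_comp, dn, dn, h2, ContinuousLinearMap.comp_apply,
    hI.inverse_apply_self]
  ring

theorem wt_scale (B : Bil E) {c : ℝ} (hc : 0 < c) :
    wt (c ^ 2 • B) = c ^ Module.finrank ℝ E * wt B := by
  have h : (hat (c ^ 2 • B) : E →ₗ[ℝ] E) = c ^ 2 • (hat B : E →ₗ[ℝ] E) := by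
    ext u
    simp [hat]
  rw [wt, wt, ContinuousLinearMap.det, h, LinearMap.det_smul, ← pow_mul, mul_comm 2, pow_mul,
    Real.sqrt_mul (sq_nonneg _), Real.sqrt_sq (by positivity)]

theorem dn_scale (hB : PosB B) {c : ℝ} (hc : 0 < c) (N : E →L[ℝ] ℝ) :
    dn (c ^ 2 • B) N = dn B N / c := by
  have hc2 : 0 < c ^ 2 := by positivity
  have hB' : PosB (c ^ 2 • B) := ⟨fun u v => by simp only [smul_apply, hB.1 u v],
    fun u hu => by simp only [smul_apply, smul_eq_mul]; exact mul_pos hc2 (hB.2 u hu)⟩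
  have h : (c ^ 2 • B).inverse N = (c ^ 2)⁻¹ • B.inverse N := by
    rw [hB'.inv.inverse_apply_eq, map_smul, smul_apply, hB.inv.self_apply_inverse, smul_smul,
      inv_mul_cancel₀ hc2.ne', one_smul]
  rw [dn, dn, h, map_smul, smul_eq_mul, Real.sqrt_mul (by positivity), Real.sqrt_inv,
    Real.sqrt_sq hc.le, inv_mul_eq_div]

theorem det_adj {B₁ B₂ : Bil E} (h₁ : PosB B₁) (h₂ : PosB B₂) {A C : E →L[ℝ] E}
    (h : ∀ k l, B₁ (A k) l = B₂ (C l) k) : wt B₁ ^ 2 * A.det = wt B₂ ^ 2 * C.det := by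
  rw [wt_sq h₁, wt_sq h₂, ContinuousLinearMap.det, ContinuousLinearMap.det,
    ContinuousLinearMap.det, ContinuousLinearMap.det, ← LinearMap.det_comp, ← LinearMap.det_comp]
  refine linalg_adj fun u v => ?_
  simp only [LinearMap.comp_apply, ContinuousLinearMap.coe_coe]
  rw [inner_hat, real_inner_comm, inner_hat, h]

end Vale.Agent.P219
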