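import Vale.Agent.P219.EDefs
import Vale.Agent.P219.LinAlg

/-!
# Straightening the boundary  (TASK)

Let `l = fderiv f p ≠ 0`; choose a linear automorphism `A` of `Euc 5` with `A y 0 = l y` (for instance `l = ‖u‖ ⟪b 0, ·⟫` for an orthonormal basis `b`).
With a bump function `β_δ` at `p` (`ContDiffBump`, radii `δ, 2 δ`; `β_δ y = β ((y - p) / δ)`) the function `r y = β_δ y * (f y - f p - l (y - p))` is globally smooth
and `‖fderiv r‖ = O(δ)` or `o(1)`; note `f p = 0` because `p` is a frontier point.  So `Θ' y = A (y - p) + r y • single 0 1` approximates `A`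
(`ApproximatesLinearOn`, `Convex.norm_image_sub_le_of_norm_fderiv_le`) with a small constant, is a homeomorphism
(`ApproximatesLinearOn.toHomeomorph`) with invertible derivative, and its inverse `Θ` is smooth (`Homeomorph.contDiff_symm`).  On `U = ball p δ` one has
`Θ' y 0 = f y`.  `fr`: inside the open set `U` the frontier of `Ω` is the frontier of `Θ' ⁻¹' {y 0 < 0}` (`frontier_inter_open_inter`,
`Homeomorph.preimage_frontier`, frontier of a half space).  `interior_closure`: a frontier point has points `Θ (Θ' p + t • single 0 1)`, `t > 0` small, nearby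
that are neither in `Ω` nor in its frontier.
-/

namespace Vale.Agent.P219

open scoped ContDiff Topology RealInnerProductSpace ENNReal
open MeasureTheory Set Vale.Agent.P255

variable {Ω : Set (Euc 5)} {G : Euc 5 → Bil (Euc 5)}

section

variable {E : Type*} [NormedAddCommGroup E] [InnerProductSpace ℝ E] [FiniteDimensional ℝ E]

theorem patch_near_id {r : E → E} (hr : ContDiff ℝ ∞ r) (hd : ∀ y, ‖fderiv ℝ r y‖ ≤ 1 / 2) :
    ∃ Θ : E → E, ContDiff ℝ ∞ Θ ∧ (∀ y, Θ y + r (Θ y) = y) ∧ ∀ y, Θ (y + r y) = y := by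
  have : CompleteSpace E := FiniteDimensional.complete ℝ E
  have hr' : Differentiable ℝ r := hr.differentiable (by simp)
  have hl : LipschitzWith (1 / 2) r := lipschitzWith_of_nnnorm_fderiv_le hr' fun y => by
    rw [← NNReal.coe_le_coe]
    simpa using hd y
  have ha : ApproximatesLinearOn (fun y => y + r y)
      ((ContinuousLinearEquiv.refl ℝ E : E ≃L[ℝ] E) : E →L[ℝ] E) univ (1 / 2) := by
    refine LipschitzOnWith.approximatesLinearOn ?_
    have e : (fun y => y + r y) - ⇑((ContinuousLinearEquiv.refl ℝ E : E ≃L[ℝ] E) : E →L[ℝ] E) =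
        r := by
      funext y
      simp
    rw [e]
    exact hl.lipschitzOnWith
  have hc : Subsingleton E ∨ (1 / 2 : NNReal) <
      ‖((ContinuousLinearEquiv.refl ℝ E).symm : E →L[ℝ] E)‖₊⁻¹ := by
    rcases subsingleton_or_nontrivial E with h | h
    · exact Or.inl h
    · right
      rw [ContinuousLinearEquiv.refl_symm, ContinuousLinearEquiv.coe_refl,
        ContinuousLinearMap.nnnorm_id]
      norm_num
  let H : E ≃ₜ E := ha.toHomeomorph _ hc
  have hH : ∀ y, H y = y + r y := fun _ => rfl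
  have hn : ∀ y, ‖-fderiv ℝ r y‖ < 1 := fun y => by
    rw [norm_neg]
    linarith [hd y]
  refine ⟨H.symm, H.contDiff_symm
    (f₀' := fun y => ContinuousLinearEquiv.ofUnit (Units.oneSub _ (hn y))) (fun y => ?_)
    (contDiff_id.add hr), fun y => H.apply_symm_apply y, fun y => H.symm_apply_apply y⟩
  have e : (ContinuousLinearEquiv.ofUnit (Units.oneSub _ (hn y)) : E →L[ℝ] E) =
      ContinuousLinearMap.id ℝ E + fderiv ℝ r y := by
    ext v
    show (1 - -fderiv ℝ r y) v = _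
    simp
  rw [e]
  exact (hasFDerivAt_id y).add (hr' y).hasFDerivAt

theorem patch_rho (E : Type*) [NormedAddCommGroup E] [InnerProductSpace ℝ E]
    [FiniteDimensional ℝ E] : ∃ (ρ : E → E) (K : ℝ), ContDiff ℝ ∞ ρ ∧ 0 < K ∧
      (∀ y, ‖fderiv ℝ ρ y‖ ≤ K) ∧ (∀ y, ‖ρ y‖ ≤ 2) ∧ ∀ y, ‖y‖ ≤ 1 → ρ y = y := by
  let β : ContDiffBump (0 : E) := ⟨1, 2, one_pos, one_lt_two⟩
  have hs : ContDiff ℝ ∞ fun y => β y • y := β.contDiff.smul contDiff_id
  have hc : HasCompactSupport fun y => β y • y := β.hasCompactSupport.smul_right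
  obtain ⟨K, hK⟩ := (hc.fderiv ℝ).exists_bound_of_continuous (hs.continuous_fderiv (by simp))
  refine ⟨fun y => β y • y, max K 1, hs, by positivity, fun y => (hK y).trans (le_max_left _ _),
    fun y => ?_, fun y hy => ?_⟩
  · rcases le_total ‖y‖ 2 with h | h
    · rw [norm_smul, Real.norm_of_nonneg β.nonneg]
      exact (mul_le_of_le_one_left (norm_nonneg _) β.le_one).trans h
    · simp [β.zero_of_le_dist (x := y) (by simpa using h)]
  · simp [β.one_of_mem_closedBall (x := y) (by simpa using hy)]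

theorem patch_cut {g : E → E} {U : Set E} (hU : IsOpen U) {p : E} (hp : p ∈ U)
    (hg : ContDiffOn ℝ ∞ g U) (h0 : fderiv ℝ g p = 0) :
    ∃ (r : E → E) (δ : ℝ), 0 < δ ∧ ContDiff ℝ ∞ r ∧ (∀ y, ‖fderiv ℝ r y‖ ≤ 1 / 2) ∧
      Metric.ball p δ ⊆ U ∧ ∀ y ∈ Metric.ball p δ, r y = g y := by
  obtain ⟨ρ, K, hρ, hK, hd, hb, h1⟩ := patch_rho E
  have hc : ContinuousAt (fderiv ℝ g) p :=
    (hg.continuousOn_fderiv_of_isOpen hU (by simp)).continuousAt (hU.mem_nhds hp)
  have hev : ∀ᶠ y in 𝓝 p, y ∈ U ∧ ‖fderiv ℝ g y‖ < 1 / (2 * K) :=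
    (hU.eventually_mem hp).and (hc.norm.eventually_lt continuousAt_const (by
      rw [h0, norm_zero]
      positivity))
  obtain ⟨ε, hε, hball⟩ := Metric.eventually_nhds_iff_ball.1 hev
  have hδ : 0 < ε / 3 := by positivity
  let σ : E → E := fun y => p + (ε / 3) • ρ ((ε / 3)⁻¹ • (y - p))
  have hσ : ContDiff ℝ ∞ σ :=
    contDiff_const.add ((hρ.comp ((contDiff_id.sub contDiff_const).const_smul _)).const_smul _)
  have hm : ∀ y, σ y ∈ Metric.ball p ε := fun y => by
    rw [mem_ball_iff_norm, add_sub_cancel_left, norm_smul, Real.norm_of_nonneg hδ.le]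
    nlinarith [hb ((ε / 3)⁻¹ • (y - p))]
  have hσd : ∀ y, HasFDerivAt σ (fderiv ℝ ρ ((ε / 3)⁻¹ • (y - p))) y := fun y => by
    have h2 : HasFDerivAt (fun y : E => (ε / 3)⁻¹ • (y - p))
        ((ε / 3)⁻¹ • ContinuousLinearMap.id ℝ E) y := ((hasFDerivAt_id y).sub_const p).const_smul _
    have h3 := ((((hρ.differentiable (by simp)) _).hasFDerivAt.comp y h2).const_smul
      (ε / 3)).const_add p
    refine h3.congr_fderiv (ContinuousLinearMap.ext fun v => ?_)
    simp only [smul_apply, ContinuousLinearMap.comp_apply, map_smul,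
      ContinuousLinearMap.id_apply, smul_inv_smul₀ hδ.ne']
  refine ⟨g ∘ σ, ε / 3, hδ, hg.comp_contDiff hσ fun y => (hball _ (hm y)).1, fun y => ?_,
    fun y hy => (hball y (Metric.ball_subset_ball (by linarith) hy)).1, fun y hy => ?_⟩
  · have hgd : DifferentiableAt ℝ g (σ y) :=
      (hg.contDiffAt (hU.mem_nhds (hball _ (hm y)).1)).differentiableAt (by simp)
    rw [(hgd.hasFDerivAt.comp y (hσd y)).fderiv]
    refine (ContinuousLinearMap.opNorm_comp_le _ _).trans ?_
    calc _ ≤ 1 / (2 * K) * K :=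
          mul_le_mul (hball _ (hm y)).2.le (hd _) (norm_nonneg _) (by positivity)
      _ = 1 / 2 := by field_simp
  · have e : σ y = y := by
      show p + (ε / 3) • ρ ((ε / 3)⁻¹ • (y - p)) = y
      rw [h1, smul_inv_smul₀ hδ.ne', add_sub_cancel]
      rw [norm_smul, norm_inv, Real.norm_of_nonneg hδ.le, inv_mul_le_iff₀ hδ, mul_one]
      exact (mem_ball_iff_norm.1 hy).le
    rw [Function.comp_apply, e]

end

theorem patch_refl {l : Euc 5 →L[ℝ] ℝ} (hl : l ≠ 0) : ∃ (R : Euc 5 ≃ₗᵢ[ℝ] Euc 5) (c : ℝ), 0 < c ∧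
    (∀ y, R (R y) = y) ∧ ∀ y, c * R y 0 = l y := by
  have hu : riesz (Euc 5) l ≠ 0 := fun h => hl (by
    ext v
    rw [← inner_riesz, h]
    simp)
  have hn : ‖‖riesz (Euc 5) l‖ • (EuclideanSpace.single 0 1 : Euc 5)‖ = ‖riesz (Euc 5) l‖ := by
    simp [norm_smul]
  refine ⟨_, _, norm_pos_iff.2 hu, Submodule.reflection_reflection
    (ℝ ∙ (‖riesz (Euc 5) l‖ • EuclideanSpace.single 0 1 - riesz (Euc 5) l))ᗮ, fun y => ?_⟩
  rw [← inner_riesz l y]
  conv_rhs => rw [← Submodule.reflection_sub hn, ← LinearIsometryEquiv.inner_map_map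
    (Submodule.reflection
      (ℝ ∙ (‖riesz (Euc 5) l‖ • EuclideanSpace.single 0 1 - riesz (Euc 5) l))ᗮ),
    Submodule.reflection_reflection]
  simp [inner_smul_left, EuclideanSpace.inner_single_left]

theorem patch_open {Θ Θ' : Euc 5 → Euc 5} (h : Continuous Θ) (h' : Continuous Θ')
    (hl : ∀ y, Θ' (Θ y) = y) (hr : ∀ y, Θ (Θ' y) = y) : IsOpenMap fun y => Θ' y 0 := by
  let H : Euc 5 ≃ₜ Euc 5 := ⟨⟨Θ', Θ, hr, hl⟩, h', h⟩
  have h0 : IsOpenMap (EuclideanSpace.proj 0 : Euc 5 →L[ℝ] ℝ) :=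
    ContinuousLinearMap.isOpenMap _ fun t => ⟨EuclideanSpace.single 0 t, by simp⟩
  exact h0.comp H.isOpenMap

theorem EDom.exists_patch (h : EDom Ω) {p : Euc 5} (hp : p ∈ frontier Ω) :
    ∃ Θ Θ' U, Patch Ω Θ Θ' U ∧ p ∈ U := by
  obtain ⟨U, f, hU, hpU, hf, hl, hΩ⟩ := h.bdry p hp
  obtain ⟨R, c, hc, hR, hRl⟩ := patch_refl hl
  have hR0 : ContDiff ℝ ∞ fun y => R y 0 :=
    (EuclideanSpace.proj 0 : Euc 5 →L[ℝ] ℝ).contDiff.comp R.contDiff
  obtain ⟨r, δ, hδ, hr, hd, hb, hrg⟩ := patch_cut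
    (g := fun y => (c⁻¹ * f y - R y 0) • R (EuclideanSpace.single 0 1)) hU hpU
    (((contDiffOn_const.mul hf).sub hR0.contDiffOn).smul contDiffOn_const) (by
      have h1 : HasFDerivAt f (fderiv ℝ f p) p :=
        ((hf.contDiffAt (hU.mem_nhds hpU)).differentiableAt (by simp)).hasFDerivAt
      have h2 : HasFDerivAt (fun y => R y 0) ((EuclideanSpace.proj 0 : Euc 5 →L[ℝ] ℝ).comp
          (R.toContinuousLinearEquiv : Euc 5 →L[ℝ] Euc 5)) p :=
        ((EuclideanSpace.proj 0 : Euc 5 →L[ℝ] ℝ).comp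
          (R.toContinuousLinearEquiv : Euc 5 →L[ℝ] Euc 5)).hasFDerivAt
      rw [(((h1.const_mul c⁻¹).fun_sub h2).smul_const (R (EuclideanSpace.single 0 1))).fderiv]
      refine ContinuousLinearMap.ext fun v => ?_
      simp [← hRl v, hc.ne'])
  obtain ⟨Θ, hΘ, hΘ1, hΘ2⟩ := patch_near_id hr hd
  have hs : ContDiff ℝ ∞ fun y => Θ (R y) := hΘ.comp R.contDiff
  have hs' : ContDiff ℝ ∞ fun y => R (y + r y) := R.contDiff.comp (contDiff_id.add hr)
  have hl' : ∀ y, R (Θ (R y) + r (Θ (R y))) = y := fun y => by rw [hΘ1, hR]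
  have hr' : ∀ y, Θ (R (R (y + r y))) = y := fun y => by rw [hR, hΘ2]
  have hmem : ∀ y ∈ Metric.ball p δ, y ∈ Ω ↔ R (y + r y) 0 < 0 := fun y hy => by
    have e : R (y + r y) 0 = c⁻¹ * f y := by
      rw [hrg y hy, map_add, map_smul, hR]
      simp
    have e' : y ∈ Ω ↔ f y < 0 := by
      have := Set.ext_iff.1 hΩ y
      simpa [hb hy] using this
    rw [e, e', inv_mul_lt_iff₀ hc, mul_zero]
  refine ⟨fun y => Θ (R y), fun y => R (y + r y), Metric.ball p δ,
    ⟨hs, hs', hl', hr', Metric.isOpen_ball, Metric.isBounded_ball, hmem, fun y hy => ?_⟩,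
    Metric.mem_ball_self hδ⟩
  have ho := patch_open hs.continuous hs'.continuous hl' hr'
  have hco : Continuous fun y => R (y + r y) 0 :=
    (EuclideanSpace.proj 0 : Euc 5 →L[ℝ] ℝ).continuous.comp hs'.continuous
  have e1 : Ω ∩ Metric.ball p δ = (fun y => R (y + r y) 0) ⁻¹' Iio 0 ∩ Metric.ball p δ := by
    ext z
    exact and_congr_left fun hz => hmem z hz
  have e2 : frontier Ω ∩ Metric.ball p δ =
      (fun y => R (y + r y) 0) ⁻¹' {0} ∩ Metric.ball p δ := by
    rw [← frontier_inter_open_inter Metric.isOpen_ball, e1,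
      frontier_inter_open_inter Metric.isOpen_ball,
      ← ho.preimage_frontier_eq_frontier_preimage hco, frontier_Iio]
  simpa [hy] using Set.ext_iff.1 e2 y

theorem EDom.interior_closure (h : EDom Ω) : interior (closure Ω) = Ω := by
  refine Subset.antisymm (fun p hp => ?_) (h.isOpen.subset_interior_iff.2 subset_closure)
  by_contra hn
  have hf : ∀ y ∈ closure Ω, y ∉ Ω → y ∈ frontier Ω := fun y hy hy' => by
    rw [h.isOpen.frontier_eq]
    exact ⟨hy, hy'⟩
  have hp' := hf p (interior_subset hp) hn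
  obtain ⟨Θ, Θ', U, hP, hpU⟩ := h.exists_patch hp'
  have ho := patch_open hP.smooth.continuous hP.smooth'.continuous hP.left hP.right _
    (isOpen_interior.inter hP.isOpen : IsOpen (interior (closure Ω) ∩ U))
  have hs : (fun y => Θ' y 0) '' (interior (closure Ω) ∩ U) ⊆ Iic 0 := by
    rintro _ ⟨y, ⟨hy, hyU⟩, rfl⟩
    by_cases hy' : y ∈ Ω
    · exact ((hP.mem y hyU).1 hy').le
    · exact ((hP.fr y hyU).1 (hf y (interior_subset hy) hy')).le
  have h0 := ho.subset_interior_iff.2 hs ⟨p, ⟨hp, hpU⟩, (hP.fr p hpU).1 hp'⟩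
  simp at h0

end Vale.Agent.P219
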