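import Vale.Agent.P219.Taylor
import Vale.Agent.P219.Push
import Vale.Agent.P219.LinAlg2

/-!
# First variation of volume and area

`D'` is the push of `D` under `Φ y = y - τ • Z y` (`diffeo_sub`, `Dom.exists_push`), `fderiv Φ y = id - τ • fderiv Z y`.
Volume: `Diffeo.integral_image`, `le_abs_self`, `taylor_vol`, `dvg_smul` and `D.div` for the `C¹` field `wt (G y) • Z y`; the
error is `C' τ² volume K`.  Area: for `N ξ = 0` both sides vanish (`cof A 0 = 0`, `ad_zero`).  Otherwise `ad_cof`, `exists_frame` with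
`B' = (G (Φ y)).bilinearComp A A` (`PosB.comp`), `taylor_metric`: `0 ≤ ∑ B' (e i) (e i) / 4 ≤ 1 - τ l / 4 + C' τ²` with
`l = ∑ lie (e i)`, `|l| ≤ 4 C'`, `t ≤ l / 2`; square.
-/

namespace Vale.Agent.P219

open scoped ContDiff Topology RealInnerProductSpace
open MeasureTheory Set Vale.Agent.P255

variable {E : Type*} [NormedAddCommGroup E] [InnerProductSpace ℝ E] [FiniteDimensional ℝ E]
  [MeasurableSpace E] [BorelSpace E]
  {X : Type*} [MeasurableSpace X] {μ : Measure X}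
  {G : E → Bil E}

theorem var_num {s l t c τ : ℝ} (hs0 : 0 ≤ s) (hs : s ≤ 1 - τ * l / 4 + c * τ ^ 2)
    (hl : |l| ≤ 4 * c) (ht : t ≤ l / 2) (h0 : 0 < τ) (h1 : τ ≤ 1) :
    s ^ 2 ≤ 1 - τ * t + (2 * c + 4 * c ^ 2) * τ ^ 2 := by
  obtain ⟨hl1, hl2⟩ := abs_le.1 hl
  have hc : 0 ≤ c := by linarith [abs_nonneg l]
  have hcτ : c * τ ≤ c := mul_le_of_le_one_right hc h1
  have hcτ0 : 0 ≤ c * τ := by positivity
  have hw : (c * τ - l / 4) ^ 2 ≤ (2 * c) ^ 2 := sq_le_sq' (by linarith) (by linarith)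
  have h2 := pow_le_pow_left₀ hs0 hs 2
  have h3 := mul_le_mul_of_nonneg_left ht h0.le
  have h4 := mul_le_mul_of_nonneg_left hw (sq_nonneg τ)
  nlinarith

omit [FiniteDimensional ℝ E] [MeasurableSpace E] [BorelSpace E] in
theorem var_fderiv {Z : E → E} (hZ : ContDiff ℝ 2 Z) (τ : ℝ) (y : E) :
    fderiv ℝ (fun y => y - τ • Z y) y = ContinuousLinearMap.id ℝ E - τ • fderiv ℝ Z y :=
  ((hasFDerivAt_id y).sub
    ((hZ.differentiable (by simp) y).hasFDerivAt.const_smul τ)).fderiv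

theorem var_vol (hG : LocMetric G univ) {K : Set E} (hK : IsCompact K) (C : ℝ) :
    ∃ C' : ℝ, 0 ≤ C' ∧ ∀ (D : Dom E μ) (Z : E → E), closure D.Ω ⊆ K → ContDiff ℝ 2 Z →
      (∀ y, ‖Z y‖ ≤ C ∧ ‖fderiv ℝ Z y‖ ≤ C) → ∀ τ ∈ Icc (0 : ℝ) 1,
        (Diffeo fun y => y - τ • Z y) →
          vol G D.Ω - τ * ∫ ξ, wt (G (D.p ξ)) * D.N ξ (Z (D.p ξ)) ∂μ - C' * τ ^ 2 ≤
            vol G ((fun y => y - τ • Z y) '' D.Ω) := by
  obtain ⟨C1, hC1, h1⟩ := taylor_vol hG hK C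
  refine ⟨C1 * volume.real K, by positivity, fun D Z hD hZ hb τ hτ hΦ => ?_⟩
  have hΩK : D.Ω ⊆ K := subset_closure.trans hD
  have hm := D.isOpen.measurableSet
  have hw : ContDiff ℝ 1 fun y => wt (G y) := (contDiff_wt hG).of_le (by simp)
  have hZ1 : ContDiff ℝ 1 Z := hZ.of_le (by simp)
  have hW : ContDiff ℝ 1 fun y => wt (G y) • Z y := hw.smul hZ1
  have hdiv := D.div _ hW
  simp only [map_smul, smul_eq_mul] at hdiv
  have hi1 := integrableOn_wt hG D.bdd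
  have hi2 : IntegrableOn (dvg fun y => wt (G y) • Z y) D.Ω :=
    ((continuous_dvg hW).continuousOn.integrableOn_compact hK).mono_set hΩK
  have hfin : volume D.Ω ≠ ⊤ := ((measure_mono hΩK).trans_lt hK.measure_lt_top).ne
  have hi3 : IntegrableOn (fun _ : E => C1 * τ ^ 2) D.Ω := integrableOn_const hfin
  have hb' : Bornology.IsBounded ((fun y => y - τ • Z y) '' D.Ω) :=
    (hK.image hΦ.smooth.continuous).isBounded.subset (image_mono hΩK)
  have hi4 := (hΦ.integrableOn_image hm _).1 (integrableOn_wt hG hb')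
  have hle : ∫ y in D.Ω, (wt (G y) - τ * dvg (fun y => wt (G y) • Z y) y - C1 * τ ^ 2) ≤
      ∫ y in D.Ω, |(fderiv ℝ (fun y => y - τ • Z y) y).det| * wt (G (y - τ • Z y)) := by
    refine setIntegral_mono_on ((hi1.sub (hi2.const_mul τ)).sub hi3) hi4 hm fun y hy => ?_
    rw [dvg_smul (hw.differentiable (by simp) y) (hZ1.differentiable (by simp) y),
      var_fderiv hZ]
    exact (h1 y (hΩK hy) _ _ (hb y).1 (hb y).2 τ hτ).trans
      (mul_le_mul_of_nonneg_right (le_abs_self _) (Real.sqrt_nonneg _))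
  have hi5 : IntegrableOn (fun y => wt (G y) - τ * dvg (fun y => wt (G y) • Z y) y) D.Ω :=
    hi1.sub (hi2.const_mul τ)
  rw [integral_sub hi5 hi3, integral_sub hi1 (hi2.const_mul τ),
    integral_const_mul, hdiv, setIntegral_const, smul_eq_mul] at hle
  have hv : volume.real D.Ω * (C1 * τ ^ 2) ≤ volume.real K * (C1 * τ ^ 2) :=
    mul_le_mul_of_nonneg_right (measureReal_mono hΩK hK.measure_lt_top.ne) (by positivity)
  rw [vol, vol, hΦ.integral_image hm]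
  linarith

theorem exists_var (hE : Module.finrank ℝ E = 5) (hG : LocMetric G univ) {K : Set E}
    (hK : IsCompact K) (C : ℝ) :
    ∃ C' τ₀ : ℝ, 0 < C' ∧ 0 < τ₀ ∧ ∀ (D : Dom E μ) (Z : E → E), closure D.Ω ⊆ K → ContDiff ℝ 2 Z →
      (∀ y, ‖Z y‖ ≤ C ∧ ‖fderiv ℝ Z y‖ ≤ C) → ∀ τ : ℝ, 0 < τ → τ ≤ τ₀ →
        ∃ D' : Dom E μ, D'.Ω = (fun y => y - τ • Z y) '' D.Ω ∧
          vol G D.Ω - τ * ∫ ξ, wt (G (D.p ξ)) * D.N ξ (Z (D.p ξ)) ∂μ - C' * τ ^ 2 ≤ vol G D'.Ω ∧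
          ∀ (ξ : X) (t : ℝ), (D.N ξ ≠ 0 → ∀ e : Fin 4 → E, (∀ i, G (D.p ξ) (e i) (e i) = 1) →
              (∀ v, ∑ i, G (D.p ξ) v (e i) ^ 2 =
                G (D.p ξ) v v - G (D.p ξ) (nu (G (D.p ξ)) (D.N ξ)) v ^ 2) →
              t ≤ (∑ i, lie G (D.p ξ) (Z (D.p ξ)) (fderiv ℝ Z (D.p ξ)) (e i)) / 2) →
            ad (G (D'.p ξ)) (D'.N ξ) ≤ ad (G (D.p ξ)) (D.N ξ) - τ * (ad (G (D.p ξ)) (D.N ξ) * t) +
              C' * τ ^ 2 * ad (G (D.p ξ)) (D.N ξ) := by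
  obtain ⟨C1, hC1, h1⟩ := var_vol (μ := μ) hG hK C
  obtain ⟨C2, hC2, h2⟩ := taylor_metric hG hK C
  refine ⟨C1 + (2 * C2 + 4 * C2 ^ 2), 1 / (|C| + 1), by positivity, by positivity,
    fun D Z hD hZ hb τ h0 hτ => ?_⟩
  have hτ' : τ * (|C| + 1) ≤ 1 := (le_div_iff₀ (by positivity)).1 hτ
  have hτa : 0 ≤ τ * |C| := by positivity
  have hτ1 : τ ≤ 1 := by linarith
  have hτC : τ * C < 1 := by linarith [mul_le_mul_of_nonneg_left (le_abs_self C) h0.le]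
  have hΦ := diffeo_sub hZ (fun y => (hb y).2) h0.le hτC
  obtain ⟨D', hΩ, hp, hN⟩ := D.exists_push hΦ
  refine ⟨D', hΩ, ?_, fun ξ t ht => ?_⟩
  · have h := h1 D Z hD hZ hb τ ⟨h0.le, hτ1⟩ hΦ
    have : 0 ≤ (2 * C2 + 4 * C2 ^ 2) * τ ^ 2 := by positivity
    rw [hΩ]
    linarith
  · rw [hp, hN]
    by_cases hN0 : D.N ξ = 0
    · simp [hN0, cof, ad_zero]
    have hdet := hΦ.det_ne (D.p ξ)
    rw [ad_cof (posB_of_loc hG _) hdet]
    obtain ⟨e, he1, he2, he3⟩ := exists_frame hE (posB_of_loc hG (D.p ξ)) hN0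
    have hB' := (posB_of_loc hG (D.p ξ - τ • Z (D.p ξ))).comp hdet
    have hT := h2 _ (hD (frontier_subset_closure (D.p_mem ξ))) _ _ (hb (D.p ξ)).1 (hb (D.p ξ)).2
    have hl : |∑ i, lie G (D.p ξ) (Z (D.p ξ)) (fderiv ℝ Z (D.p ξ)) (e i)| ≤ 4 * C2 := by
      refine (Finset.abs_sum_le_sum_abs _ _).trans ((Finset.sum_le_sum fun i _ =>
        (hT (e i)).1).trans (le_of_eq ?_))
      simp [he1]
    have hs : (∑ i, (G (D.p ξ - τ • Z (D.p ξ))).bilinearComp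
        (fderiv ℝ (fun y => y - τ • Z y) (D.p ξ)) (fderiv ℝ (fun y => y - τ • Z y) (D.p ξ))
          (e i) (e i)) / 4 ≤
        1 - τ * (∑ i, lie G (D.p ξ) (Z (D.p ξ)) (fderiv ℝ Z (D.p ξ)) (e i)) / 4 + C2 * τ ^ 2 := by
      have h i := (hT (e i)).2 τ ⟨h0.le, hτ1⟩
      simp only [he1] at h
      simp only [var_fderiv hZ, ContinuousLinearMap.bilinearComp_apply, sub_apply, smul_apply,
        ContinuousLinearMap.id_apply, Fin.sum_univ_four]
      linarith [h 0, h 1, h 2, h 3]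
    have hn := var_num (div_nonneg (Finset.sum_nonneg fun i _ => hB'.nonneg (e i)) (by norm_num))
      hs hl (ht hN0 e he1 he2) h0 hτ1
    have ha := ad_nonneg (G (D.p ξ)) (D.N ξ)
    have h5 := (he3 _ hB').trans (mul_le_mul_of_nonneg_left hn ha)
    have h6 : 0 ≤ C1 * τ ^ 2 * ad (G (D.p ξ)) (D.N ξ) := by positivity
    linarith

end Vale.Agent.P219
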