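import Vale.Agent.P219.PortN

/-!
# The Cartan-Hadamard theorem; curvature under local isometries  (TASK)

`exp_isHomeomorph`: `NPC.immC`, `ImmC.isCoveringMap`.  `M` is locally path connected (`ChartedSpace.locPathConnectedSpace E M`) and simply
connected, so the identity of `M` lifts to a section `s` with `s x = 0` (`IsCoveringMap.existsUnique_continuousMap_lifts`); `s ∘ exp`
and `id` are lifts of `exp` that agree at `0` (`IsCoveringMap.eq_of_comp_eq`), so `exp` is bijective; it is a local homeomorphism.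
Smoothness: `depN` for every `n`, `contDiffAt_infty`; `expE_self`.
`riem_transform`: `chr_transform` holds at all points near `y` (`ContDiffAt.eventually`, `iso.eventually_nhds`, openness of `U₁, U₂`);
differentiate it in the direction `u`, antisymmetrise in `u, v`; the third derivative of `τ` is symmetric in its first two slots
(`ContDiffAt.isSymmSndFDerivAt` for `fderiv ℝ τ`), and use `chr_transform` again for the quadratic terms (`loc_fderiv_chr`, `loc_fderiv_app2`).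
-/

namespace Vale.Agent.P219

open scoped ContDiff Topology Manifold
open Vale.Agent.P255 Set Filter

variable {E M : Type*} [NormedAddCommGroup E] [NormedSpace ℝ E] [FiniteDimensional ℝ E]
  [TopologicalSpace M] [ChartedSpace E M] [IsManifold 𝓘(ℝ, E) ∞ M] [T2Space M]
  {e e' : OpenPartialHomeomorph M E} (g : Metric E M) [Metric.Cpl g]

theorem exp_isHomeomorph [SimplyConnectedSpace M] (hg : g.NPC) (x : M) :
    IsHomeomorph (g.expC x) := by
  have cov : IsCoveringMap (g.expC x) := (Metric.NPC.immC hg).isCoveringMap x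
  have : LocallyPathConnectedSpace M := ChartedSpace.locallyPathConnectedSpace E M
  obtain ⟨s, ⟨hs0, hs⟩, -⟩ :=
    cov.existsUnique_continuousMap_lifts (ContinuousMap.id M) x 0 (g.exp_zeroC x)
  have hs' : ∀ y, g.expC x (s y) = y := fun y => congrFun hs y
  have h2 : (fun v => s (g.expC x v)) = id :=
    cov.eq_of_comp_eq (s.continuous.comp cov.continuous) continuous_id
      (funext fun v => hs' _) 0 (by rw [g.exp_zeroC, hs0]; rfl)
  exact ⟨cov.continuous, cov.isLocalHomeomorph.isOpenMap,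
    Function.LeftInverse.injective (g := s) fun v => congrFun h2 v, fun y => ⟨s y, hs' y⟩⟩

theorem contDiffAt_expE (he : e ∈ atlas E M) (he' : e' ∈ atlas E M) {p : E × E}
    (hp : p.1 ∈ e.target) (h : expE g e p.1 p.2 ∈ e'.source) :
    ContDiffAt ℝ ∞ (fun q : E × E => e' (expE g e q.1 q.2)) p := by
  exact contDiffAt_infty.2 fun n => (depN g n he he' hp (t := 1) h).2.fst

theorem contDiffAt_exp_infty (x : M) (v : E) (he : e ∈ atlas E M) (h : g.expC x v ∈ e.source) :
    ContDiffAt ℝ ∞ (e ∘ g.expC x) v := by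
  have h1 := contDiffAt_expE g (chart_mem_atlas E x) he (p := (chartAt E x x, v))
    (mem_chart_target E x) (by rw [expE_self]; exact h)
  have h2 := h1.comp v (f := fun w : E => (chartAt E x x, w)) (contDiffAt_const.prodMk contDiffAt_id)
  have h3 : e ∘ g.expC x = (fun q : E × E => e (expE g (chartAt E x) q.1 q.2)) ∘
      fun w : E => (chartAt E x x, w) := by
    funext w
    simp only [Function.comp_apply, expE_self]
  rw [h3]
  exact h2

theorem geom_key {G₁ G₂ : E → E →L[ℝ] E →L[ℝ] ℝ} {U₁ U₂ : Set E} (h₁ : LocMetric G₁ U₁)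
    (h₂ : LocMetric G₂ U₂) {τ : E → E} {y : E} (hy : y ∈ U₁) (hτy : τ y ∈ U₂)
    (hτ : ContDiffAt ℝ 3 τ y)
    (iso : ∀ᶠ z in 𝓝 y, ∀ u v, G₁ z u v = G₂ (τ z) (fderiv ℝ τ z u) (fderiv ℝ τ z v)) (u v w : E) :
    fderiv ℝ τ y (fderiv ℝ (fun z => chr G₁ z v w) y u + chr G₁ y u (chr G₁ y v w)) =
      fderiv ℝ (fderiv ℝ (fderiv ℝ τ)) y u v w +
        fderiv ℝ (chrL G₂) (τ y) (fderiv ℝ τ y u) (fderiv ℝ τ y v) (fderiv ℝ τ y w) +
        chrL G₂ (τ y) (fderiv ℝ (fderiv ℝ τ) y u v) (fderiv ℝ τ y w) +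
        chrL G₂ (τ y) (fderiv ℝ τ y v) (fderiv ℝ (fderiv ℝ τ) y u w) +
        chrL G₂ (τ y) (fderiv ℝ τ y u) (fderiv ℝ (fderiv ℝ τ) y v w) +
        chrL G₂ (τ y) (fderiv ℝ τ y u) (chrL G₂ (τ y) (fderiv ℝ τ y v) (fderiv ℝ τ y w)) := by
  have hτ2 : ContDiffAt ℝ 2 τ y := hτ.of_le (by norm_num)
  have hd : DifferentiableAt ℝ τ y := hτ.differentiableAt (by simp)
  have hD2 : ContDiffAt ℝ 2 (fderiv ℝ τ) y := hτ.fderiv_right (m := 2) (by norm_num)
  have hD : DifferentiableAt ℝ (fderiv ℝ τ) y := hD2.differentiableAt (by simp)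
  have hDD : DifferentiableAt ℝ (fderiv ℝ (fderiv ℝ τ)) y :=
    (hD2.fderiv_right (m := 1) (by norm_num)).differentiableAt (by simp)
  have ev : (fun z => fderiv ℝ τ z (chr G₁ z v w)) =ᶠ[𝓝 y] fun z =>
      fderiv ℝ (fderiv ℝ τ) z v w + chrL G₂ (τ z) (fderiv ℝ τ z v) (fderiv ℝ τ z w) := by
    filter_upwards [h₁.isOpen.mem_nhds hy, hd.continuousAt (h₂.isOpen.mem_nhds hτy),
      hτ2.eventually (by simp), iso.eventually_nhds] with z z1 z2 z3 z4
    rw [chrL_apply]
    exact chr_transform h₁ h₂ z1 z2 z3 z4 v w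
  have c1 : DifferentiableAt ℝ (fun z => chr G₁ z v w) y := by
    have := ((h₁.loc_diff_chrL hy).clm_apply (differentiableAt_const v)).clm_apply
      (differentiableAt_const w)
    simpa only [chrL_apply] using this
  have c2 : DifferentiableAt ℝ (fun z => chrL G₂ (τ z)) y :=
    DifferentiableAt.comp (G := E →L[ℝ] E →L[ℝ] E) (g := chrL G₂) (f := τ) y
      (h₂.loc_diff_chrL hτy) hd
  have c3 : ∀ a : E, DifferentiableAt ℝ (fun z => fderiv ℝ τ z a) y := fun a =>
    hD.clm_apply (differentiableAt_const a)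
  have c4 : DifferentiableAt ℝ (fun z => fderiv ℝ (fderiv ℝ τ) z v w) y :=
    (hDD.clm_apply (differentiableAt_const v)).clm_apply (differentiableAt_const w)
  have c5 : fderiv ℝ (fun z => chrL G₂ (τ z)) y u = fderiv ℝ (chrL G₂) (τ y) (fderiv ℝ τ y u) := by
    have := fderiv_fun_comp (G := E →L[ℝ] E →L[ℝ] E) (g := chrL G₂) (f := τ) y
      (h₂.loc_diff_chrL hτy) hd
    rw [this]
    rfl
  have h := congrArg (fun L : E →L[ℝ] E => L u) ev.fderiv_eq
  rw [fderiv_clm_apply hD c1, fderiv_fun_add c4 ((c2.clm_apply (c3 v)).clm_apply (c3 w)),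
    ContinuousLinearMap.add_apply, ContinuousLinearMap.add_apply,
    loc_fderiv_app2 c2 (c3 v) (c3 w), loc_fderiv_app2c hDD, loc_fderiv_app1c hD,
    loc_fderiv_app1c hD, c5, ContinuousLinearMap.comp_apply, ContinuousLinearMap.flip_apply] at h
  rw [map_add, chr_transform h₁ h₂ hy hτy hτ2 iso u, chr_transform h₁ h₂ hy hτy hτ2 iso v w,
    ← chrL_apply G₂, ← chrL_apply G₂, map_add, ← add_assoc, h]
  abel

theorem riem_transform {G₁ G₂ : E → E →L[ℝ] E →L[ℝ] ℝ} {U₁ U₂ : Set E} (h₁ : LocMetric G₁ U₁)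
    (h₂ : LocMetric G₂ U₂) {τ : E → E} {y : E} (hy : y ∈ U₁) (hτy : τ y ∈ U₂)
    (hτ : ContDiffAt ℝ 3 τ y)
    (iso : ∀ᶠ z in 𝓝 y, ∀ u v, G₁ z u v = G₂ (τ z) (fderiv ℝ τ z u) (fderiv ℝ τ z v)) (u v w : E) :
    fderiv ℝ τ y (riem G₁ y u v w) =
      riem G₂ (τ y) (fderiv ℝ τ y u) (fderiv ℝ τ y v) (fderiv ℝ τ y w) := by
  have s2 : fderiv ℝ (fderiv ℝ τ) y u v = fderiv ℝ (fderiv ℝ τ) y v u :=
    (hτ.isSymmSndFDerivAt (by simp; norm_num)).eq u v
  have s3 : fderiv ℝ (fderiv ℝ (fderiv ℝ τ)) y u v = fderiv ℝ (fderiv ℝ (fderiv ℝ τ)) y v u :=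
    ((hτ.fderiv_right (m := 2) (by norm_num)).isSymmSndFDerivAt (by simp)).eq u v
  have k1 := geom_key h₁ h₂ hy hτy hτ iso u v w
  have k2 := geom_key h₁ h₂ hy hτy hτ iso v u w
  have e1 : riem G₁ y u v w = (fderiv ℝ (fun z => chr G₁ z v w) y u + chr G₁ y u (chr G₁ y v w)) -
      (fderiv ℝ (fun z => chr G₁ z u w) y v + chr G₁ y v (chr G₁ y u w)) := by
    unfold riem
    abel
  rw [e1, map_sub, k1, k2, s2, s3, riem, h₂.loc_fderiv_chr hτy, h₂.loc_fderiv_chr hτy]
  simp only [chrL_apply]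
  abel

end Vale.Agent.P219
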