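import Vale.Agent.P219.Basic
import Vale.Agent.P219.GeoM

/-!
# The exponential map in a global chart  (TASK)

Make `g : Metric E E` with `g.g _ = G` (the atlas of the model space is `{OpenPartialHomeomorph.refl E}`: `chartedSpaceSelf_atlas`,
`chartAt_self_eq`), prove `Metric.Cpl g` and `g.NPC`, and put `Ex = g.expC`, `W y v t = deriv (g.geoC y v) t`.  Use `exp_smulC`, `geo_isGeodesicC`,
`geo_speedC`, `geo_addC`, `geo_smulC` (for `rev`), `exp_gaussC`, `NPC.exp_expandC`, `exp_isHomeomorph` (a normed space is contractible, hence simply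
connected) and `contDiffAt_expE` (`expE_self`) from the files `PortGeo`, `PortCover`, `PortN`, `GeoM`.
-/

namespace Vale.Agent.P219

open scoped ContDiff Topology RealInnerProductSpace
open MeasureTheory Set Vale.Agent.P255

variable {E : Type*} [NormedAddCommGroup E] [InnerProductSpace ℝ E] [FiniteDimensional ℝ E]

/-- A complete metric of nonpositive curvature on `E`. -/
structure CH (G : E → Bil E) : Prop where
  loc : LocMetric G univ
  npc : ∀ y u v, G y (riem G y u v v) u ≤ 0
  cpl : ∀ y v, ∃ γ w : ℝ → E, γ 0 = y ∧ w 0 = v ∧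
    ∀ t, HasDerivAt γ (w t) t ∧ HasDerivAt w (-chr G (γ t) (w t) (w t)) t

/-- The exponential map `Ex` and the velocity `W` of the radial geodesics. -/
structure ExpPack (G : E → Bil E) (Ex : E → E → E) (W : E → E → ℝ → E) : Prop where
  loc : LocMetric G univ
  smooth : ContDiff ℝ ∞ fun z : E × E => Ex z.1 z.2
  zero : ∀ y, Ex y 0 = y
  vel0 : ∀ y v, W y v 0 = v
  d1 : ∀ y v t, HasDerivAt (fun s : ℝ => Ex y (s • v)) (W y v t) t
  d2 : ∀ y v t, HasDerivAt (W y v) (-chr G (Ex y (t • v)) (W y v t) (W y v t)) t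
  speed : ∀ y v t, G (Ex y (t • v)) (W y v t) (W y v t) = G y v v
  rev : ∀ y v (s : ℝ), Ex (Ex y v) (s • -W y v 1) = Ex y ((1 - s) • v)
  gauss : ∀ y v h, G (Ex y v) (fderiv ℝ (Ex y) v h) (W y v 1) = G y h v
  expand : ∀ y v h, G y h h ≤ G (Ex y v) (fderiv ℝ (Ex y) v h) (fderiv ℝ (Ex y) v h)
  bij : ∀ y, Function.Bijective (Ex y)

/-- The metric on the model space with coefficients `G`. -/
noncomputable def geoe1Metric {G : E → Bil E} (h : LocMetric G univ) : Metric E E where
  g := fun _ => G
  smooth := fun _ _ => h.smooth.mono (subset_univ _)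
  symm := fun _ _ y _ => h.symm y (mem_univ y)
  pos := fun _ _ y _ => h.pos y (mem_univ y)
  compat := by
    intro e he e' he' x _ _ u v
    rw [chartedSpaceSelf_atlas] at he he'
    subst he he'
    have h1 : ((OpenPartialHomeomorph.refl E) ∘ (OpenPartialHomeomorph.refl E).symm : E → E) =
        id := rfl
    rw [h1, fderiv_id]
    rfl

omit [FiniteDimensional ℝ E] in
theorem geoe1_cpl {G : E → Bil E} (h : CH G) : Metric.Cpl (geoe1Metric h.loc) := by
  refine ⟨fun x v => ?_⟩
  obtain ⟨γ, w, h0, hw, hd⟩ := h.cpl x v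
  have hder : deriv γ = w := funext fun t => (hd t).1.deriv
  refine ⟨γ, ⟨fun t _ => (hd t).1.continuousAt.continuousWithinAt, ?_⟩, h0, ?_⟩
  · intro e he t _ _
    rw [chartedSpaceSelf_atlas] at he
    subst he
    change DifferentiableAt ℝ γ t ∧
      HasDerivAt (deriv γ) (-chr G (γ t) (deriv γ t) (deriv γ t)) t
    rw [hder]
    exact ⟨(hd t).1.differentiableAt, (hd t).2⟩
  · change deriv γ 0 = v
    rw [hder, hw]

theorem CH.exists_exp {G : E → Bil E} (h : CH G) : ∃ Ex W, ExpPack G Ex W := by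
  have := geoe1_cpl h
  set g := geoe1Metric h.loc with hg
  have hnpc : g.NPC := fun _ _ y _ u v => h.npc y u v
  have he : OpenPartialHomeomorph.refl E ∈ atlas E E := chartedSpaceSelf_atlas.2 rfl
  have hd : ∀ (y v : E) (t : ℝ), HasDerivAt (g.geoC y v) (deriv (g.geoC y v) t) t ∧
      HasDerivAt (deriv (g.geoC y v))
        (-chr G (g.geoC y v t) (deriv (g.geoC y v) t) (deriv (g.geoC y v) t)) t :=
    fun y v t => g.hasDerivAt_st_depC y v he (mem_univ _)
  refine ⟨g.expC, fun y v t => deriv (g.geoC y v) t, h.loc, ?_, g.exp_zeroC,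
    fun y v => g.geo_derivC y v, fun y v t => ?_, fun y v t => ?_, fun y v t => ?_,
    fun y v s => ?_, fun y v k => g.exp_gaussC y v k he (mem_univ _),
    fun y v k => hnpc.exp_expandC y v k he (mem_univ _),
    fun y => (exp_isHomeomorph g hnpc y).bijective⟩
  · rw [contDiff_iff_contDiffAt]
    intro p
    have h1 := contDiffAt_expE g he he (p := p) (mem_univ _) (mem_univ _)
    have h2 : (fun q : E × E => (OpenPartialHomeomorph.refl E)
        (expE g (OpenPartialHomeomorph.refl E) q.1 q.2)) = fun z : E × E => g.expC z.1 z.2 :=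
      funext fun q => expE_self g q.1 q.2
    rwa [h2] at h1
  · simp only [g.exp_smulC]
    exact (hd y v t).1
  · rw [g.exp_smulC]
    exact (hd y v t).2
  · rw [g.exp_smulC]
    exact g.geo_speedC y v t
  · have h1 : s • -deriv (g.geoC y v) 1 = (-s) • vel E (g.geoC y v) 1 := by
      rw [smul_neg, neg_smul]
      rfl
    rw [h1, g.exp_smulC, g.exp_smulC, sub_eq_add_neg]
    exact g.geo_addC y v 1 (-s)

end Vale.Agent.P219
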