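import Vale.Agent.P219.GeoE1
import Vale.Agent.P219.LinAlg

/-!
# The logarithm map  (TASK)

`exists_log`: `F (y, v) = (y, Ex y v)` is a smooth bijection of `E × E` whose derivative `(k, h) ↦ (k, ∂₁ k + fderiv (Ex y) v h)` is injective
(`expand`), hence an equivalence; so `F` is open, a homeomorphism, and `Homeomorph.contDiff_symm` applies; `L y x = (F⁻¹ (y, x)).2`.
Then, with `x = Ex y v`, `v = L y x`: `fderiv (Ex y) v ∘ fderiv (L y) x = id` (chain rule), which gives `det_ne`, `contr`; `L x y = -W y v 1`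
(`rev` at `s = 1`), which gives `sym` (`speed`) and, differentiating `L y (Ex y (t • v)) = t • v` at `t = 1`, `radial`.
`grad`: `qq z x = G x (L x z) (L x z)` by `sym`; differentiate in `z`, then `gauss` at `x` with `h = fderiv (L x) y h`.
`proper`: the set is the image under `Ex 0` of `{v | G 0 v v ≤ c}` (closed, bounded by `LocMetric.exists_bounds`).
-/

namespace Vale.Agent.P219

open scoped ContDiff Topology RealInnerProductSpace
open MeasureTheory Set Vale.Agent.P255

variable {E : Type*} [NormedAddCommGroup E] [InnerProductSpace ℝ E] [FiniteDimensional ℝ E]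
  {G : E → Bil E} {Ex L : E → E → E} {W : E → E → ℝ → E}

/-- `L` is the smooth inverse of `Ex`. -/
structure IsLog (Ex L : E → E → E) : Prop where
  smooth : ContDiff ℝ ∞ fun z : E × E => L z.1 z.2
  right : ∀ y x, Ex y (L y x) = x
  left : ∀ y v, L y (Ex y v) = v

theorem ExpPack.exists_log (h : ExpPack G Ex W) : ∃ L, IsLog Ex L := by
  have hF : ContDiff ℝ ∞ fun z : E × E => (z.1, Ex z.1 z.2) := contDiff_fst.prodMk h.smooth
  have hA : ∀ z : E × E, ∃ A : (E × E) ≃L[ℝ] (E × E),
      HasStrictFDerivAt (fun z : E × E => (z.1, Ex z.1 z.2)) (A : (E × E) →L[ℝ] (E × E)) z := by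
    intro z
    have d1 := h.smooth.contDiffAt.hasStrictFDerivAt (x := z) (by simp)
    have d2 := (hasStrictFDerivAt_fst (𝕜 := ℝ) (p := z)).prodMk d1
    have inj : Function.Injective ((ContinuousLinearMap.fst ℝ E E).prod
        (fderiv ℝ (fun z : E × E => Ex z.1 z.2) z)) := by
      rw [injective_iff_map_eq_zero]
      rintro ⟨k, l⟩ hk
      obtain ⟨h1, h2⟩ := Prod.mk_eq_zero.1 hk
      have h3 : k = 0 := h1
      subst h3
      have h4 : fderiv ℝ (Ex z.1) z.2 l = 0 := by
        have d3 : HasFDerivAt (Ex z.1) ((fderiv ℝ (fun z : E × E => Ex z.1 z.2) z).comp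
            (ContinuousLinearMap.inr ℝ E E)) z.2 :=
          HasFDerivAt.comp (g := fun z : E × E => Ex z.1 z.2) (f := fun x => (z.1, x)) z.2
            d1.hasFDerivAt (hasFDerivAt_prodMk_right (𝕜 := ℝ) z.1 z.2)
        rw [d3.fderiv]
        exact h2
      have h5 := h.expand z.1 z.2 l
      rw [h4, map_zero] at h5
      by_contra hc
      have h6 : l ≠ 0 := fun e => hc (by rw [e]; rfl)
      exact (h.loc.pos z.1 (mem_univ _) l h6).not_ge h5
    exact ⟨(LinearEquiv.ofInjectiveEndo ((ContinuousLinearMap.fst ℝ E E).prod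
      (fderiv ℝ (fun z : E × E => Ex z.1 z.2) z)).toLinearMap inj).toContinuousLinearEquiv, d2⟩
  choose A hA using hA
  have bij : Function.Bijective fun z : E × E => (z.1, Ex z.1 z.2) := by
    constructor
    · rintro ⟨y, v⟩ ⟨y', v'⟩ e
      obtain ⟨h1, h2⟩ := Prod.mk.inj e
      have h3 : y = y' := h1
      subst h3
      exact Prod.ext rfl ((h.bij y).1 h2)
    · rintro ⟨y, x⟩
      obtain ⟨v, hv⟩ := (h.bij y).2 x
      exact ⟨(y, v), Prod.ext rfl hv⟩
  have : CompleteSpace E := FiniteDimensional.complete ℝ E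
  let Φ : (E × E) ≃ₜ (E × E) := (Equiv.ofBijective _ bij).toHomeomorphOfContinuousOpen
    hF.continuous (isOpenMap_of_hasStrictFDerivAt_equiv hA)
  have hs : ContDiff ℝ ∞ Φ.symm := Φ.contDiff_symm (fun z => (hA z).hasFDerivAt) hF
  refine ⟨fun y x => (Φ.symm (y, x)).2, hs.snd, fun y x => ?_, fun y v => ?_⟩
  · have e : ((Φ.symm (y, x)).1, Ex (Φ.symm (y, x)).1 (Φ.symm (y, x)).2) = (y, x) :=
      Φ.apply_symm_apply (y, x)
    obtain ⟨h1, h2⟩ := Prod.mk.inj e
    rwa [h1] at h2
  · exact congrArg Prod.snd (Φ.symm_apply_apply (y, v))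

theorem geoe2_diff {F : E → E → E} (hF : ContDiff ℝ ∞ fun z : E × E => F z.1 z.2) (y : E) :
    Differentiable ℝ (F y) :=
  (hF.comp (contDiff_const.prodMk contDiff_id : ContDiff ℝ ∞ fun x : E => (y, x))).differentiable
    (by simp)

theorem geoe2_comp (h : ExpPack G Ex W) (hL : IsLog Ex L) (y x k : E) :
    fderiv ℝ (Ex y) (L y x) (fderiv ℝ (L y) x k) = k := by
  have d := ((geoe2_diff h.smooth y (L y x)).hasFDerivAt.comp x
    (geoe2_diff hL.smooth y x).hasFDerivAt).fderiv
  have e : Ex y ∘ L y = id := funext (hL.right y)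
  rw [e, fderiv_id] at d
  exact (congrArg (fun A : E →L[ℝ] E => A k) d).symm

theorem ExpPack.log_rev (h : ExpPack G Ex W) (hL : IsLog Ex L) (y x : E) :
    L x y = -W y (L y x) 1 := by
  have h1 := h.rev y (L y x) 1
  rw [hL.right, one_smul, sub_self, zero_smul, h.zero] at h1
  conv_lhs => rw [← h1]
  exact hL.left _ _

theorem ExpPack.det_ne (h : ExpPack G Ex W) (hL : IsLog Ex L) (y x : E) :
    (fderiv ℝ (L y) x).det ≠ 0 := by
  exact det_ne_of_injective (Function.LeftInverse.injective (geoe2_comp h hL y x))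

theorem ExpPack.contr (h : ExpPack G Ex W) (hL : IsLog Ex L) (y x k : E) :
    G y (fderiv ℝ (L y) x k) (fderiv ℝ (L y) x k) ≤ G x k k := by
  have h1 := h.expand y (L y x) (fderiv ℝ (L y) x k)
  rwa [geoe2_comp h hL, hL.right] at h1

theorem ExpPack.radial (h : ExpPack G Ex W) (hL : IsLog Ex L) (y x : E) :
    fderiv ℝ (L y) x (L x y) = -L y x := by
  have d1 := h.d1 y (L y x) 1
  have d2 := (geoe2_diff hL.smooth y x).hasFDerivAt.comp_hasDerivAt_of_eq 1 d1
    (by rw [one_smul, hL.right])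
  have e : (L y ∘ fun s : ℝ => Ex y (s • L y x)) = fun s : ℝ => s • L y x :=
    funext fun s => hL.left _ _
  rw [e] at d2
  have d3 := d2.unique ((hasDerivAt_id' (1 : ℝ)).smul_const (L y x))
  rw [h.log_rev hL y x, map_neg, d3, one_smul]

theorem ExpPack.sym (h : ExpPack G Ex W) (hL : IsLog Ex L) (y x : E) :
    qq G L y x = qq G L x y := by
  have h1 := h.speed y (L y x) 1
  rw [one_smul, hL.right] at h1
  rw [qq, qq, h.log_rev hL y x, ← h1]
  simp

theorem ExpPack.grad (h : ExpPack G Ex W) (hL : IsLog Ex L) (y x k : E) :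
    fderiv ℝ (fun z => qq G L z x) y k = -2 * G y (L y x) k := by
  have e : (fun z => qq G L z x) = fun z => G x (L x z) (L x z) := funext fun z => h.sym hL z x
  have d1 := (geoe2_diff hL.smooth x y).hasFDerivAt
  have d2 := (G x).hasFDerivAt_of_bilinear d1 d1
  have h1 := h.gauss x (L x y) (fderiv ℝ (L x) y k)
  rw [geoe2_comp h hL, hL.right] at h1
  rw [e, d2.fderiv, h.log_rev hL x y]
  simp only [add_apply, ContinuousLinearMap.precompR_apply,
    ContinuousLinearMap.precompL_apply, ContinuousLinearMap.compL_apply,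
    ContinuousLinearMap.comp_apply, map_neg, neg_apply]
  rw [h.loc.symm x (mem_univ _) (L x y), ← h1, h.loc.symm y (mem_univ _) k]
  ring

theorem ExpPack.proper (h : ExpPack G Ex W) (hL : IsLog Ex L) (c : ℝ) :
    IsCompact {y | qq G L y 0 ≤ c} := by
  have e : {y | qq G L y 0 ≤ c} = Ex 0 '' {v | G 0 v v ≤ c} := by
    ext y
    constructor
    · intro hy
      exact ⟨L 0 y, (h.sym hL 0 y).trans_le hy, hL.right 0 y⟩
    · rintro ⟨v, hv, rfl⟩
      show qq G L (Ex 0 v) 0 ≤ c
      rw [h.sym hL, qq, hL.left]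
      exact hv
  rw [e]
  refine IsCompact.image ?_ (geoe2_diff h.smooth 0).continuous
  obtain ⟨a, C, ha, -, hb⟩ := h.loc.exists_bounds (isCompact_singleton (x := (0 : E))) (subset_univ _)
  refine _root_.Metric.isCompact_of_isClosed_isBounded
    (isClosed_le ((G 0).continuous.clm_apply continuous_id) continuous_const) ?_
  refine (_root_.Metric.isBounded_closedBall (x := (0 : E)) (r := c / a + 1)).subset fun v hv => ?_
  have h1 : a * ‖v‖ ^ 2 ≤ c := (hb 0 rfl v).1.trans hv
  rw [mem_closedBall_zero_iff]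
  have h2 : ‖v‖ ^ 2 ≤ c / a := by rw [le_div_iff₀ ha]; linarith
  nlinarith [sq_nonneg (‖v‖ - 1), sq_nonneg ‖v‖]

end Vale.Agent.P219
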