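import Vale.Agent.P219.Core

/-!
# The isoperimetric inequality in a global chart  (TASK)

Scaling: `chr` is not needed; every field of `Pack` is homogeneous (`qq` is multiplied by `l ^ 2`); `wt_scale`, `dn_scale`.
`ineq`: suppose `D₀.area < prof`.  Choose `c > 0` with `D₀.Ω ⊆ K = {qq y 0 ≤ c}` (`contDiff_qq` is bounded on the compact closure).
The set of values `area - prof vol` of domains inside `K` is bounded below by `-prof (vol K)`; let `m < 0` be its infimum and
`D k` a minimising sequence; volumes lie in `[0, vol K]`, a subsequence converges to `V`, and `prof V ≥ -m > 0` so `V > 0`.  Let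
`l ^ 5 V = om E`; for the metric `l ^ 2 • G` the functional is multiplied by `l ^ 4` and `K = {qq' y 0 ≤ l ^ 2 c}`.  `core` with
`δ = -l ^ 4 m / 2` applies to `D k` for large `k` and produces a value below the infimum.
-/

namespace Vale.Agent.P219

open scoped ContDiff Topology RealInnerProductSpace
open MeasureTheory Set Vale.Agent.P255

variable {E : Type*} [NormedAddCommGroup E] [InnerProductSpace ℝ E] [FiniteDimensional ℝ E]
  [MeasurableSpace E] [BorelSpace E]
  {X : Type*} [MeasurableSpace X] {μ : Measure X}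
  {G : E → Bil E} {L : E → E → E}

omit [FiniteDimensional ℝ E] [MeasurableSpace E] [BorelSpace E] in
theorem main_qq (G : E → Bil E) (L : E → E → E) (l : ℝ) (y x : E) :
    qq (fun y => l ^ 2 • G y) L y x = l ^ 2 * qq G L y x := rfl

omit [MeasurableSpace E] [BorelSpace E] in
theorem Pack.scale (hP : Pack G L) {l : ℝ} (hl : 0 < l) : Pack (fun y => l ^ 2 • G y) L := by
  have h2 : 0 < l ^ 2 := pow_pos hl 2
  have hG : ContDiff ℝ ∞ G := contDiffOn_univ.1 hP.loc.smooth
  refine ⟨⟨isOpen_univ, (hG.const_smul _).contDiffOn, fun y hy u v => ?_, fun y hy u hu => ?_⟩,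
    hP.smooth, hP.self, hP.inj, hP.det_ne, fun y x k => ?_, hP.radial, fun y x => ?_,
    fun y x h => ?_, fun y o x => ?_, fun y x h => ?_, fun c => ?_⟩
  · exact congrArg (l ^ 2 * ·) (hP.loc.symm y hy u v)
  · exact mul_pos h2 (hP.loc.pos y hy u hu)
  · exact mul_le_mul_of_nonneg_left (hP.contr y x k) h2.le
  · rw [main_qq, main_qq, hP.sym]
  · have hd : DifferentiableAt ℝ (fun z => qq G L z x) y :=
      ((hP.contDiff_qq.comp (contDiff_id.prodMk contDiff_const)).differentiable (by simp)) y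
    simp only [main_qq]
    rw [fderiv_const_mul hd]
    simp only [smul_apply, smul_eq_mul, hP.grad]
    ring
  · exact mul_le_mul_of_nonneg_left (hP.cos y o x) h2.le
  · rw [fderiv_fun_const_smul (hG.differentiable (by simp) y)]
    simp only [smul_apply, smul_eq_mul]
    linarith [mul_le_mul_of_nonneg_left (hP.hess y x h) h2.le]
  · simpa only [main_qq, ← le_div_iff₀' h2] using hP.proper (c / l ^ 2)

theorem vol_scale (hE : Module.finrank ℝ E = 5) (G : E → Bil E) {l : ℝ} (hl : 0 < l) (S : Set E) :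
    vol (fun y => l ^ 2 • G y) S = l ^ 5 * vol G S := by
  simp only [vol, wt_scale _ hl, hE, integral_const_mul]

theorem Dom.area_scale (hE : Module.finrank ℝ E = 5) (hG : LocMetric G univ) {l : ℝ} (hl : 0 < l)
    (D : Dom E μ) : D.area (fun y => l ^ 2 • G y) = l ^ 4 * D.area G := by
  simp only [Dom.area, ad, wt_scale _ hl, dn_scale (posB_of_loc hG _) hl, hE,
    ← integral_const_mul]
  refine integral_congr_ae (Filter.Eventually.of_forall fun ξ => ?_)
  field_simp

theorem Pack.exists_level (hP : Pack G L) (D : Dom E μ) :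
    ∃ c : ℝ, 0 < c ∧ D.Ω ⊆ {y | qq G L y 0 ≤ c} := by
  have hc : Continuous fun y => qq G L y 0 :=
    hP.contDiff_qq.continuous.comp (continuous_id.prodMk continuous_const)
  obtain ⟨C, hC⟩ := D.isCompact_closure.exists_bound_of_continuousOn hc.continuousOn
  refine ⟨|C| + 1, by positivity, fun y hy => ?_⟩
  have h1 := (le_abs_self _).trans (hC y (subset_closure hy))
  change qq G L y 0 ≤ _
  linarith [le_abs_self C]

theorem Pack.ineq [SFinite μ] (hE : Module.finrank ℝ E = 5) (hP : Pack G L) (D : Dom E μ) :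
    prof (om E) (vol G D.Ω) ≤ D.area G := by
  by_contra h0
  obtain ⟨c, hc, hD⟩ := hP.exists_level D
  set K := {y | qq G L y 0 ≤ c} with hK
  have bK : Bornology.IsBounded K := (hP.proper c).isBounded
  have ho : 0 < om E := om_pos
  have ha : ∀ D : Dom E μ, 0 ≤ D.area G := fun D => integral_nonneg fun ξ => ad_nonneg _ _
  set S := {t | ∃ D : Dom E μ, D.Ω ⊆ K ∧ D.area G - prof (om E) (vol G D.Ω) = t} with hS
  have bS : BddBelow S := ⟨-prof (om E) (vol G K), by
    rintro _ ⟨D, h1, rfl⟩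
    linarith [ha D, prof_mono ho (vol_nonneg G D.Ω) (vol_mono hP.loc bK h1)]⟩
  have hm : sInf S < 0 := (csInf_le bS ⟨D, hD, rfl⟩).trans_lt (by linarith [not_le.1 h0])
  obtain ⟨u, -, hu, hu'⟩ := exists_seq_tendsto_sInf (S := S) ⟨_, D, hD, rfl⟩ bS
  choose A hA hA' using hu'
  obtain ⟨V, hV, φ, hφ, hφ'⟩ := (isCompact_Icc (a := 0) (b := vol G K)).tendsto_subseq
    (x := fun k => vol G (A k).Ω) fun k => ⟨vol_nonneg _ _, vol_mono hP.loc bK (hA k)⟩
  have hu2 := hu.comp hφ.tendsto_atTop
  have h1 : -sInf S ≤ prof (om E) V :=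
    le_of_tendsto_of_tendsto' hu2.neg (((continuous_prof _).tendsto V).comp hφ') fun k => by
      simp only [Function.comp]
      linarith [hA' (φ k), ha (A (φ k))]
  have hV0 : 0 < V := hV.1.lt_of_ne (by
    rintro rfl
    simp [prof] at h1
    linarith)
  obtain ⟨l, hl, hl5⟩ : ∃ l : ℝ, 0 < l ∧ l ^ 5 * V = om E := by
    refine ⟨(om E / V) ^ ((5 : ℕ) : ℝ)⁻¹, by positivity, ?_⟩
    rw [Real.rpow_inv_natCast_pow (by positivity) (by norm_num), div_mul_cancel₀ _ hV0.ne']
  have h4 : 0 < l ^ 4 := pow_pos hl 4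
  obtain ⟨θ, γ, hθ, hγ, h⟩ := (hP.scale hl).core (μ := μ) hE (c := l ^ 2 * c)
    (δ := -(l ^ 4 * (sInf S / 2))) (by positivity) (by nlinarith)
  have eK : {y | qq (fun y => l ^ 2 • G y) L y 0 ≤ l ^ 2 * c} = K := by
    simp only [main_qq, mul_le_mul_iff_right₀ (pow_pos hl 2), hK]
  simp only [eK, vol_scale hE G hl, Dom.area_scale hE hP.loc hl,
    prof_scale (vol_nonneg _ _) hl] at h
  have t1 := (hφ'.const_mul (l ^ 5)).eventually (Metric.closedBall_mem_nhds _ hθ)
  have t2 := hu2.eventually (gt_mem_nhds (by linarith : sInf S < sInf S / 2))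
  have t3 := hu2.eventually (gt_mem_nhds (lt_add_of_pos_right _ (div_pos hγ h4)))
  obtain ⟨k, k1, k2, k3⟩ := (t1.and (t2.and t3)).exists
  simp only [Function.comp, ← hA'] at k1 k2 k3
  rw [hl5, Real.dist_eq] at k1
  obtain ⟨D', d1, d2⟩ := h _ (hA _) k1 (by nlinarith)
  have d3 := mul_le_mul_of_nonneg_left (csInf_le bS ⟨D', d1, rfl⟩) h4.le
  have d4 := mul_lt_mul_of_pos_left k3 h4
  rw [mul_add, mul_div_cancel₀ _ h4.ne'] at d4
  linarith

end Vale.Agent.P219
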