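import Vale.Agent.P219.Basic

/-!
# Integrals depending on a parameter  (TASK)

Prove by induction on `n` (generalising the target space `F`, finite dimensional or complete): if `k : E × E → F` is `Cⁿ`
and `S ⊆ K` is measurable then `y ↦ ∫ x in S, k (y, x)` is `Cⁿ`; continuity from `continuous_parametric_integral_of_continuous`
or `continuous_of_dominated` / `continuousAt_of_dominated`, the derivative from `hasFDerivAt_integral_of_dominated_of_fderiv_le`
(bounds: continuous functions on `closedBall y 1 ×ˢ K`), with `k₁ (y, x) = (fderiv ℝ k (y, x)).comp (inl ℝ E E)`.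
The uniform bounds: `k` and `k₁` are bounded on `K' ×ˢ K` and vanish for `y ∉ K'` (open condition); `volume S ≤ volume K < ∞`.
-/

namespace Vale.Agent.P219

open scoped ContDiff Topology RealInnerProductSpace
open MeasureTheory Set Vale.Agent.P255

variable {E : Type*} [NormedAddCommGroup E] [InnerProductSpace ℝ E] [FiniteDimensional ℝ E]
  [MeasurableSpace E] [BorelSpace E]

section

variable {F : Type*} [NormedAddCommGroup F] [NormedSpace ℝ F] {k : E × E → F} {K K' S : Set E}

/-- the derivative in the first variable -/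
noncomputable def paramD (k : E × E → F) (p : E × E) : E →L[ℝ] F :=
  (fderiv ℝ k p).comp (ContinuousLinearMap.inl ℝ E E)

omit [FiniteDimensional ℝ E] [MeasurableSpace E] [BorelSpace E] in
theorem param_hasD (hk : ContDiff ℝ 1 k) (y x : E) :
    HasFDerivAt (fun z => k (z, x)) (paramD k (y, x)) y :=
  (hk.differentiable one_ne_zero (y, x)).hasFDerivAt.comp y (hasFDerivAt_prodMk_left y x)

omit [FiniteDimensional ℝ E] [MeasurableSpace E] [BorelSpace E] in
theorem param_smooth {m n : WithTop ℕ∞} (hk : ContDiff ℝ n k) (h : m + 1 ≤ n) :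
    ContDiff ℝ m (paramD k) :=
  (hk.fderiv_right h).clm_comp contDiff_const

omit [NormedSpace ℝ F] in
theorem param_int (hk : Continuous k) (hK : IsCompact K) (hS : S ⊆ K) (y : E) :
    IntegrableOn (fun x => k (y, x)) S :=
  ((hk.comp (Continuous.prodMk_right y)).continuousOn.integrableOn_compact hK).mono_set hS

theorem param_const (hK : IsCompact K) (hS : S ⊆ K) (C : ℝ) :
    Integrable (fun _ : E => C) (volume.restrict S) :=
  (continuous_const.continuousOn.integrableOn_compact hK).mono_set hS

theorem param_cont (hk : Continuous k) (hK : IsCompact K) (hm : MeasurableSet S) (hS : S ⊆ K) :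
    Continuous fun y => ∫ x in S, k (y, x) := by
  refine continuous_iff_continuousAt.2 fun y => ?_
  obtain ⟨C, hC⟩ := ((isCompact_closedBall y 1).prod hK).exists_bound_of_continuousOn
    hk.continuousOn
  refine continuousAt_of_dominated (bound := fun _ => C)
    (.of_forall fun z => (param_int hk hK hS z).aestronglyMeasurable) ?_ (param_const hK hS C)
    (.of_forall fun x => (hk.comp (Continuous.prodMk_left x)).continuousAt)
  filter_upwards [Metric.closedBall_mem_nhds y one_pos] with z hz
  filter_upwards [ae_restrict_mem hm] with x hx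
  exact hC (z, x) ⟨hz, hS hx⟩

theorem param_der (hk : ContDiff ℝ 1 k) (hK : IsCompact K) (hm : MeasurableSet S) (hS : S ⊆ K)
    (y : E) : HasFDerivAt (fun y => ∫ x in S, k (y, x)) (∫ x in S, paramD k (y, x)) y := by
  have hD : Continuous (paramD k) := (param_smooth (m := 0) hk (by simp)).continuous
  obtain ⟨C, hC⟩ := ((isCompact_closedBall y 1).prod hK).exists_bound_of_continuousOn
    hD.continuousOn
  refine hasFDerivAt_integral_of_dominated_of_fderiv_le (F' := fun z x => paramD k (z, x))
    (bound := fun _ => C) (Metric.closedBall_mem_nhds y one_pos)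
    (.of_forall fun z => (param_int hk.continuous hK hS z).aestronglyMeasurable)
    (param_int hk.continuous hK hS y) (param_int hD hK hS y).aestronglyMeasurable ?_
    (param_const hK hS C) (.of_forall fun x z _ => param_hasD hk z x)
  filter_upwards [ae_restrict_mem hm] with x hx z hz
  exact hC (z, x) ⟨hz, hS hx⟩

theorem param_one (hk : ContDiff ℝ 1 k) (hK : IsCompact K) (hm : MeasurableSet S) (hS : S ⊆ K) :
    ContDiff ℝ 1 fun y => ∫ x in S, k (y, x) := by
  rw [contDiff_one_iff_fderiv]
  refine ⟨fun y => (param_der hk hK hm hS y).differentiableAt, ?_⟩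
  rw [funext fun y => (param_der hk hK hm hS y).fderiv]
  exact param_cont (param_smooth (m := 0) hk (by simp)).continuous hK hm hS

theorem param_two (hk : ContDiff ℝ 2 k) (hK : IsCompact K) (hm : MeasurableSet S) (hS : S ⊆ K) :
    ContDiff ℝ 2 fun y => ∫ x in S, k (y, x) := by
  have h1 : ContDiff ℝ 1 k := hk.of_le one_le_two
  rw [← one_add_one_eq_two, contDiff_succ_iff_fderiv]
  refine ⟨fun y => (param_der h1 hK hm hS y).differentiableAt, by simp, ?_⟩
  rw [funext fun y => (param_der h1 hK hm hS y).fderiv]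
  exact param_one (param_smooth hk one_add_one_eq_two.le) hK hm hS

theorem param_bd (hk : Continuous k) (hK : IsCompact K) (hK' : IsCompact K')
    (h0 : ∀ y ∉ K', ∀ x, k (y, x) = 0) :
    ∃ C : ℝ, 0 < C ∧ ∀ S ⊆ K, ∀ y, ‖∫ x in S, k (y, x)‖ ≤ C := by
  obtain ⟨C, hC⟩ := (hK'.prod hK).exists_bound_of_continuousOn hk.continuousOn
  refine ⟨|C| * volume.real K + 1, by positivity, fun S hS y => ?_⟩
  have h1 := norm_setIntegral_le_of_norm_le_const (μ := volume) (f := fun x => k (y, x)) (C := |C|)
    ((measure_mono hS).trans_lt hK.measure_lt_top) fun x hx => by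
      by_cases hy : y ∈ K'
      · exact (hC (y, x) ⟨hy, hS hx⟩).trans (le_abs_self C)
      · rw [h0 y hy, norm_zero]
        exact abs_nonneg C
  have h2 := mul_le_mul_of_nonneg_left
    (measureReal_mono (μ := volume) hS hK.measure_lt_top.ne) (abs_nonneg C)
  linarith

end

theorem exists_param {k : E × E → E} (hk : ContDiff ℝ 2 k) {K K' : Set E} (hK : IsCompact K)
    (hK' : IsCompact K') (h0 : ∀ y ∉ K', ∀ x, k (y, x) = 0) :
    ∃ C : ℝ, 0 < C ∧ ∀ S : Set E, MeasurableSet S → S ⊆ K →
      ContDiff ℝ 2 (fun y => ∫ x in S, k (y, x)) ∧ ∀ y,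
        ‖∫ x in S, k (y, x)‖ ≤ C ∧ ‖fderiv ℝ (fun y => ∫ x in S, k (y, x)) y‖ ≤ C ∧
        IntegrableOn (fun x => k (y, x)) S ∧
        IntegrableOn (fun x => fderiv ℝ (fun z => k (z, x)) y) S ∧
        fderiv ℝ (fun y => ∫ x in S, k (y, x)) y = ∫ x in S, fderiv ℝ (fun z => k (z, x)) y := by
  have h1 : ContDiff ℝ 1 k := hk.of_le one_le_two
  have hD : Continuous (paramD k) := (param_smooth (m := 0) h1 (by simp)).continuous
  have he : ∀ y x, fderiv ℝ (fun z => k (z, x)) y = paramD k (y, x) := fun y x =>
    (param_hasD h1 y x).fderiv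
  obtain ⟨C, hC, hC'⟩ := param_bd hk.continuous hK hK' h0
  obtain ⟨D, -, hD'⟩ := param_bd hD hK hK' fun y hy x => by
    rw [← he]
    have e : (fun z => k (z, x)) =ᶠ[𝓝 y] fun _ => 0 := by
      filter_upwards [hK'.isClosed.isOpen_compl.mem_nhds hy] with z hz
      exact h0 z hz x
    rw [e.fderiv_eq]
    simp
  refine ⟨max C D, lt_max_of_lt_left hC, fun S hm hS => ⟨param_two hk hK hm hS, fun y => ?_⟩⟩
  simp only [he]
  rw [(param_der h1 hK hm hS y).fderiv]
  exact ⟨(hC' S hS y).trans (le_max_left _ _), (hD' S hS y).trans (le_max_right _ _),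
    param_int hk.continuous hK hS y, param_int hD hK hS y, rfl⟩

end Vale.Agent.P219
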