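import Vale.Agent.P219.Det

/-!
# The Piola identity  (TASK)

Write `A y = fderiv Φ y`.  Near `y` the sign `s` of `det A` is constant, so `|det A| = s det A` there.  With
`u = A⁻¹ Z(Φ y)` and `S = fderiv A y` (symmetric: `ContDiffAt.isSymmSndFDerivAt`), the derivative of `pio` in the
direction `h` is `s det A • (tr (A⁻¹ (S h)) • u - A⁻¹ (S h u) + A⁻¹ (DZ (A h)))` (`fderiv_det`; derivative of the inverse:
differentiate `A (A⁻¹ w) = w`, or `hasFDerivAt_ringInverse`).  Traces: the rank one map `h ↦ ℓ h • u` has trace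
`ℓ u` (`LinearMap.trace_smulRight`), and `tr (A⁻¹ (S u)) = tr (h ↦ A⁻¹ (S h u))` by symmetry; `tr (A⁻¹ DZ A) = tr DZ`
(`LinearMap.trace_comp_comm`).
-/

namespace Vale.Agent.P219

open scoped ContDiff Topology RealInnerProductSpace
open MeasureTheory Set Vale.Agent.P255

variable {E : Type*} [NormedAddCommGroup E] [InnerProductSpace ℝ E] [FiniteDimensional ℝ E]

/-- The Piola transform of a vector field. -/
noncomputable def pio (Φ Z : E → E) (y : E) : E :=
  |(fderiv ℝ Φ y).det| • (fderiv ℝ Φ y).inverse (Z (Φ y))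

omit [FiniteDimensional ℝ E] in
theorem piola_contDiff_fderiv {Φ : E → E} (hΦ : Diffeo Φ) : ContDiff ℝ 1 (fderiv ℝ Φ) :=
  hΦ.smooth.fderiv_right (m := 1) (by norm_num)

theorem piola_contDiff_det {Φ : E → E} (hΦ : Diffeo Φ) :
    ContDiff ℝ 1 fun y => (fderiv ℝ Φ y).det :=
  (contDiff_det.of_le (by exact_mod_cast le_top)).comp (piola_contDiff_fderiv hΦ)

theorem piola_contDiff_inv {Φ Z : E → E} (hΦ : Diffeo Φ) (hZ : ContDiff ℝ 1 Z) :
    ContDiff ℝ 1 fun y => (fderiv ℝ Φ y).inverse (Z (Φ y)) := by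
  have h1 : ContDiff ℝ 1 fun y => (fderiv ℝ Φ y).inverse := by
    refine contDiff_iff_contDiffAt.2 fun y => ?_
    exact (isInvertible_of_det (hΦ.det_ne y)).contDiffAt_map_inverse.comp y
      (piola_contDiff_fderiv hΦ).contDiffAt
  exact h1.clm_apply (hZ.comp (hΦ.smooth.of_le (by norm_num)))

theorem contDiff_pio {Φ Z : E → E} (hΦ : Diffeo Φ) (hZ : ContDiff ℝ 1 Z) :
    ContDiff ℝ 1 (pio Φ Z) :=
  ((piola_contDiff_det hΦ).abs hΦ.det_ne).smul (piola_contDiff_inv hΦ hZ)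

theorem piola_fderiv_abs {Φ : E → E} (hΦ : Diffeo Φ) (y h : E) :
    fderiv ℝ (fun x => |(fderiv ℝ Φ x).det|) y h = |(fderiv ℝ Φ y).det| *
      LinearMap.trace ℝ E
        ((fderiv ℝ Φ y).inverse.comp (fderiv ℝ (fderiv ℝ Φ) y h) : E →L[ℝ] E) := by
  have hA : HasFDerivAt (fderiv ℝ Φ) (fderiv ℝ (fderiv ℝ Φ) y) y :=
    ((piola_contDiff_fderiv hΦ).differentiable one_ne_zero y).hasFDerivAt
  have hd : HasFDerivAt (fun A : E →L[ℝ] E => A.det)
      (fderiv ℝ (fun A : E →L[ℝ] E => A.det) (fderiv ℝ Φ y)) (fderiv ℝ Φ y) :=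
    (contDiff_det.differentiable (by simp) _).hasFDerivAt
  have h1 := (hd.comp y hA).abs (hΦ.det_ne y)
  have h2 : fderiv ℝ (fun x => |(fderiv ℝ Φ x).det|) y = _ := h1.fderiv
  rw [h2]
  simp only [smul_apply, ContinuousLinearMap.comp_apply, Function.comp_apply,
    smul_eq_mul]
  rw [fderiv_det (hΦ.det_ne y), ← mul_assoc, sign_mul_self]

theorem piola_fderiv_inv {Φ Z : E → E} (hΦ : Diffeo Φ) (hZ : ContDiff ℝ 1 Z) (y : E) :
    fderiv ℝ (fun x => (fderiv ℝ Φ x).inverse (Z (Φ x))) y =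
      ((fderiv ℝ Φ y).inverse.comp (fderiv ℝ Z (Φ y))).comp (fderiv ℝ Φ y) -
        (fderiv ℝ Φ y).inverse.comp
          (fderiv ℝ (fderiv ℝ Φ) y ((fderiv ℝ Φ y).inverse (Z (Φ y)))) := by
  have hA : HasFDerivAt (fderiv ℝ Φ) (fderiv ℝ (fderiv ℝ Φ) y) y :=
    ((piola_contDiff_fderiv hΦ).differentiable one_ne_zero y).hasFDerivAt
  have hW : HasFDerivAt (fun x => (fderiv ℝ Φ x).inverse (Z (Φ x)))
      (fderiv ℝ (fun x => (fderiv ℝ Φ x).inverse (Z (Φ x))) y) y :=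
    ((piola_contDiff_inv hΦ hZ).differentiable one_ne_zero y).hasFDerivAt
  have h1 := hA.clm_apply hW
  have h2 : HasFDerivAt (fun x => Z (Φ x)) ((fderiv ℝ Z (Φ y)).comp (fderiv ℝ Φ y)) y :=
    (hZ.differentiable one_ne_zero (Φ y)).hasFDerivAt.comp y
      (hΦ.smooth.differentiable (by norm_num) y).hasFDerivAt
  have h3 : (fun x => fderiv ℝ Φ x ((fderiv ℝ Φ x).inverse (Z (Φ x)))) = fun x => Z (Φ x) := by
    funext x
    exact (isInvertible_of_det (hΦ.det_ne x)).self_apply_inverse _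
  rw [h3] at h1
  have h4 := h1.unique h2
  have hs : IsSymmSndFDerivAt ℝ Φ y := hΦ.smooth.contDiffAt.isSymmSndFDerivAt (by simp)
  have hi := isInvertible_of_det (hΦ.det_ne y)
  ext h
  have h5 := congrArg (fun T : E →L[ℝ] E => (fderiv ℝ Φ y).inverse (T h)) h4
  simp only [add_apply, ContinuousLinearMap.comp_apply,
    ContinuousLinearMap.flip_apply, map_add, hi.inverse_apply_self] at h5
  simp only [sub_apply, ContinuousLinearMap.comp_apply]
  rw [← h5, hs h]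
  abel

theorem dvg_pio {Φ Z : E → E} (hΦ : Diffeo Φ) (hZ : ContDiff ℝ 1 Z) (y : E) :
    dvg (pio Φ Z) y = |(fderiv ℝ Φ y).det| * dvg Z (Φ y) := by
  have h1 := dvg_smul (f := fun x => |(fderiv ℝ Φ x).det|)
    (Z := fun x => (fderiv ℝ Φ x).inverse (Z (Φ x))) (y := y)
    (((piola_contDiff_det hΦ).abs hΦ.det_ne).differentiable one_ne_zero y)
    ((piola_contDiff_inv hΦ hZ).differentiable one_ne_zero y)
  have h2 : dvg (pio Φ Z) y = _ := h1
  have hi := isInvertible_of_det (hΦ.det_ne y)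
  have h3 : LinearMap.trace ℝ E
      ((((fderiv ℝ Φ y).inverse.comp (fderiv ℝ Z (Φ y))).comp (fderiv ℝ Φ y) : E →L[ℝ] E) :
        E →ₗ[ℝ] E) = dvg Z (Φ y) := by
    rw [ContinuousLinearMap.toLinearMap_comp, LinearMap.trace_comp_comm',
      ← ContinuousLinearMap.toLinearMap_comp,
      ← ContinuousLinearMap.comp_assoc, hi.self_comp_inverse, ContinuousLinearMap.id_comp]
    rfl
  rw [h2, piola_fderiv_abs hΦ]
  have h4 : dvg (fun x => (fderiv ℝ Φ x).inverse (Z (Φ x))) y = dvg Z (Φ y) -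
      LinearMap.trace ℝ E ((fderiv ℝ Φ y).inverse.comp
          (fderiv ℝ (fderiv ℝ Φ) y ((fderiv ℝ Φ y).inverse (Z (Φ y)))) : E →L[ℝ] E) := by
    rw [← h3, ← map_sub, ← ContinuousLinearMap.toLinearMap_sub, ← piola_fderiv_inv hΦ hZ y]
    rfl
  rw [h4]
  ring

end Vale.Agent.P219
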