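import Vale.Agent.P219.PortCover
import Vale.Agent.P234.FlowN

/-!
# Smooth dependence of geodesics on point and velocity (port of `P234/Basic`, `P234/DepN`)
-/

namespace Vale.Agent.P219

open scoped ContDiff Topology Manifold
open Vale.Agent.P255 Set Filter

variable {E M : Type*} [NormedAddCommGroup E] [NormedSpace ℝ E] [FiniteDimensional ℝ E]
  [TopologicalSpace M] [ChartedSpace E M] [IsManifold 𝓘(ℝ, E) ∞ M]
  {e e' : OpenPartialHomeomorph M E} (g : Metric E M)

/-- Change of components from `chartAt x` to `e`. -/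
noncomputable def tr (e : OpenPartialHomeomorph M E) (x : M) : E →L[ℝ] E :=
  fderiv ℝ (e ∘ (chartAt E x).symm) (chartAt E x x)

/-- Change of components from `e` to `chartAt x`. -/
noncomputable def trI (e : OpenPartialHomeomorph M E) (x : M) : E →L[ℝ] E :=
  fderiv ℝ (chartAt E x ∘ e.symm) (e x)

theorem tr_self (x : M) (u : E) : tr (chartAt E x) x u = u := by
  exact fderiv_tr_self (mem_chart_source E x) u

theorem trI_self (x : M) (u : E) : trI (chartAt E x) x u = u := by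
  exact fderiv_tr_self (mem_chart_source E x) u

theorem tr_trI (he : e ∈ atlas E M) {x : M} (hx : x ∈ e.source) (u : E) :
    tr e x (trI e x u) = u := by
  unfold tr trI
  rw [fderiv_tr_trans he (chart_mem_atlas E x) he hx (mem_chart_source E x) hx, fderiv_tr_self hx]

theorem trI_tr (he : e ∈ atlas E M) {x : M} (hx : x ∈ e.source) (u : E) :
    trI e x (tr e x u) = u := by
  unfold tr trI
  rw [fderiv_tr_trans (chart_mem_atlas E x) he (chart_mem_atlas E x) (mem_chart_source E x) hx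
    (mem_chart_source E x), fderiv_tr_self (mem_chart_source E x)]

theorem tr_tr (he : e ∈ atlas E M) (he' : e' ∈ atlas E M) {x : M} (hx : x ∈ e.source)
    (hx' : x ∈ e'.source) (u : E) : tr e' x u = fderiv ℝ (e' ∘ e.symm) (e x) (tr e x u) := by
  unfold tr
  rw [fderiv_tr_trans (chart_mem_atlas E x) he he' (mem_chart_source E x) hx hx']

theorem ip_eq (he : e ∈ atlas E M) {x : M} (hx : x ∈ e.source) (u v : E) :
    g.ip x u v = g.g e (e x) (tr e x u) (tr e x v) := by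
  exact g.compat _ (chart_mem_atlas E x) e he x (mem_chart_source E x) hx u v

theorem hasDerivAt_tr (he : e ∈ atlas E M) {γ : ℝ → M} {t : ℝ} (hγ : ContinuousAt γ t)
    (hx : γ t ∈ e.source) (hd : DifferentiableAt ℝ (chartAt E (γ t) ∘ γ) t) :
    HasDerivAt (e ∘ γ) (tr e (γ t) (vel E γ t)) t := by
  exact hasDerivAt_chart (chart_mem_atlas E (γ t)) he hγ (mem_chart_source E _) hx hd.hasDerivAt

variable [T2Space M] [Metric.Cpl g]

theorem vel_geo_zero (x : M) (u : E) : vel E (g.geoC x u) 0 = u := by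
  rw [vel, g.geo_zeroC, g.geo_derivC]

theorem hasDerivAt_geo (he : e ∈ atlas E M) (x : M) (u : E) {t : ℝ} (h : g.geoC x u t ∈ e.source) :
    HasDerivAt (e ∘ g.geoC x u) (tr e (g.geoC x u t) (vel E (g.geoC x u) t)) t := by
  exact hasDerivAt_tr he (g.continuous_geoC x u).continuousAt h
    ((g.geo_isGeodesicC x u).2 _ (chart_mem_atlas E _) t (mem_univ t) (mem_chart_source E _)).1

/-- The geodesic with initial data `(a, w)` in the chart `e`. -/
noncomputable def geoE (e : OpenPartialHomeomorph M E) (a w : E) : ℝ → M :=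
  g.geoC (e.symm a) (trI e (e.symm a) w)

/-- The exponential map read in the chart `e`. -/
noncomputable def expE (e : OpenPartialHomeomorph M E) (a w : E) : M := geoE g e a w 1

theorem geoE_tr (he : e ∈ atlas E M) {x : M} (hx : x ∈ e.source) (u : E) :
    geoE g e (e x) (tr e x u) = g.geoC x u := by
  rw [geoE, e.left_inv hx, trI_tr he hx]

theorem expE_tr (he : e ∈ atlas E M) {x : M} (hx : x ∈ e.source) (u : E) :
    expE g e (e x) (tr e x u) = g.expC x u := by
  rw [expE, geoE_tr g he hx]; rfl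

theorem geoE_self (x : M) (u : E) : geoE g (chartAt E x) (chartAt E x x) u = g.geoC x u := by
  rw [← geoE_tr g (chart_mem_atlas E x) (mem_chart_source E x) u, tr_self]

theorem expE_self (x : M) (u : E) : expE g (chartAt E x) (chartAt E x x) u = g.expC x u := by
  rw [expE, geoE_self]; rfl

theorem geoE_zero (a w : E) : geoE g e a w 0 = e.symm a := g.geo_zeroC _ _

theorem geoE_smul (a w : E) (c t : ℝ) : geoE g e a (c • w) t = geoE g e a w (c * t) := by
  rw [geoE, map_smul, g.geo_smulC]; rfl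

theorem expE_zero (a : E) : expE g e a 0 = e.symm a := by
  rw [expE, geoE, map_zero]; exact g.exp_zeroC _

theorem geoE_deriv (he : e ∈ atlas E M) {a : E} (ha : a ∈ e.target) (w : E) :
    HasDerivAt (e ∘ geoE g e a w) w 0 := by
  have hx : g.geoC (e.symm a) (trI e (e.symm a) w) 0 ∈ e.source := by
    rw [g.geo_zeroC]; exact e.map_target ha
  have h := hasDerivAt_geo g he (e.symm a) (trI e (e.symm a) w) hx
  rw [vel_geo_zero, g.geo_zeroC, tr_trI he (e.map_target ha)] at h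
  exact h

theorem ip_trI (he : e ∈ atlas E M) {a : E} (ha : a ∈ e.target) (u v : E) :
    g.ip (e.symm a) (trI e (e.symm a) u) (trI e (e.symm a) v) = g.g e a u v := by
  rw [ip_eq g he (e.map_target ha), tr_trI he (e.map_target ha), tr_trI he (e.map_target ha),
    e.right_inv ha]

/-- Position and velocity at time `t` in the chart `e'` of the geodesic with data `q` in `e`. -/
noncomputable def stE (e e' : OpenPartialHomeomorph M E) (q : E × E) (t : ℝ) : E × E :=
  (e' (geoE g e q.1 q.2 t), deriv (e' ∘ geoE g e q.1 q.2) t)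

theorem stE_zero (he : e ∈ atlas E M) {q : E × E} (hq : q.1 ∈ e.target) : stE g e e q 0 = q := by
  unfold stE
  rw [geoE_zero, (geoE_deriv g he hq q.2).deriv, e.right_inv hq]

theorem dn_change (n : ℕ) {e₁ e₂ : OpenPartialHomeomorph M E} (p : E × E) {t : ℝ}
    (he : e₁ ∈ atlas E M) (he' : e₂ ∈ atlas E M) (h : geoE g e p.1 p.2 t ∈ e₁.source)
    (h' : geoE g e p.1 p.2 t ∈ e₂.source)
    (hc : ContinuousAt (fun q : E × E => geoE g e q.1 q.2 t) p)
    (hd : ContDiffAt ℝ n (fun q => stE g e e₁ q t) p) :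
    ContDiffAt ℝ n (fun q => stE g e e₂ q t) p := by
  have hτ : ContDiffAt ℝ ∞ (e₂ ∘ e₁.symm) (stE g e e₁ p t).1 := tr_contDiffAt he he' h h'
  have h1 : ContDiffAt ℝ n (e₂ ∘ e₁.symm) (stE g e e₁ p t).1 :=
    hτ.of_le (by exact_mod_cast le_top)
  have h2 : ContDiffAt ℝ n (fderiv ℝ (e₂ ∘ e₁.symm)) (stE g e e₁ p t).1 :=
    hτ.fderiv_right (by exact_mod_cast le_top)
  have h3 : ContDiffAt ℝ n (fun q => ((e₂ ∘ e₁.symm) (stE g e e₁ q t).1,
      fderiv ℝ (e₂ ∘ e₁.symm) (stE g e e₁ q t).1 (stE g e e₁ q t).2)) p :=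
    (h1.comp p hd.fst).prodMk ((h2.comp p hd.fst).clm_apply hd.snd)
  refine h3.congr_of_eventuallyEq ?_
  filter_upwards [hc.preimage_mem_nhds (e₁.open_source.mem_nhds h),
    hc.preimage_mem_nhds (e₂.open_source.mem_nhds h')] with q hq hq'
  exact g.st_change_depC _ _ he he' hq hq'

theorem dn_flow (n : ℕ) {e₀ : OpenPartialHomeomorph M E} (he : e₀ ∈ atlas E M) {z₀ : E × E}
    (hz : z₀.1 ∈ e₀.target) :
    ∃ ε > 0, ∃ r > 0, ∃ φ : E × E → ℝ → E × E,
      (∀ z ∈ Metric.ball z₀ r, ∀ t ∈ Ioo (-ε) ε, ContDiffAt ℝ n (fun z' => φ z' t) z) ∧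
      ∀ (x : M) (v : E) (t₁ : ℝ), g.geoC x v t₁ ∈ e₀.source → g.stC e₀ x v t₁ ∈ Metric.ball z₀ r →
        ∀ s ∈ Ioo (-ε) ε, g.geoC x v (s + t₁) ∈ e₀.source ∧
          g.stC e₀ x v (s + t₁) = φ (g.stC e₀ x v t₁) s := by
  obtain ⟨ε, hε, r, hr, φ, h1, h2⟩ := P234.exists_flowN n (Ω := e₀.target ×ˢ (univ : Set E))
    (e₀.open_target.prod isOpen_univ) (g.loc he).contDiffOn_spray (z₀ := z₀) ⟨hz, mem_univ _⟩
  refine ⟨ε, hε, r, hr, φ, fun z hz t ht =>
    (h2 t ht).contDiffAt (Metric.isOpen_ball.mem_nhds hz), fun x v t₁ ht₁ hb => ?_⟩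
  exact g.key_depC (g.geo_isGeodesicC x v) he ht₁ hε (h1 _ hb).1
    fun s hs => ⟨((h1 _ hb).2 s hs).1.1, ((h1 _ hb).2 s hs).2⟩

theorem dn_local (n : ℕ) (p : E × E) (t₀ : ℝ) : ∃ N ∈ 𝓝 t₀, ∀ t₁ ∈ N, ∀ t₂ ∈ N,
    (∀ e₁ ∈ atlas E M, geoE g e p.1 p.2 t₁ ∈ e₁.source →
      ContinuousAt (fun q : E × E => geoE g e q.1 q.2 t₁) p ∧
        ContDiffAt ℝ n (fun q => stE g e e₁ q t₁) p) →
    ∀ e₁ ∈ atlas E M, geoE g e p.1 p.2 t₂ ∈ e₁.source →
      ContinuousAt (fun q : E × E => geoE g e q.1 q.2 t₂) p ∧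
        ContDiffAt ℝ n (fun q => stE g e e₁ q t₂) p := by
  set e₀ := chartAt E (geoE g e p.1 p.2 t₀) with he₀
  have he : e₀ ∈ atlas E M := chart_mem_atlas E _
  have h0 : geoE g e p.1 p.2 t₀ ∈ e₀.source := mem_chart_source E _
  obtain ⟨ε, hε, r, hr, φ, h1, h2⟩ := dn_flow g n he (z₀ := stE g e e₀ p t₀) (e₀.map_source h0)
  have hst : ContinuousAt (fun t => stE g e e₀ p t) t₀ :=
    (g.hasDerivAt_st_depC _ _ he h0).1.continuousAt.prodMk
      (g.hasDerivAt_st_depC _ _ he h0).2.continuousAt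
  have hcg : Continuous (geoE g e p.1 p.2) := g.continuous_geoC _ _
  refine ⟨(geoE g e p.1 p.2 ⁻¹' e₀.source ∩ (fun t => stE g e e₀ p t) ⁻¹'
      Metric.ball (stE g e e₀ p t₀) r) ∩ Ioo (t₀ - ε / 2) (t₀ + ε / 2),
    Filter.inter_mem (Filter.inter_mem
      (hcg.continuousAt.preimage_mem_nhds (e₀.open_source.mem_nhds h0))
      (hst.preimage_mem_nhds (Metric.ball_mem_nhds _ hr)))
      (Ioo_mem_nhds (by linarith) (by linarith)), ?_⟩
  rintro t₁ ⟨⟨a1, b1⟩, c1⟩ t₂ ⟨⟨a2, -⟩, c2⟩ H e₁ he' h'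
  obtain ⟨hc, hd⟩ := H e₀ he a1
  have hs : t₂ - t₁ ∈ Ioo (-ε) ε := ⟨by linarith [c1.2, c2.1], by linarith [c1.1, c2.2]⟩
  have hev : ∀ᶠ q in 𝓝 p, geoE g e q.1 q.2 t₂ ∈ e₀.source ∧
      stE g e e₀ q t₂ = φ (stE g e e₀ q t₁) (t₂ - t₁) := by
    filter_upwards [hc.preimage_mem_nhds (e₀.open_source.mem_nhds a1),
      hd.continuousAt.preimage_mem_nhds (Metric.isOpen_ball.mem_nhds b1)] with q hq hq'
    have h3 := h2 _ _ t₁ hq hq' _ hs
    rwa [sub_add_cancel] at h3
  have hd2 : ContDiffAt ℝ n (fun q => stE g e e₀ q t₂) p := by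
    refine ((h1 _ b1 _ hs).comp p hd).congr_of_eventuallyEq ?_
    filter_upwards [hev] with q hq
    exact hq.2
  have hc2 : ContinuousAt (fun q : E × E => geoE g e q.1 q.2 t₂) p := by
    have h3 : ContinuousAt e₀.symm (stE g e e₀ p t₂).1 :=
      e₀.continuousAt_symm (e₀.map_source a2)
    refine (h3.comp (f := fun q => (stE g e e₀ q t₂).1) hd2.continuousAt.fst).congr ?_
    filter_upwards [hev] with q hq
    exact e₀.left_inv hq.1
  exact ⟨hc2, dn_change g n p he he' a2 h' hc2 hd2⟩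

theorem depN (n : ℕ) (he : e ∈ atlas E M) (he' : e' ∈ atlas E M) {p : E × E} (hp : p.1 ∈ e.target)
    {t : ℝ} (h : geoE g e p.1 p.2 t ∈ e'.source) :
    ContinuousAt (fun q : E × E => geoE g e q.1 q.2 t) p ∧
      ContDiffAt ℝ n (fun q => stE g e e' q t) p := by
  set T : Set ℝ := {t | ∀ e₁ ∈ atlas E M, geoE g e p.1 p.2 t ∈ e₁.source →
    ContinuousAt (fun q : E × E => geoE g e q.1 q.2 t) p ∧
      ContDiffAt ℝ n (fun q => stE g e e₁ q t) p} with hT
  have hopen : IsOpen T := by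
    rw [isOpen_iff_mem_nhds]
    intro t₀ ht₀
    obtain ⟨N, hN, H⟩ := dn_local g (e := e) n p t₀
    exact Filter.mem_of_superset hN fun t₂ ht₂ => H t₀ (mem_of_mem_nhds hN) t₂ ht₂ ht₀
  have hclosed : IsClosed T := by
    rw [← isOpen_compl_iff, isOpen_iff_mem_nhds]
    intro t₀ ht₀
    obtain ⟨N, hN, H⟩ := dn_local g (e := e) n p t₀
    exact Filter.mem_of_superset hN fun t₁ ht₁ h1 => ht₀ (H t₁ ht₁ t₀ (mem_of_mem_nhds hN) h1)
  have h0 : (0 : ℝ) ∈ T := by
    intro e₁ he₁ h'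
    have hc : ContinuousAt (fun q : E × E => geoE g e q.1 q.2 0) p := by
      simp only [geoE_zero]
      exact (e.continuousAt_symm hp).comp (f := fun q : E × E => q.1) continuousAt_fst
    refine ⟨hc, dn_change g n p he he₁ ?_ h' hc ?_⟩
    · rw [geoE_zero]
      exact e.map_target hp
    · refine (contDiffAt_id (𝕜 := ℝ) (x := p)).congr_of_eventuallyEq ?_
      filter_upwards [continuousAt_fst.preimage_mem_nhds (e.open_target.mem_nhds hp)] with q hq
      exact stE_zero g he hq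
  have huniv : T = univ := IsClopen.eq_univ ⟨hclosed, hopen⟩ ⟨0, h0⟩
  have ht : t ∈ T := huniv ▸ mem_univ t
  exact ht e' he' h

theorem continuousAt_expE (he : e ∈ atlas E M) {p : E × E} (hp : p.1 ∈ e.target) :
    ContinuousAt (fun q : E × E => expE g e q.1 q.2) p :=
  (depN g 0 he (chart_mem_atlas E _) hp (mem_chart_source E _)).1

/-- The variation field. -/
noncomputable def varE (e : OpenPartialHomeomorph M E) (p δ : E × E)
    (e' : OpenPartialHomeomorph M E) (t : ℝ) : E :=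
  fderiv ℝ (fun q : E × E => e' (geoE g e q.1 q.2 t)) p δ

theorem varE_eq (he : e ∈ atlas E M) (he' : e' ∈ atlas E M) {p : E × E} (hp : p.1 ∈ e.target)
    {t : ℝ} (h : geoE g e p.1 p.2 t ∈ e'.source) (δ : E × E) :
    varE g e p δ e' t = (fderiv ℝ (fun q => stE g e e' q t) p δ).1 := by
  have hA : HasFDerivAt (fun q => stE g e e' q t) (fderiv ℝ (fun q => stE g e e' q t) p) p :=
    ((depN g 1 he he' hp h).2.differentiableAt (by simp)).hasFDerivAt
  have h1 := hA.fst.fderiv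
  unfold varE
  change fderiv ℝ (fun q => (stE g e e' q t).1) p δ = _
  rw [h1]
  rfl

theorem dn_var (he : e ∈ atlas E M) (he' : e' ∈ atlas E M) {p : E × E} (hp : p.1 ∈ e.target)
    {t : ℝ} (h : geoE g e p.1 p.2 t ∈ e'.source) :
    HasDerivAt (fun s => fderiv ℝ (fun q => stE g e e' q s) p)
      ((fderiv ℝ (spray (g.g e')) (stE g e e' p t)).comp
        (fderiv ℝ (fun q => stE g e e' q t) p)) t := by
  obtain ⟨ε, hε, r, hr, φ, Y, h1, h2⟩ := g.flow_depC he' (z₀ := stE g e e' p t) (e'.map_source h)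
  obtain ⟨hc, hd⟩ := depN g 1 he he' hp h
  have hb : stE g e e' p t ∈ Metric.ball (stE g e e' p t) r := Metric.mem_ball_self hr
  have hA : HasFDerivAt (fun q => stE g e e' q t) (fderiv ℝ (fun q => stE g e e' q t) p) p :=
    (hd.differentiableAt (by simp)).hasFDerivAt
  have hY : HasDerivAt (fun s => Y (stE g e e' p t) (s - t))
      (fderiv ℝ (spray (g.g e')) (stE g e e' p t)) t := by
    have h3 := (h1 _ hb).2.1
    rw [← sub_self t] at h3
    exact h3.comp_sub_const t t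
  have h4 := hY.clm_comp (hasDerivAt_const t (fderiv ℝ (fun q => stE g e e' q t) p))
  rw [ContinuousLinearMap.comp_zero, add_zero] at h4
  refine h4.congr_of_eventuallyEq ?_
  filter_upwards [Ioo_mem_nhds (show t - ε < t by linarith) (show t < t + ε by linarith)] with s hs
  have hs' : s - t ∈ Ioo (-ε) ε := ⟨by linarith [hs.1], by linarith [hs.2]⟩
  have h5 := (((h1 _ hb).2.2 _ hs').1).comp p hA
  refine (h5.congr_of_eventuallyEq ?_).fderiv
  filter_upwards [hc.preimage_mem_nhds (e'.open_source.mem_nhds h),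
    hd.continuousAt.preimage_mem_nhds (Metric.isOpen_ball.mem_nhds hb)] with q hq hq'
  have h3 := (h2 _ _ t hq hq' _ hs').2
  rwa [sub_add_cancel] at h3

theorem dn_hasDerivAt (he : e ∈ atlas E M) (he' : e' ∈ atlas E M) {p : E × E}
    (hp : p.1 ∈ e.target) {t : ℝ} (h : geoE g e p.1 p.2 t ∈ e'.source) (δ : E × E) :
    HasDerivAt (varE g e p δ e') (fderiv ℝ (fun q => stE g e e' q t) p δ).2 t ∧
      HasDerivAt (fun s => (fderiv ℝ (fun q => stE g e e' q s) p δ).2)
        (lin (g.g e') (e' (geoE g e p.1 p.2 t)) (deriv (e' ∘ geoE g e p.1 p.2) t)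
          (varE g e p δ e' t) (fderiv ℝ (fun q => stE g e e' q t) p δ).2) t := by
  have h1 := (dn_var g he he' hp h).clm_apply (hasDerivAt_const t δ)
  rw [map_zero, add_zero, ContinuousLinearMap.comp_apply,
    (g.loc he').fderiv_spray (z := stE g e e' p t) (e'.map_source h)] at h1
  have h2 := (ContinuousLinearMap.fst ℝ E E).hasFDerivAt.comp_hasDerivAt t h1
  have h3 := (ContinuousLinearMap.snd ℝ E E).hasFDerivAt.comp_hasDerivAt t h1
  have hcg : Continuous (geoE g e p.1 p.2) := g.continuous_geoC _ _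
  refine ⟨HasDerivAt.congr_of_eventuallyEq h2 ?_, ?_⟩
  · filter_upwards [hcg.continuousAt.preimage_mem_nhds (e'.open_source.mem_nhds h)] with s hs
    exact varE_eq g he he' hp hs δ
  · rw [varE_eq g he he' hp h δ]
    exact h3

theorem varE_hasDerivAt (he : e ∈ atlas E M) (he' : e' ∈ atlas E M) {p : E × E}
    (hp : p.1 ∈ e.target) {t : ℝ} (h : geoE g e p.1 p.2 t ∈ e'.source) (δ : E × E) :
    HasDerivAt (varE g e p δ e') (fderiv ℝ (fun q => stE g e e' q t) p δ).2 t := by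
  exact (dn_hasDerivAt g he he' hp h δ).1

theorem varE_isJacobi (he : e ∈ atlas E M) {p : E × E} (hp : p.1 ∈ e.target) (δ : E × E) :
    g.IsJacobi (geoE g e p.1 p.2) univ (varE g e p δ) := by
  have hcg : Continuous (geoE g e p.1 p.2) := g.continuous_geoC _ _
  refine ⟨fun e₁ he₁ e₂ he₂ t _ ht ht' => ?_, fun e₁ he₁ t _ ht => ?_⟩
  · obtain ⟨hc, hd⟩ := depN g 1 he he₁ hp ht
    have hτ : DifferentiableAt ℝ (e₂ ∘ e₁.symm) (e₁ (geoE g e p.1 p.2 t)) :=
      (tr_contDiffAt he₁ he₂ ht ht').differentiableAt (by simp)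
    have hA : DifferentiableAt ℝ (fun q : E × E => e₁ (geoE g e q.1 q.2 t)) p :=
      hd.fst.differentiableAt (by simp)
    have h1 := hτ.hasFDerivAt.comp p hA.hasFDerivAt
    have h2 : (fun q : E × E => e₂ (geoE g e q.1 q.2 t)) =ᶠ[𝓝 p]
        (e₂ ∘ e₁.symm) ∘ fun q : E × E => e₁ (geoE g e q.1 q.2 t) := by
      filter_upwards [hc.preimage_mem_nhds (e₁.open_source.mem_nhds ht)] with q hq
      change e₂ (geoE g e q.1 q.2 t) = e₂ (e₁.symm (e₁ (geoE g e q.1 q.2 t)))
      rw [e₁.left_inv hq]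
    unfold varE
    rw [(h1.congr_of_eventuallyEq h2).fderiv]
    rfl
  · obtain ⟨hJ, hK⟩ := dn_hasDerivAt g he he₁ hp ht δ
    obtain ⟨hx, hv⟩ : HasDerivAt (e₁ ∘ geoE g e p.1 p.2) (deriv (e₁ ∘ geoE g e p.1 p.2) t) t ∧
      HasDerivAt (deriv (e₁ ∘ geoE g e p.1 p.2)) (-chr (g.g e₁) (e₁ (geoE g e p.1 p.2 t))
        (deriv (e₁ ∘ geoE g e p.1 p.2) t) (deriv (e₁ ∘ geoE g e p.1 p.2) t)) t :=
      g.hasDerivAt_st_depC _ _ he₁ ht
    have h1 := ((g.loc he₁).jacobi_iff (x := e₁ ∘ geoE g e p.1 p.2)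
      (v := deriv (e₁ ∘ geoE g e p.1 p.2)) (J := varE g e p δ e₁)
      (K := fun s => (fderiv ℝ (fun q => stE g e e₁ q s) p δ).2) (t := t)
      (e₁.map_source ht) hx hv hJ).2 hK
    have hev : g.cov (geoE g e p.1 p.2) e₁ (varE g e p δ e₁) =ᶠ[𝓝 t] fun s =>
        (fderiv ℝ (fun q => stE g e e₁ q s) p δ).2 + chr (g.g e₁) ((e₁ ∘ geoE g e p.1 p.2) s)
          (deriv (e₁ ∘ geoE g e p.1 p.2) s) (varE g e p δ e₁ s) := by
      filter_upwards [hcg.continuousAt.preimage_mem_nhds (e₁.open_source.mem_nhds ht)] with s hs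
      unfold Metric.cov
      rw [(dn_hasDerivAt g he he₁ hp hs δ).1.deriv]
      rfl
    have h2 := h1.congr_of_eventuallyEq hev
    refine ⟨hJ.differentiableAt, h2.differentiableAt, ?_⟩
    have h3 : g.cov (geoE g e p.1 p.2) e₁ (g.cov (geoE g e p.1 p.2) e₁ (varE g e p δ e₁)) t =
        deriv (g.cov (geoE g e p.1 p.2) e₁ (varE g e p δ e₁)) t +
          chr (g.g e₁) (e₁ (geoE g e p.1 p.2 t)) (deriv (e₁ ∘ geoE g e p.1 p.2) t)
            (g.cov (geoE g e p.1 p.2) e₁ (varE g e p δ e₁) t) := rfl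
    rw [h3, h2.deriv, hev.eq_of_nhds]
    simp only [Function.comp_apply]
    abel

end Vale.Agent.P219
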