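import Vale.Agent.P219.CertBall
import Vale.Agent.P219.Chg

/-!
# The bathtub inequality and its transfer to the manifold  (TASK)

Let `F v = Bf ‖v‖ ⟪e, v⟫ - 2 ⟪e, v⟫ / ‖v‖ ^ 5`: negative on `ball e 1` (`Bf_lt`), nonnegative outside (`lt_Bf`, `Bf_eq`; `v ≠ 0`), positive
outside `closedBall e 1`.  `∫_S F - ∫_ball F = ∫_{S \ ball} F - ∫_{ball \ S} F ≥ 0`; in the equality case both terms vanish, so
`S \ closedBall` and `ball \ S` are null, and the sphere is null (`Measure.addHaar_sphere`).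
On the manifold: `P` from `Pack.chg`, `e = -P ν` (`nu_spec`), `rr = ‖P (L y x)‖`, `-G y ν (L y x) = ⟪e, P (L y x)⟫`,
`N (-L y x) = dn * ⟪e, P (L y x)⟫`, so `2 Fl = ad * ∫_{image} 2 ⟪e, v⟫ / ‖v‖ ^ 5` and
`Qc - ad * ∫_{image} Bf = ad * ∫_S Bf * (wt (G x) - wt (G y) |det|) ≥ 0` (`jac_le`, `Bf_pos`, `rr_pos`).  For `N = 0` all terms vanish.
In `Qc_eq` the continuous function `wt (G x) - wt (G y) |det|` vanishes a.e. on the open set `S`, hence everywhere.
`integrableOn_Qc`: `radial_bound` on `closure S ∪ {y}` with `exists_Bf_le` (`PosB.sq_le` gives `|s| ≤ r`).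
-/

namespace Vale.Agent.P219

open scoped ContDiff Topology RealInnerProductSpace
open MeasureTheory Set Vale.Agent.P255

variable {E : Type*} [NormedAddCommGroup E] [InnerProductSpace ℝ E] [FiniteDimensional ℝ E]
  [MeasurableSpace E] [BorelSpace E]
  {G : E → Bil E} {L : E → E → E}

theorem qclow_zero : Bf 0 0 = 1 := by
  simp [Bf, Bg, chi]

theorem qclow_pos {r s : ℝ} (hr : 0 ≤ r) (hs : |s| ≤ r) : 0 < Bf r s := by
  rcases hr.eq_or_lt with h | h
  · subst h
    rw [abs_nonpos_iff.1 hs, qclow_zero]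
    exact one_pos
  · exact Bf_pos h hs

theorem qclow_le : ∃ C : ℝ, 0 < C ∧ ∀ r s : ℝ, 0 ≤ r → |s| ≤ r →
    |Bf r s| ≤ C * ((|r| ^ 3)⁻¹ + 1) := by
  obtain ⟨C, hC, h⟩ := exists_Bf_le
  refine ⟨C + 1, by linarith, fun r s hr hs => ?_⟩
  rcases hr.eq_or_lt with h0 | h0
  · subst h0
    rw [abs_nonpos_iff.1 hs, qclow_zero]
    simp [hC.le]
  · rw [abs_of_pos h0]
    exact (h r s h0 hs).trans (mul_le_mul_of_nonneg_right (by linarith) (by positivity))

omit [FiniteDimensional ℝ E] [MeasurableSpace E] [BorelSpace E] in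
theorem qclow_dist {e : E} (he : ‖e‖ = 1) (v : E) :
    dist v e ^ 2 = ‖v‖ ^ 2 - 2 * ⟪e, v⟫ + 1 := by
  rw [dist_eq_norm, norm_sub_sq_real, he, real_inner_comm, one_pow]

omit [FiniteDimensional ℝ E] [MeasurableSpace E] [BorelSpace E] in
theorem qclow_sign {e : E} (he : ‖e‖ = 1) (v : E) :
    (dist v e < 1 → Bf ‖v‖ ⟪e, v⟫ - 2 * ⟪e, v⟫ / ‖v‖ ^ 5 < 0) ∧
    (1 < dist v e → 0 < Bf ‖v‖ ⟪e, v⟫ - 2 * ⟪e, v⟫ / ‖v‖ ^ 5) ∧
    (1 ≤ dist v e → 0 ≤ Bf ‖v‖ ⟪e, v⟫ - 2 * ⟪e, v⟫ / ‖v‖ ^ 5) := by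
  have hd := qclow_dist he v
  have hs : |⟪e, v⟫| ≤ ‖v‖ := by
    simpa [he] using abs_real_inner_le_norm e v
  rcases eq_or_ne v 0 with rfl | hv
  · rw [norm_zero, inner_zero_right, qclow_zero, dist_zero_left, he]
    exact ⟨fun h => absurd h (lt_irrefl _), fun h => absurd h (lt_irrefl _), fun _ => by simp⟩
  have hr : 0 < ‖v‖ := norm_pos_iff.2 hv
  have h0 : 0 ≤ dist v e := dist_nonneg
  have h2 : 1 < dist v e → 0 < Bf ‖v‖ ⟪e, v⟫ - 2 * ⟪e, v⟫ / ‖v‖ ^ 5 := fun h =>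
    sub_pos.2 (lt_Bf hr hs (by nlinarith))
  refine ⟨fun h => sub_neg.2 (Bf_lt hr hs (by nlinarith)), h2, fun h => ?_⟩
  rcases h.eq_or_lt with h | h
  · rw [← h] at hd
    rw [Bf_eq hr (by linarith), sub_self]
  · exact (h2 h).le

theorem qclow_tub (hE : Module.finrank ℝ E = 5) {e : E} (he : ‖e‖ = 1) {S : Set E}
    (hm : MeasurableSet S) (hS : Bornology.IsBounded S) :
    ∃ g : E → ℝ, Integrable g ∧ 0 ≤ g ∧
      ∫ v, g v = (∫ v in S, (Bf ‖v‖ ⟪e, v⟫ - 2 * ⟪e, v⟫ / ‖v‖ ^ 5)) + om E ∧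
      ∀ v, g v = 0 → v ∉ Metric.sphere e 1 → (v ∈ S ↔ v ∈ Metric.ball e 1) := by
  have hi : ∀ {T : Set E}, MeasurableSet T → Bornology.IsBounded T →
      Integrable (T.indicator fun v : E => Bf ‖v‖ ⟪e, v⟫ - 2 * ⟪e, v⟫ / ‖v‖ ^ 5) :=
    fun hT hb => (integrable_indicator_iff hT).2
      ((integrableOn_Bf hE he hb).sub (integrableOn_ang hE he hb))
  have h1 := hi hm hS
  have h2 := hi (T := Metric.ball e 1) measurableSet_ball Metric.isBounded_ball
  refine ⟨_, h1.sub h2, fun v => ?_, ?_, fun v h hv => ?_⟩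
  · obtain ⟨s1, -, s3⟩ := qclow_sign he v
    rw [Pi.sub_apply, Pi.zero_apply]
    by_cases hb : v ∈ Metric.ball e 1
    · rw [indicator_of_mem hb]
      by_cases hv : v ∈ S
      · rw [indicator_of_mem hv, sub_self]
      · rw [indicator_of_notMem hv, zero_sub]
        exact neg_nonneg.2 (s1 hb).le
    · rw [indicator_of_notMem hb, sub_zero]
      exact indicator_apply_nonneg fun _ => s3 (not_lt.1 hb)
  · simp only [Pi.sub_apply]
    rw [integral_sub h1 h2, integral_indicator hm, integral_indicator measurableSet_ball,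
      ball_integral hE he, sub_neg_eq_add]
  · obtain ⟨s1, s2, -⟩ := qclow_sign he v
    rw [Pi.sub_apply] at h
    constructor
    · intro hv'
      by_contra hb
      rw [indicator_of_mem hv', indicator_of_notMem hb, sub_zero] at h
      exact (s2 (lt_of_le_of_ne (not_lt.1 hb) (Ne.symm hv))).ne' h
    · intro hb
      by_contra hv'
      rw [indicator_of_mem hb, indicator_of_notMem hv', zero_sub, neg_eq_zero] at h
      exact (s1 hb).ne h

theorem tub (hE : Module.finrank ℝ E = 5) {e : E} (he : ‖e‖ = 1) {S : Set E}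
    (hm : MeasurableSet S) (hS : Bornology.IsBounded S) :
    -om E ≤ ∫ v in S, (Bf ‖v‖ ⟪e, v⟫ - 2 * ⟪e, v⟫ / ‖v‖ ^ 5) := by
  obtain ⟨g, -, h0, h1, -⟩ := qclow_tub hE he hm hS
  linarith [integral_nonneg (μ := volume) h0]

theorem tub_eq (hE : Module.finrank ℝ E = 5) {e : E} (he : ‖e‖ = 1) {S : Set E}
    (hm : MeasurableSet S) (hS : Bornology.IsBounded S)
    (h : ∫ v in S, (Bf ‖v‖ ⟪e, v⟫ - 2 * ⟪e, v⟫ / ‖v‖ ^ 5) ≤ -om E) :
    S =ᵐ[volume] Metric.ball e 1 := by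
  obtain ⟨g, hg, h0, h1, h2⟩ := qclow_tub hE he hm hS
  have h3 := (integral_eq_zero_iff_of_nonneg h0 hg).1
    (le_antisymm (by linarith) (integral_nonneg h0))
  have h4 : ∀ᵐ v ∂(volume : Measure E), v ∉ Metric.sphere e 1 :=
    measure_eq_zero_iff_ae_notMem.1 (Measure.addHaar_sphere_of_ne_zero volume e one_ne_zero)
  refine Filter.eventuallyEq_set.2 ?_
  filter_upwards [h3, h4] with v hv hv' using h2 v hv hv'

omit [MeasurableSpace E] [BorelSpace E] in
theorem qclow_L (hP : Pack G L) (y : E) : Continuous (L y) :=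
  hP.smooth.continuous.comp (Continuous.prodMk_right y)

omit [MeasurableSpace E] [BorelSpace E] in
theorem qclow_abs (hP : Pack G L) (y : E) {ν : E} (hν : G y ν ν = 1) (x : E) :
    |-G y ν (L y x)| ≤ rr G L y x := by
  have h := (posB_of_loc hP.loc y).sq_le ν (L y x)
  rw [hν, one_mul] at h
  rw [abs_neg]
  exact Real.abs_le_sqrt h

theorem Pack.integrableOn_Qc (hE : Module.finrank ℝ E = 5) (hP : Pack G L) {S : Set E}
    (hm : MeasurableSet S) (hS : Bornology.IsBounded S) (y : E) {ν : E} (hν : G y ν ν = 1) :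
    IntegrableOn (fun x => Bf (rr G L y x) (-G y ν (L y x)) * wt (G x)) S := by
  obtain ⟨C, hC, hB⟩ := qclow_le
  obtain ⟨J, R, -, -, -, h⟩ := hP.radial_bound (hS.isCompact_closure.insert y)
  have hL := qclow_L hP y
  have hr : Continuous (rr G L y) := (((G y).continuous.comp hL).clm_apply hL).sqrt
  have h1 := (h y (mem_insert _ _) S hm (subset_closure.trans (subset_insert _ _))
    (fun r => C * ((|r| ^ 3)⁻¹ + 1)) (by fun_prop) (fun r => by positivity) ?_).1
  · refine h1.mono' ?_ (Filter.Eventually.of_forall fun x => ?_)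
    · exact ((measurable_Bf.comp (hr.prodMk ((G y ν).continuous.comp hL).neg).measurable).mul
        (contDiff_wt hP.loc).continuous.measurable).aestronglyMeasurable
    · have hw := (wt_pos (posB_of_loc hP.loc x)).le
      rw [Real.norm_eq_abs, abs_mul, abs_of_nonneg hw]
      exact mul_le_mul_of_nonneg_right (hB _ _ (Real.sqrt_nonneg _) (qclow_abs hP y hν x)) hw
  · simp only [abs_norm]
    exact ((integrableOn_inv_pow hE (by norm_num) Metric.isBounded_closedBall).add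
      (integrableOn_const measure_closedBall_lt_top.ne)).const_mul C

theorem qclow_key (hE : Module.finrank ℝ E = 5) (hP : Pack G L) {S : Set E}
    (hm : MeasurableSet S) (hS : Bornology.IsBounded S) (y : E) {N : E →L[ℝ] ℝ} (hN : N ≠ 0) :
    ∃ (P : E ≃L[ℝ] E) (e : E) (B : E → ℝ), (∀ u v, G y u v = ⟪P u, P v⟫) ∧ ‖e‖ = 1 ∧
      (∀ x, 0 < B x) ∧ MeasurableSet ((fun x => P (L y x)) '' S) ∧
      Bornology.IsBounded ((fun x => P (L y x)) '' S) ∧
      IntegrableOn (fun x => B x * (wt (G x) - wt (G y) * |(fderiv ℝ (L y) x).det|)) S ∧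
      Qc G L S y N - 2 * Fl G L S y N = ad (G y) N *
        ((∫ v in (fun x => P (L y x)) '' S, (Bf ‖v‖ ⟪e, v⟫ - 2 * ⟪e, v⟫ / ‖v‖ ^ 5)) +
          ∫ x in S, B x * (wt (G x) - wt (G y) * |(fderiv ℝ (L y) x).det|)) := by
  obtain ⟨P, hG, -, hch⟩ := hP.chg y
  obtain ⟨-, hν, hNv⟩ := nu_spec (posB_of_loc hP.loc y) hN
  have he : ‖-P (nu (G y) N)‖ = 1 := by
    rw [norm_neg, norm_eq_sqrt_real_inner, ← hG, hν, Real.sqrt_one]
  have hr : ∀ x, rr G L y x = ‖P (L y x)‖ := fun x => by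
    rw [norm_eq_sqrt_real_inner, ← hG, rr, qq]
  have hs : ∀ x, -G y (nu (G y) N) (L y x) = ⟪-P (nu (G y) N), P (L y x)⟫ := fun x => by
    rw [inner_neg_left, hG]
  have hb : Bornology.IsBounded ((fun x => P (L y x)) '' S) :=
    (hS.isCompact_closure.image (P.continuous.comp (qclow_L hP y))).isBounded.subset
      (image_mono subset_closure)
  have i1 := hP.integrableOn_Qc hE hm hS y hν
  have j1 := integrableOn_Bf hE he hb
  have j2 := integrableOn_ang hE he hb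
  have i2 := (hch S hm _).2.1 j1
  have e2 := (hch S hm fun v : E => Bf ‖v‖ ⟪-P (nu (G y) N), v⟫).1
  have e3 := (hch S hm fun v : E => 2 * ⟪-P (nu (G y) N), v⟫ / ‖v‖ ^ 5).1
  simp only [← hr, ← hs] at i2 e2 e3
  have e1 : (fun x => Bf (rr G L y x) (-G y (nu (G y) N) (L y x)) *
      (wt (G x) - wt (G y) * |(fderiv ℝ (L y) x).det|)) =
      fun x => Bf (rr G L y x) (-G y (nu (G y) N) (L y x)) * wt (G x) -
        wt (G y) * |(fderiv ℝ (L y) x).det| * Bf (rr G L y x) (-G y (nu (G y) N) (L y x)) := by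
    funext x
    ring
  refine ⟨P, -P (nu (G y) N), fun x => Bf (rr G L y x) (-G y (nu (G y) N) (L y x)), hG, he,
    fun x => qclow_pos (Real.sqrt_nonneg _) (qclow_abs hP y hν x),
    (hP.diffeo y P).measurableSet_image hm, hb, ?_, ?_⟩
  · rw [e1]
    exact i1.sub i2
  · rw [e1, integral_sub i1 i2, integral_sub j1 j2, e2, e3, Qc, Fl, sub_add_sub_cancel', mul_sub,
      ← integral_const_mul, ← integral_const_mul, ← integral_const_mul]
    congr 2
    · funext x
      ring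
    · funext x
      rw [hNv, map_neg, ad]
      ring

theorem Pack.Qc_ge (hE : Module.finrank ℝ E = 5) (hP : Pack G L) {S : Set E}
    (hm : MeasurableSet S) (hS : Bornology.IsBounded S) (y : E) (N : E →L[ℝ] ℝ) :
    -om E * ad (G y) N + 2 * Fl G L S y N ≤ Qc G L S y N := by
  rcases eq_or_ne N 0 with rfl | hN
  · simp [Qc, Fl, ad_zero]
  obtain ⟨P, e, B, -, he, hB, m1, m2, -, h⟩ := qclow_key hE hP hm hS y hN
  have h1 := tub hE he m1 m2
  have h2 : 0 ≤ ∫ x in S, B x * (wt (G x) - wt (G y) * |(fderiv ℝ (L y) x).det|) :=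
    integral_nonneg fun x => mul_nonneg (hB x).le (sub_nonneg.2 (hP.jac_le y x))
  have h3 := mul_le_mul_of_nonneg_left (add_le_add h1 h2) (ad_nonneg (G y) N)
  linarith

theorem Pack.Qc_eq (hE : Module.finrank ℝ E = 5) (hP : Pack G L) {S : Set E}
    (hm : IsOpen S) (hS : Bornology.IsBounded S) (y : E) {N : E →L[ℝ] ℝ} (hN : N ≠ 0)
    (h : Qc G L S y N ≤ -om E * ad (G y) N + 2 * Fl G L S y N) :
    ∃ (P : E ≃L[ℝ] E) (e : E), (∀ u v, G y u v = ⟪P u, P v⟫) ∧
      ((fun x => P (L y x)) '' S =ᵐ[volume] Metric.ball e 1) ∧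
      ∀ x ∈ S, wt (G y) * |(fderiv ℝ (L y) x).det| = wt (G x) := by
  obtain ⟨P, e, B, hG, he, hB, m1, m2, hi, h0⟩ := qclow_key hE hP hm.measurableSet hS y hN
  have h1 := tub hE he m1 m2
  have hn : 0 ≤ fun x => B x * (wt (G x) - wt (G y) * |(fderiv ℝ (L y) x).det|) :=
    fun x => mul_nonneg (hB x).le (sub_nonneg.2 (hP.jac_le y x))
  have h2 : 0 ≤ ∫ x in S, B x * (wt (G x) - wt (G y) * |(fderiv ℝ (L y) x).det|) :=
    integral_nonneg hn
  have ha : 0 < ad (G y) N :=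
    mul_pos (nu_spec (posB_of_loc hP.loc y) hN).1 (wt_pos (posB_of_loc hP.loc y))
  have h3 := le_of_mul_le_mul_left (c := -om E) (h0.symm.trans_le (by linarith)) ha
  refine ⟨P, e, hG, tub_eq hE he m1 m2 (by linarith), ?_⟩
  have h4 := (integral_eq_zero_iff_of_nonneg hn hi).1 (le_antisymm (by linarith) h2)
  refine Measure.eqOn_open_of_ae_eq (μ := volume)
    (f := fun x => wt (G y) * |(fderiv ℝ (L y) x).det|) (g := fun x => wt (G x)) ?_ hm
    (continuous_const.mul (hP.continuous_jac.comp (Continuous.prodMk_right y)).abs).continuousOn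
    (contDiff_wt hP.loc).continuous.continuousOn
  filter_upwards [h4] with x hx
  exact (sub_eq_zero.1 ((mul_eq_zero.1 hx).resolve_left (hB x).ne')).symm

end Vale.Agent.P219
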