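import Vale.Agent.P219.GeoE1
import Vale.Agent.P219.LinAlg

/-!
# A global chart  (TASK)

`exists_gchart`: `φ = g.expC x` for any point `x` (instance `Metric.Cpl g` from `hc`), `exp_isHomeomorph`, `contDiffAt_exp_infty`, `NPC.immC`,
`det_ne_of_injective`; `G v = (g.g e (e (φ v))).bilinearComp A A` with `e = chartAt (φ v)`, `A = fderiv (e ∘ φ) v`; the formula in another chart follows
from `g.compat` and the chain rule (`tr_contDiffAt`).
`loc`: near `v` use the formula in the fixed chart at `φ v`.  `npc`: `riem_transform` with `τ = e ∘ φ`.  `cpl`: for data `(y, v)` take the geodesic `γ` of `g`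
through `φ y` with velocity `fderiv (e ∘ φ) y v` and put `c = φ⁻¹ ∘ γ`; near a time `t`, `c = σ ∘ (e ∘ γ)` with `σ = φ⁻¹ ∘ e.symm` the smooth local inverse
of `e ∘ φ` (`symm_smooth`), a local isometry from `g.g e` to `G`; `geodesic_transform`, `IsGeodesic.eventually`; `w = deriv c`.
-/

namespace Vale.Agent.P219

open scoped ContDiff Topology Manifold RealInnerProductSpace ENNReal
open MeasureTheory Vale.Agent.P255 Set Filter

variable {n : ℕ} {M : Type*} [TopologicalSpace M] [ChartedSpace (Euc n) M]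
  [IsManifold 𝓘(ℝ, Euc n) ∞ M] {g : Metric (Euc n) M} {φ : Euc n → M} {G : Euc n → Bil (Euc n)}

/-- `φ` is a global parametrisation of `M` and `G` is the pulled back metric. -/
structure GChart (g : Metric (Euc n) M) (φ : Euc n → M) (G : Euc n → Bil (Euc n)) : Prop where
  homeo : IsHomeomorph φ
  smooth : ∀ e ∈ atlas (Euc n) M, ∀ v, φ v ∈ e.source → ContDiffAt ℝ ∞ (e ∘ φ) v
  det_ne : ∀ e ∈ atlas (Euc n) M, ∀ v, φ v ∈ e.source → (fderiv ℝ (e ∘ φ) v).det ≠ 0
  metric : ∀ e ∈ atlas (Euc n) M, ∀ v, φ v ∈ e.source → ∀ a b,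
    G v a b = g.g e (e (φ v)) (fderiv ℝ (e ∘ φ) v a) (fderiv ℝ (e ∘ φ) v b)

private theorem red1_chain {e e' : OpenPartialHomeomorph M (Euc n)} (he : e ∈ atlas (Euc n) M)
    (he' : e' ∈ atlas (Euc n) M) {v : Euc n} (hc : ContinuousAt φ v) (hx : φ v ∈ e.source)
    (hx' : φ v ∈ e'.source) (hd : DifferentiableAt ℝ (e ∘ φ) v) (a : Euc n) :
    fderiv ℝ (e' ∘ φ) v a = fderiv ℝ (e' ∘ e.symm) (e (φ v)) (fderiv ℝ (e ∘ φ) v a) := by
  have h : e' ∘ φ =ᶠ[𝓝 v] (e' ∘ e.symm) ∘ (e ∘ φ) := by
    filter_upwards [hc.preimage_mem_nhds (e.open_source.mem_nhds hx)] with y hy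
    simp only [Function.comp_apply, e.left_inv hy]
  rw [h.fderiv_eq,
    fderiv_comp (f := e ∘ φ) v ((tr_contDiffAt he he' hx hx').differentiableAt (by simp)) hd]
  rfl

theorem exists_gchart [T2Space M] [SimplyConnectedSpace M] (hc : Complete g) (hK : g.NPC) :
    ∃ φ G, GChart g φ G := by
  have : Metric.Cpl g := ⟨hc⟩
  obtain ⟨x⟩ : Nonempty M := inferInstance
  have hh := exp_isHomeomorph g hK x
  refine ⟨g.expC x, fun v => (g.ip (g.expC x v)).bilinearComp
    (fderiv ℝ (chartAt (Euc n) (g.expC x v) ∘ g.expC x) v)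
    (fderiv ℝ (chartAt (Euc n) (g.expC x v) ∘ g.expC x) v), hh,
    fun e he v hv => contDiffAt_exp_infty g x v he hv,
    fun e he v hv => det_ne_of_injective (hK.immC x v e he hv), fun e he v hv a b => ?_⟩
  have h1 := chart_mem_atlas (Euc n) (g.expC x v)
  have h2 := mem_chart_source (Euc n) (g.expC x v)
  have h3 := (contDiffAt_exp_infty g x v h1 h2).differentiableAt (by simp)
  rw [red1_chain h1 he hh.continuous.continuousAt h2 hv h3,
    red1_chain h1 he hh.continuous.continuousAt h2 hv h3, ← g.compat _ h1 e he _ h2 hv]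
  rfl

theorem GChart.symm_smooth (h : GChart g φ G) {e : OpenPartialHomeomorph M (Euc n)}
    (he : e ∈ atlas (Euc n) M) {v : Euc n} (hv : φ v ∈ e.source) :
    ContDiffAt ℝ ∞ (Function.invFun φ ∘ e.symm) (e (φ v)) := by
  obtain ⟨A, hA⟩ := isInvertible_of_det (h.det_ne e he v hv)
  have hs := h.smooth e he v hv
  let f := h.homeo.homeomorph.toOpenPartialHomeomorph ≫ₕ e
  have h0 : v ∈ f.source := ⟨mem_univ _, hv⟩
  have h1 : f.symm (e (φ v)) = v := f.left_inv h0
  have h2 : ContDiffAt ℝ ∞ f.symm (e (φ v)) := by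
    refine f.contDiffAt_symm (f₀' := A) (f.map_source h0) ?_ ?_
    · rw [h1, hA]
      exact (hs.differentiableAt (by simp)).hasFDerivAt
    · rw [h1]
      exact hs
  convert h2 using 1
  funext y
  refine h.homeo.injective ?_
  rw [Function.comp_apply, Function.rightInverse_invFun h.homeo.surjective]
  exact (h.homeo.homeomorph.apply_symm_apply _).symm

theorem GChart.loc (h : GChart g φ G) : LocMetric G univ := by
  have hc := h.homeo.continuous
  refine ⟨isOpen_univ, fun v _ => ContDiffAt.contDiffWithinAt ?_, fun y _ u v => ?_,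
    fun y _ u hu => ?_⟩
  · have he := chart_mem_atlas (Euc n) (φ v)
    refine ContDiffOn.contDiffAt (s := φ ⁻¹' (chartAt (Euc n) (φ v)).source) ?_
      (hc.continuousAt.preimage_mem_nhds (chart_source_mem_nhds _ _))
    refine contDiffOn_clm_apply.2 fun a => contDiffOn_clm_apply.2 fun b => ?_
    refine ContDiffOn.congr (fun z hz => ContDiffAt.contDiffWithinAt ?_)
      fun z hz => h.metric _ he z hz a b
    have h1 := h.smooth _ he z hz
    have h2 := h1.fderiv_right (m := ∞) (by simp)
    exact ((((g.loc he).loc_contDiffAt ((chartAt (Euc n) (φ v)).map_source hz)).comp z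
      h1).clm_apply (h2.clm_apply contDiffAt_const)).clm_apply (h2.clm_apply contDiffAt_const)
  · have he := chart_mem_atlas (Euc n) (φ y)
    have hy := mem_chart_source (Euc n) (φ y)
    rw [h.metric _ he y hy, h.metric _ he y hy, g.symm _ he _ (mem_chart_target _ _)]
  · have he := chart_mem_atlas (Euc n) (φ y)
    have hy := mem_chart_source (Euc n) (φ y)
    rw [h.metric _ he y hy]
    exact g.pos _ he _ (mem_chart_target _ _) _
      ((map_ne_zero_iff _ (isInvertible_of_det (h.det_ne _ he y hy)).injective).2 hu)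

private theorem red1_inv (h : GChart g φ G) {e : OpenPartialHomeomorph M (Euc n)}
    (he : e ∈ atlas (Euc n) M) {v : Euc n} (hv : φ v ∈ e.source) (u : Euc n) :
    fderiv ℝ (e ∘ φ) v (fderiv ℝ (Function.invFun φ ∘ e.symm) (e (φ v)) u) = u := by
  have h0 : (Function.invFun φ ∘ e.symm) (e (φ v)) = v := by
    rw [Function.comp_apply, e.left_inv hv, Function.leftInverse_invFun h.homeo.injective]
  have h1 : (e ∘ φ) ∘ (Function.invFun φ ∘ e.symm) =ᶠ[𝓝 (e (φ v))] id := by
    filter_upwards [e.open_target.mem_nhds (e.map_source hv)] with y hy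
    simp only [Function.comp_apply, Function.rightInverse_invFun h.homeo.surjective _,
      e.right_inv hy, id]
  have h2 := h1.fderiv_eq (𝕜 := ℝ)
  rw [fderiv_comp _ (by rw [h0]; exact (h.smooth e he v hv).differentiableAt (by simp))
    ((h.symm_smooth he hv).differentiableAt (by simp)), h0, fderiv_id] at h2
  exact congrArg (fun A : Euc n →L[ℝ] Euc n => A u) h2

private theorem red1_d (h : GChart g φ G) {e : OpenPartialHomeomorph M (Euc n)}
    (he : e ∈ atlas (Euc n) M) {γ : ℝ → M} (hγ : g.IsGeodesic γ univ) {t : ℝ}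
    (ht : γ t ∈ e.source) : HasDerivAt (Function.invFun φ ∘ γ)
      (fderiv ℝ (Function.invFun φ ∘ e.symm) (e (γ t)) (deriv (e ∘ γ) t)) t := by
  obtain ⟨v, hv⟩ := h.homeo.surjective (γ t)
  have h1 := (h.symm_smooth he (hv ▸ ht)).differentiableAt (by simp)
  rw [hv] at h1
  refine (h1.hasFDerivAt.comp_hasDerivAt t
    (hγ.2 e he t (mem_univ t) ht).1.hasDerivAt).congr_of_eventuallyEq ?_
  filter_upwards [(continuousOn_univ.1 hγ.1).continuousAt.preimage_mem_nhds
    (e.open_source.mem_nhds ht)] with s hs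
  simp only [Function.comp_apply, e.left_inv hs]

theorem GChart.ch (h : GChart g φ G) (hc : Complete g) (hK : g.NPC) : CH G := by
  refine ⟨h.loc, fun y u v => ?_, fun y v => ?_⟩
  · have he := chart_mem_atlas (Euc n) (φ y)
    have hy := mem_chart_source (Euc n) (φ y)
    rw [h.metric _ he y hy, riem_transform h.loc (g.loc he) (mem_univ y) (mem_chart_target _ _)
      ((h.smooth _ he y hy).of_le (by norm_cast)) ?_]
    · exact hK _ he _ (mem_chart_target _ _) _ _
    · filter_upwards [h.homeo.continuous.continuousAt.preimage_mem_nhds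
        (chart_source_mem_nhds (Euc n) (φ y))] with z hz using h.metric _ he z hz
  obtain ⟨γ, hγ, h0, h1⟩ := hc (φ y) (fderiv ℝ (chartAt (Euc n) (φ y) ∘ φ) y v)
  refine ⟨Function.invFun φ ∘ γ, deriv (Function.invFun φ ∘ γ), ?_, ?_, fun t => ?_⟩
  · rw [Function.comp_apply, h0, Function.leftInverse_invFun h.homeo.injective]
  · have he := chart_mem_atlas (Euc n) (φ y)
    have hy := mem_chart_source (Euc n) (φ y)
    rw [(red1_d h he hγ (h0 ▸ hy)).deriv, h1, h0]
    exact (isInvertible_of_det (h.det_ne _ he y hy)).injective (red1_inv h he hy _)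
  have he := chart_mem_atlas (Euc n) (γ t)
  have ht := mem_chart_source (Euc n) (γ t)
  generalize chartAt (Euc n) (γ t) = e at he ht
  have h2 := red1_d h he hγ ht
  refine ⟨h2.differentiableAt.hasDerivAt, ?_⟩
  have h3 : deriv (Function.invFun φ ∘ γ) =ᶠ[𝓝 t]
      fun s => fderiv ℝ (Function.invFun φ ∘ e.symm) ((e ∘ γ) s) (deriv (e ∘ γ) s) := by
    filter_upwards [(continuousOn_univ.1 hγ.1).continuousAt.preimage_mem_nhds
      (e.open_source.mem_nhds ht)] with s hs using (red1_d h he hγ hs).deriv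
  obtain ⟨z, hz⟩ := h.homeo.surjective (γ t)
  have h4 := h.symm_smooth he (hz ▸ ht)
  rw [hz] at h4
  have h5 := geodesic_transform (g.loc he) h.loc (τ := Function.invFun φ ∘ e.symm) (x := e ∘ γ)
    (v := deriv (e ∘ γ)) (e.map_source ht) (mem_univ _) (h4.of_le (by norm_cast)) ?_
    (hγ.2 e he t (mem_univ t) ht).1.hasDerivAt (hγ.2 e he t (mem_univ t) ht).2
  · have h6 : (Function.invFun φ ∘ e.symm) ((e ∘ γ) t) = (Function.invFun φ ∘ γ) t := by
      simp only [Function.comp_apply, e.left_inv ht]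
    rw [h6] at h5
    rw [h2.deriv]
    exact h5.congr_of_eventuallyEq h3
  · filter_upwards [e.open_target.mem_nhds (e.map_source ht)] with p hp a b
    obtain ⟨q, hq⟩ := h.homeo.surjective (e.symm p)
    have h6 : φ q ∈ e.source := hq ▸ e.map_target hp
    have h7 : e (φ q) = p := by rw [hq, e.right_inv hp]
    have h8 : (Function.invFun φ ∘ e.symm) p = q := by
      rw [Function.comp_apply, ← hq, Function.leftInverse_invFun h.homeo.injective]
    rw [h8, h.metric e he q h6, ← h7, red1_inv h he h6, red1_inv h he h6]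

end Vale.Agent.P219
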