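import Vale.Agent.P219.Var
import Vale.Agent.P219.Field
import Vale.Agent.P219.Confine
import Vale.Agent.P219.CertErr
import Vale.Agent.P219.QcLow

/-!
# One step of the deformation  (TASK)

`K = {y | qq y 0 ≤ c}` (compact, `proper`; closed, so it contains `closure D.Ω` and all `p ξ`).  Get `J, R` from `radial_bound`, `ε, e`
from `exists_err` with `η / (2 J)`, `κ = η / (8 √c)`, then `C, Z` from `exists_field`, `C', τ₀` from `exists_var`, `confine`, `inward`
(first clause of the field with `l = G y (L y 0)`).  Put `t ξ = wt (G y) * N (Z y)`, `y = p ξ` (`Dom.integrable_apply`; `|t| ≤ C a` from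
`exists_ad_le`).  For `N ≠ 0`, `ν = nu`, `r = rr y x`, `s = -G y ν (L y x)`, `ρ = √(r² + ε²)`: summing the second clause over the frame,
`T = ∫ (4 chi ρ + chi1 ρ / ρ (r² - s²)) wt ≤ ∑ lie / 2`; by the first clause with `l = N = dn • G y ν`,
`t = a (∫ chi ρ s wt + κ G y ν (-L y 0))` and `|G y ν (L y 0)| ≤ √c`.  Hence
`a T - 4 t ≥ a ∫ (Bg ρ r s - 1) wt - 4 κ √c a ≥ Qc - a vol - η a` (`integrableOn_Qc`; `x = y` is a null set, `rr_pos`, `rr_sq`).
-/

namespace Vale.Agent.P219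

open scoped ContDiff Topology RealInnerProductSpace
open MeasureTheory Set Vale.Agent.P255

variable {E : Type*} [NormedAddCommGroup E] [InnerProductSpace ℝ E] [FiniteDimensional ℝ E]
  [MeasurableSpace E] [BorelSpace E]
  {X : Type*} [MeasurableSpace X] {μ : Measure X}
  {G : E → Bil E} {L : E → E → E}

theorem step_pt (hE : Module.finrank ℝ E = 5) (hP : Pack G L) {S : Set E} (hm : MeasurableSet S)
    (hS : Bornology.IsBounded S) {y : E} {N : E →L[ℝ] ℝ} (hN : N ≠ 0) {ε κ c η₁ : ℝ} (hε : 0 < ε)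
    (hκ : 0 ≤ κ) (hy : qq G L y 0 ≤ c) {e : ℝ → ℝ}
    (he : ∀ r s : ℝ, 0 < r → |s| ≤ r → Bf r s - e r ≤ Bg (√(r ^ 2 + ε ^ 2)) r s)
    (hi : IntegrableOn (fun x => e (rr G L y x) * wt (G x)) S)
    (hb : ∫ x in S, e (rr G L y x) * wt (G x) ≤ η₁) {ξ : E} {A : E →L[ℝ] E}
    (h1 : N ξ = (∫ x in S, chi (√(qq G L y x + ε ^ 2)) * N (-L y x) * wt (G x)) + κ * N (-L y 0))
    (h2 : ∀ h : E, ∫ x in S, (chi (√(qq G L y x + ε ^ 2)) * G y h h +
      chi1 (√(qq G L y x + ε ^ 2)) / √(qq G L y x + ε ^ 2) * G y (L y x) h ^ 2) * wt (G x) ≤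
        lie G y ξ A h / 2) :
    ∃ T : ℝ, (∀ f : Fin 4 → E, (∀ i, G y (f i) (f i) = 1) →
        (∀ v, ∑ i, G y v (f i) ^ 2 = G y v v - G y (nu (G y) N) v ^ 2) →
          T ≤ (∑ i, lie G y ξ A (f i)) / 2) ∧
      4 * (wt (G y) * N ξ) - ad (G y) N * vol G S + Qc G L S y N -
        (η₁ + 4 * κ * √c) * ad (G y) N ≤ ad (G y) N * T := by
  have hB := posB_of_loc hP.loc y
  obtain ⟨hd, hν, hNν⟩ := nu_spec hB hN
  set ν := nu (G y) N with hνd
  have hcl : IsCompact (closure S) := hS.isCompact_closure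
  have hL : Continuous (L y) := hP.smooth.continuous.comp (Continuous.prodMk_right y)
  have hq : Continuous fun x => qq G L y x :=
    hP.contDiff_qq.continuous.comp (Continuous.prodMk_right y)
  have hq0 : ∀ x, 0 ≤ qq G L y x := fun x => hB.nonneg _
  have hρ : Continuous fun x => √(qq G L y x + ε ^ 2) := by fun_prop
  have hρ0 : ∀ x, 0 < √(qq G L y x + ε ^ 2) := fun x =>
    Real.sqrt_pos.2 (by have := hq0 x; positivity)
  have hχ : Continuous fun x => chi (√(qq G L y x + ε ^ 2)) :=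
    continuous_iff_continuousAt.2 fun x =>
      ContinuousAt.comp (f := fun x => √(qq G L y x + ε ^ 2))
        (contDiffAt_chi (hρ0 x)).continuousAt hρ.continuousAt
  have hχ1 : Continuous fun x => chi1 (√(qq G L y x + ε ^ 2)) / √(qq G L y x + ε ^ 2) := by
    refine Continuous.div ?_ hρ fun x => (hρ0 x).ne'
    unfold chi1
    refine Continuous.div (by fun_prop) (by fun_prop) fun x => ?_
    have := hρ0 x
    positivity
  have hw : Continuous fun x => wt (G x) := (contDiff_wt hP.loc).continuous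
  have hI : ∀ {f : E → ℝ}, Continuous f → IntegrableOn f S := fun hf =>
    (hf.continuousOn.integrableOn_compact hcl).mono_set subset_closure
  set F : E → ℝ := fun x => (4 * chi (√(qq G L y x + ε ^ 2)) +
    chi1 (√(qq G L y x + ε ^ 2)) / √(qq G L y x + ε ^ 2) *
      (qq G L y x - G y ν (L y x) ^ 2)) * wt (G x) with hF
  have hFc : Continuous F := by rw [hF]; fun_prop
  refine ⟨∫ x in S, F x, fun f hf1 hf2 => ?_, ?_⟩
  · rw [Finset.sum_div]
    refine le_trans (le_of_eq ?_) (Finset.sum_le_sum fun i _ => h2 (f i))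
    rw [← integral_finsetSum _ fun i _ => hI (by fun_prop)]
    refine integral_congr_ae (Filter.Eventually.of_forall fun x => ?_)
    have := hf2 (L y x)
    simp only [hF, hf1, Fin.sum_univ_four] at this ⊢
    rw [show qq G L y x - G y ν (L y x) ^ 2 = _ from this.symm]
    ring
  · have ha : 0 ≤ ad (G y) N := ad_nonneg _ _
    set s : E → ℝ := fun x => -G y ν (L y x) with hs
    have hsc : Continuous s := by rw [hs]; fun_prop
    have e1 : wt (G y) * N ξ = ad (G y) N *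
        ((∫ x in S, chi (√(qq G L y x + ε ^ 2)) * s x * wt (G x)) + κ * s 0) := by
      rw [h1, mul_add, mul_add, ← integral_const_mul, ← integral_const_mul]
      congr 1
      · refine integral_congr_ae (Filter.Eventually.of_forall fun x => ?_)
        simp only [hNν, hs, map_neg, ad]
        ring
      · simp only [hNν, hs, map_neg, ad]
        ring
    have e2 : Qc G L S y N = ad (G y) N * ∫ x in S, Bf (rr G L y x) (s x) * wt (G x) := by
      rw [Qc, ← integral_const_mul]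
      refine integral_congr_ae (Filter.Eventually.of_forall fun x => ?_)
      simp only [hs]
      ring
    have hsr : ∀ x, |s x| ≤ rr G L y x := fun x => by
      refine Real.abs_le_sqrt ?_
      have := hB.sq_le ν (L y x)
      rw [hν, one_mul] at this
      simpa [hs, qq] using this
    have e3 : s 0 ≤ √c := (le_abs_self _).trans ((hsr 0).trans (Real.sqrt_le_sqrt hy))
    have hQ := hP.integrableOn_Qc hE hm hS y hν
    have hI1 : IntegrableOn (fun x => chi (√(qq G L y x + ε ^ 2)) * s x * wt (G x)) S :=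
      hI (by fun_prop)
    have : Nontrivial E := Module.nontrivial_of_finrank_pos (R := ℝ) (by omega)
    have e4 : ∫ x in S, (Bf (rr G L y x) (s x) * wt (G x) - e (rr G L y x) * wt (G x)) ≤
        ∫ x in S, (F x - 4 * (chi (√(qq G L y x + ε ^ 2)) * s x * wt (G x)) + wt (G x)) := by
      refine integral_mono_ae (hQ.sub hi) (hI (by fun_prop)) ?_
      filter_upwards [ae_restrict_of_ae (Set.Countable.ae_notMem (countable_singleton y) volume)]
        with x hx
      have h3 := he _ _ (hP.rr_pos (y := y) (x := x) hx) (hsr x)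
      have h4 := (wt_pos (posB_of_loc hP.loc x)).le
      have h5 := mul_le_mul_of_nonneg_right h3 h4
      rw [Bg, hP.rr_sq] at h5
      simp only [hF, hs, neg_sq] at h5 ⊢
      linarith
    rw [integral_sub hQ hi, integral_add (f := fun x => F x - 4 * (chi (√(qq G L y x + ε ^ 2)) *
      s x * wt (G x))) ((hI hFc).sub (hI1.const_mul 4)) (hI hw),
      integral_sub (hI hFc) (hI1.const_mul 4), integral_const_mul] at e4
    rw [e1, e2, vol]
    have e5 : κ * s 0 ≤ κ * √c := mul_le_mul_of_nonneg_left e3 hκ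
    have e6 := mul_le_mul_of_nonneg_left (show 4 * ((∫ x in S, chi (√(qq G L y x + ε ^ 2)) * s x *
      wt (G x)) + κ * s 0) - (∫ x in S, wt (G x)) + (∫ x in S, Bf (rr G L y x) (s x) * wt (G x)) -
      (η₁ + 4 * κ * √c) ≤ ∫ x in S, F x by linarith) ha
    linarith

theorem Pack.step (hE : Module.finrank ℝ E = 5) (hP : Pack G L) {c η : ℝ} (hc : 0 < c)
    (hη : 0 < η) :
    ∃ C τ₀ : ℝ, 0 < C ∧ 0 < τ₀ ∧ ∀ D : Dom E μ, D.Ω ⊆ {y | qq G L y 0 ≤ c} →
      ∀ τ : ℝ, 0 < τ → τ ≤ τ₀ → ∃ (D' : Dom E μ) (t : X → ℝ), D'.Ω ⊆ {y | qq G L y 0 ≤ c} ∧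
        Integrable t μ ∧ (∀ ξ, |t ξ| ≤ C * ad (G (D.p ξ)) (D.N ξ)) ∧
        vol G D.Ω - τ * ∫ ξ, t ξ ∂μ - C * τ ^ 2 ≤ vol G D'.Ω ∧
        ∀ ξ, ad (G (D'.p ξ)) (D'.N ξ) ≤ ad (G (D.p ξ)) (D.N ξ) -
          τ * (4 * t ξ - ad (G (D.p ξ)) (D.N ξ) * vol G D.Ω + Qc G L D.Ω (D.p ξ) (D.N ξ) -
            η * ad (G (D.p ξ)) (D.N ξ)) + C * τ ^ 2 * ad (G (D.p ξ)) (D.N ξ) := by
  set K := {y | qq G L y 0 ≤ c} with hKd
  have hK : IsCompact K := hP.proper c
  obtain ⟨J, R, hJ, hR, -, hrad⟩ := hP.radial_bound hK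
  obtain ⟨ε, hε, e, hem, he0, hei, heb, he⟩ := exists_err hE R (η := η / (2 * J)) (by positivity)
  have hsc : 0 < √c := Real.sqrt_pos.2 hc
  set κ := η / (8 * √c) with hκd
  have hκ : 0 < κ := by positivity
  obtain ⟨C, hC, hF⟩ := hP.exists_field hK hε hκ.le
  obtain ⟨C', τ₁, hC', hτ₁, hV⟩ := exists_var (μ := μ) hE hP.loc hK C
  obtain ⟨C₁, hin⟩ := hP.inward c hε
  obtain ⟨τ₂, hτ₂, hcf⟩ := hP.confine hc hκ C C₁
  obtain ⟨C₂, hC₂, had⟩ := exists_ad_le hP.loc hK
  obtain ⟨C₃, hC₃⟩ := hK.exists_bound_of_continuousOn (contDiff_wt hP.loc).continuous.continuousOn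
  refine ⟨C' + (|C₃| + 1) * C₂ * C, min τ₁ τ₂, by positivity, lt_min hτ₁ hτ₂,
    fun D hD τ h0 h1 => ?_⟩
  have hcl : closure D.Ω ⊆ K := closure_minimal hD hK.isClosed
  have hm := D.isOpen.measurableSet
  obtain ⟨Z, hZ, hZb, hZK⟩ := hF D.Ω hm hD
  obtain ⟨D', hΩ, hvol, har⟩ := hV D Z hcl hZ hZb τ h0 (h1.trans (min_le_left _ _))
  have hp : ∀ ξ, D.p ξ ∈ K := fun ξ => hcl (frontier_subset_closure (D.p_mem ξ))
  have hX : 0 ≤ (|C₃| + 1) * C₂ * C := by positivity
  refine ⟨D', fun ξ => wt (G (D.p ξ)) * D.N ξ (Z (D.p ξ)), ?_, ?_, fun ξ => ?_, ?_, fun ξ => ?_⟩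
  · rw [hΩ]
    rintro _ ⟨y, hy, rfl⟩
    refine hcf τ h0 (h1.trans (min_le_right _ _)) y (Z y) (hD hy) (hZb y).1 ?_
    have h2 := (hZK y (hD hy)).1 (G y (L y 0))
    have h3 := hin D.Ω hm hD y (hD hy)
    rw [h2]
    simp only [map_neg] at h3 ⊢
    unfold qq at h3 ⊢
    linarith
  · have := D.integrable_apply (Z := fun y => wt (G y) • Z y)
      ((contDiff_wt hP.loc).continuous.smul hZ.continuous)
    simpa using this
  · have h2 := (had _ (hp ξ) (D.N ξ)).2
    have h3 : |D.N ξ (Z (D.p ξ))| ≤ ‖D.N ξ‖ * C :=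
      ((D.N ξ).le_opNorm _).trans (mul_le_mul_of_nonneg_left (hZb _).1 (norm_nonneg _))
    have h4 : |wt (G (D.p ξ))| ≤ |C₃| + 1 := (hC₃ _ (hp ξ)).trans (by linarith [le_abs_self C₃])
    have h5 := ad_nonneg (G (D.p ξ)) (D.N ξ)
    rw [abs_mul]
    calc _ ≤ (|C₃| + 1) * (C₂ * ad (G (D.p ξ)) (D.N ξ) * C) :=
          mul_le_mul h4 (h3.trans (mul_le_mul_of_nonneg_right h2 hC.le)) (abs_nonneg _)
            (by positivity)
      _ ≤ _ := by nlinarith [mul_nonneg hC'.le h5]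
  · nlinarith [mul_nonneg hX (sq_nonneg τ)]
  · have h5 := ad_nonneg (G (D.p ξ)) (D.N ξ)
    have h6 : C' * τ ^ 2 * ad (G (D.p ξ)) (D.N ξ) ≤
        (C' + (|C₃| + 1) * C₂ * C) * τ ^ 2 * ad (G (D.p ξ)) (D.N ξ) := by
      gcongr
      linarith
    by_cases hN : D.N ξ = 0
    · have h7 := har ξ 0 fun h => absurd hN h
      simp only [hN, ad_zero, Qc] at h7 ⊢
      simpa using h7
    · obtain ⟨hi, hb⟩ := hrad _ (hp ξ) D.Ω hm hD e hem he0 hei
      have hb' : ∫ x in D.Ω, e (rr G L (D.p ξ) x) * wt (G x) ≤ η / 2 := by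
        refine hb.trans ((mul_le_mul_of_nonneg_left heb hJ.le).trans (le_of_eq ?_))
        field_simp
      obtain ⟨T, hT1, hT2⟩ := step_pt hE hP hm D.bdd hN hε hκ.le (hp ξ) he hi hb'
        ((hZK _ (hp ξ)).1 (D.N ξ)) (hZK _ (hp ξ)).2
      have h7 := har ξ T fun _ => hT1
      have h8 : η / 2 + 4 * κ * √c = η := by
        rw [hκd]
        field_simp
        ring
      rw [h8] at hT2
      have h9 := mul_le_mul_of_nonneg_left hT2 h0.le
      linarith

end Vale.Agent.P219
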