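import Vale.Agent.P255.Defs

/-!
Definitions used by the final statement: geodesic completeness, Riemannian measures and smooth
domains, over a general model space.
-/

namespace Vale.Agent.P219.St

open scoped ContDiff Manifold ENNReal
open Vale.Agent.P255 MeasureTheory Set

/-- Euclidean `k`-space. -/
abbrev Euc (k : ℕ) : Type := EuclideanSpace ℝ (Fin k)

variable {E F M : Type*} [NormedAddCommGroup E] [NormedSpace ℝ E] [NormedAddCommGroup F]
  [NormedSpace ℝ F] [TopologicalSpace M] [ChartedSpace E M]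

/-- Geodesic completeness: every tangent vector is the initial velocity of a geodesic defined for
all times. -/
def Complete (g : Metric E M) : Prop :=
  ∀ (x : M) (v : E), ∃ γ, g.IsGeodesic γ univ ∧ γ 0 = x ∧ deriv (chartAt E x ∘ γ) 0 = v

/-- The pull-back of the metric under `φ` at `z`: `g(dφ u, dφ v)`. -/
noncomputable def pull (g : Metric E M) (φ : F → M) (z u v : F) : ℝ :=
  g.g (chartAt E (φ z)) (chartAt E (φ z) (φ z))
    (fderiv ℝ (chartAt E (φ z) ∘ φ) z u) (fderiv ℝ (chartAt E (φ z) ∘ φ) z v)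

/-- The `k`-dimensional volume element `√det g(∂ᵢφ, ∂ⱼφ)` of a parametrisation. -/
noncomputable def dens (g : Metric E M) {k : ℕ} (φ : Euc k → M) (z : Euc k) : ℝ :=
  √(Matrix.of fun i j : Fin k =>
    pull g φ z (EuclideanSpace.single i 1) (EuclideanSpace.single j 1)).det

variable (E) in
/-- `φ` is a `C¹` injective parametrisation on `S` of a piece of `Z`. -/
def Param (φ : F → M) (S : Set F) (Z : Set M) : Prop :=
  (∀ z ∈ S, ContMDiffAt 𝓘(ℝ, F) 𝓘(ℝ, E) 1 φ z) ∧ InjOn φ S ∧ MapsTo φ S Z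

/-- The `k`-dimensional Riemannian measure of `Z`: the supremum of the total volume of finitely
many disjoint pieces of `Z` parametrised injectively by `C¹` maps on Borel sets of `ℝᵏ`. -/
noncomputable def rmeas (g : Metric E M) (k : ℕ) (Z : Set M) : ℝ≥0∞ :=
  ⨆ (N : ℕ) (φ : Fin N → Euc k → M) (S : Fin N → Set (Euc k))
    (_ : ∀ i, MeasurableSet (S i) ∧ Param E (φ i) (S i) Z)
    (_ : ∀ i j, i ≠ j → Disjoint (φ i '' S i) (φ j '' S j)),
    ∑ i, ∫⁻ z in S i, ENNReal.ofReal (dens g (φ i) z)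

variable (E) in
/-- A domain: an open set with compact closure and smooth boundary. -/
structure IsDomain (Ω : Set M) : Prop where
  isOpen : IsOpen Ω
  compact : IsCompact (closure Ω)
  bdry : ∀ p ∈ frontier Ω, ∃ (U : Set M) (f : M → ℝ), IsOpen U ∧ p ∈ U ∧
    ContMDiffOn 𝓘(ℝ, E) 𝓘(ℝ, ℝ) ∞ f U ∧ mfderiv 𝓘(ℝ, E) 𝓘(ℝ, ℝ) f p ≠ 0 ∧
      Ω ∩ U = {x ∈ U | f x < 0}

/-- `ψ` is a smooth bijection from `B` onto `Ω` that pulls the metric back to the form `b`. -/
def Isom (g : Metric E M) (ψ : F → M) (B : Set F) (Ω : Set M) (b : F → F → ℝ) : Prop :=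
  BijOn ψ B Ω ∧ ContMDiffOn 𝓘(ℝ, F) 𝓘(ℝ, E) ∞ ψ B ∧ ∀ z ∈ B, ∀ u v, pull g ψ z u v = b u v

end Vale.Agent.P219.St
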